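import Vale.Agent.P365.T1.OneVar
import Vale.Agent.P365.T1.Defs

/-!
# P365 T1: insulated site lemma, step (6): the gain on the line of the sink `z`

Two sites `y, z`, everything else eliminated: the wave is
`((V - s) • A + B) / ((ω - h) (V - s) - τ²)`, `ω` = position of `y`, `V` = potential of `z`.
-/

set_option linter.all false

namespace P365T1.ISL

open Complex MeasureTheory
open scoped ENNReal

/-- the two-site system: `h`, `s` self-energies of `y`, `z`, `τ` coupling, `ω`, `ζ` reference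
positions of `y` and `z` -/
structure Two (h s τ ω ζ : ℂ) : Prop where
  hh : 0 ≤ h.im
  hs : 0 < s.im
  hτ : τ.im ^ 2 ≤ h.im * s.im
  hω : ω.im = -1
  hζ : ζ.im ≤ -1 / 2

/-- self-energy of `z`, `y` at its reference -/
noncomputable def szz (h s τ ω : ℂ) : ℂ := s + τ ^ 2 / (ω - h)

/-- self-energy of `y`, `z` at its reference -/
noncomputable def hzz (h s τ ζ : ℂ) : ℂ := h + τ ^ 2 / (ζ - s)

variable {h s τ ω ζ : ℂ}

theorem Two.one_le (T : Two h s τ ω ζ) : 1 ≤ ‖ω - h‖ := by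
  have h1 := Complex.abs_im_le_norm (ω - h)
  rw [Complex.sub_im, T.hω] at h1
  have h2 : (1 : ℝ) ≤ |-1 - h.im| := by
    rw [abs_of_nonpos (by linarith [T.hh])]
    linarith [T.hh]
  linarith

theorem Two.ne_w (T : Two h s τ ω ζ) : ω - h ≠ 0 := by
  rw [← norm_pos_iff]
  linarith [T.one_le]

theorem Two.ne_z (T : Two h s τ ω ζ) : ζ - s ≠ 0 := by
  intro h0
  have := congrArg Complex.im h0
  rw [Complex.sub_im, Complex.zero_im] at this
  linarith [T.hs, T.hζ]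

/-- the formula for the imaginary part of the self-energy -/
theorem Two.im_eq (T : Two h s τ ω ζ) :
    (szz h s τ ω).im = s.im + 2 * τ.im * (τ / (ω - h)).re + (1 + h.im) * ‖τ / (ω - h)‖ ^ 2 := by
  have h1 : τ ^ 2 / (ω - h) = τ * (τ / (ω - h)) := by ring
  set q : ℂ := τ / (ω - h) with hq
  have h2 : q * (ω - h) = τ := by rw [hq, div_mul_cancel₀ _ T.ne_w]
  rw [szz, h1, Complex.add_im, Complex.mul_im, ← Complex.normSq_eq_norm_sq, Complex.normSq_apply]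
  have h3 := congrArg Complex.re h2
  have h4 := congrArg Complex.im h2
  rw [Complex.mul_re, Complex.sub_re, Complex.sub_im, T.hω] at h3
  rw [Complex.mul_im, Complex.sub_re, Complex.sub_im, T.hω] at h4
  linear_combination (-q.im) * h3 + q.re * h4

/-- the self-energy of `z` absorbs at least what `y` absorbs through the coupling -/
theorem Two.ward (T : Two h s τ ω ζ) : ‖τ‖ ^ 2 / ‖ω - h‖ ^ 2 ≤ (szz h s τ ω).im := by
  rw [T.im_eq, ← div_pow, ← norm_div]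
  set q : ℂ := τ / (ω - h) with hq
  have h1 : q.re ^ 2 ≤ ‖q‖ ^ 2 := by
    rw [← Complex.normSq_eq_norm_sq, Complex.normSq_apply]
    nlinarith [sq_nonneg q.im]
  have h2 : (2 * τ.im * q.re) ^ 2 ≤ (s.im + h.im * ‖q‖ ^ 2) ^ 2 := by
    have h3 : τ.im ^ 2 * q.re ^ 2 ≤ (h.im * s.im) * ‖q‖ ^ 2 :=
      mul_le_mul T.hτ h1 (sq_nonneg _) (mul_nonneg T.hh T.hs.le)
    nlinarith [sq_nonneg (s.im - h.im * ‖q‖ ^ 2)]
  have h4 : 0 ≤ s.im + h.im * ‖q‖ ^ 2 := by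
    have := mul_nonneg T.hh (sq_nonneg ‖q‖)
    linarith [T.hs]
  have h5 := abs_le_of_sq_le_sq' h2 h4
  nlinarith [h5.1]

theorem Two.sz_im_nonneg (T : Two h s τ ω ζ) : 0 ≤ (szz h s τ ω).im :=
  le_trans (by positivity) T.ward

/-- the imaginary part of the bare self-energy of `z` -/
theorem Two.w_le (T : Two h s τ ω ζ) : s.im ≤ (1 + h.im) * (szz h s τ ω).im := by
  rw [T.im_eq]
  set q : ℂ := τ / (ω - h) with hq
  have h1 : q.re ^ 2 ≤ ‖q‖ ^ 2 := by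
    rw [← Complex.normSq_eq_norm_sq, Complex.normSq_apply]
    nlinarith [sq_nonneg q.im]
  have h2 := T.hh
  have h3 := T.hτ
  have h4 : 0 ≤ (1 + h.im) ^ 2 * (‖q‖ ^ 2 - q.re ^ 2) :=
    mul_nonneg (sq_nonneg _) (by linarith)
  nlinarith [sq_nonneg (τ.im + (1 + h.im) * q.re)]

theorem Two.sz_im_pos (T : Two h s τ ω ζ) : 0 < (szz h s τ ω).im := by
  have h1 := T.w_le
  have h2 := T.hs
  have h3 := T.hh
  by_contra h4
  push Not at h4
  nlinarith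

theorem Two.prod_eq (T : Two h s τ ω ζ) :
    (ω - hzz h s τ ζ) * (ζ - s) = (ω - h) * (ζ - szz h s τ ω) := by
  rw [hzz, szz]
  have h1 := T.ne_w
  have h2 := T.ne_z
  field_simp
  ring

/-- **smallness of the coupling**: if `y` is insulated when `z` is at its reference and the
self-energy of `z` is at distance `d` from the real line -/
theorem Two.small (T : Two h s τ ω ζ) {C d : ℝ} (hC : ‖ω - hzz h s τ ζ‖ ≤ C)
    (hd : (szz h s τ ω).im ≤ d) (hd1 : 4 * C * d ≤ 1) :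
    ‖ω - h‖ ≤ 2 * C ∧ ‖h - hzz h s τ ζ‖ ≤ 4 * C ^ 2 * d ∧ ‖τ‖ ^ 2 ≤ 4 * C ^ 2 * d := by
  have h1 := T.one_le
  have h2 : 0 < ‖ω - h‖ := by linarith
  have hd0 : 0 ≤ d := T.sz_im_nonneg.trans hd
  have hτ1 : ‖τ‖ ^ 2 ≤ d * ‖ω - h‖ ^ 2 := by
    have := T.ward.trans hd
    rwa [div_le_iff₀ (by positivity)] at this
  have hz : 1 / 2 ≤ ‖ζ - szz h s τ ω‖ := by
    have h3 := Complex.abs_im_le_norm (ζ - szz h s τ ω)
    rw [Complex.sub_im] at h3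
    have h4 : (1 : ℝ) / 2 ≤ |ζ.im - (szz h s τ ω).im| := by
      rw [abs_of_nonpos (by linarith [T.hζ, T.sz_im_nonneg])]
      linarith [T.hζ, T.sz_im_nonneg]
    linarith
  have h5 : ‖ω - hzz h s τ ζ‖ * ‖ζ - s‖ = ‖ω - h‖ * ‖ζ - szz h s τ ω‖ := by
    rw [← norm_mul, ← norm_mul, T.prod_eq]
  have h6 : 0 < ‖ζ - s‖ := norm_pos_iff.2 T.ne_z
  have h7 : ‖ω - h‖ * (1 / 2) ≤ C * ‖ζ - s‖ := by
    calc ‖ω - h‖ * (1 / 2) ≤ ‖ω - h‖ * ‖ζ - szz h s τ ω‖ := by gcongr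
      _ = ‖ω - hzz h s τ ζ‖ * ‖ζ - s‖ := h5.symm
      _ ≤ C * ‖ζ - s‖ := by gcongr
  have h8 : ‖h - hzz h s τ ζ‖ = ‖τ‖ ^ 2 / ‖ζ - s‖ := by
    rw [hzz, sub_add_cancel_left, norm_neg, norm_div, norm_pow]
  have hC0 : 0 ≤ C := (norm_nonneg _).trans hC
  have h9 : ‖h - hzz h s τ ζ‖ ≤ 2 * C * d * ‖ω - h‖ := by
    rw [h8, div_le_iff₀ h6]
    calc ‖τ‖ ^ 2 ≤ d * ‖ω - h‖ ^ 2 := hτ1
      _ = 2 * d * ‖ω - h‖ * (‖ω - h‖ * (1 / 2)) := by ring
      _ ≤ 2 * d * ‖ω - h‖ * (C * ‖ζ - s‖) := by gcongr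
      _ = 2 * C * d * ‖ω - h‖ * ‖ζ - s‖ := by ring
  have h10 : ‖ω - h‖ ≤ 2 * C := by
    have h11 : ‖ω - h‖ ≤ ‖ω - hzz h s τ ζ‖ + ‖h - hzz h s τ ζ‖ := by
      have : ω - h = (ω - hzz h s τ ζ) - (h - hzz h s τ ζ) := by ring
      rw [this]
      exact norm_sub_le _ _
    nlinarith
  refine ⟨h10, ?_, ?_⟩
  · calc ‖h - hzz h s τ ζ‖ ≤ 2 * C * d * ‖ω - h‖ := h9
      _ ≤ 2 * C * d * (2 * C) := by gcongr
      _ = 4 * C ^ 2 * d := by ring
  · calc ‖τ‖ ^ 2 ≤ d * ‖ω - h‖ ^ 2 := hτ1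
      _ ≤ d * (2 * C) ^ 2 := by gcongr
      _ = 4 * C ^ 2 * d := by ring

end P365T1.ISL
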