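import Vale.Agent.P365.ISL.Two755

/-!
# P365 T1, insulated site lemma: the line hypothesis of `isl_core` from the two-site inequality
-/

set_option linter.all false

namespace P365T1.ISL755

open P365L P365O P365T1 P365T1.OneVar P365T1.ISL P365T1.Link Matrix Complex MeasureTheory Function
open scoped ComplexConjugate ENNReal

variable {ι : Type*} [Fintype ι] [DecidableEq ι] {A : Matrix ι ι ℝ}

/-- the two-site inequality (numbers only) -/
def AbsLine (νz νy : Measure ℝ) (E ez ey x0 η1 R1 : ℝ) (cb : ℝ≥0∞) : Prop :=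
  ∀ h s τ α β : ℂ, 0 ≤ h.im → 0 ≤ s.im → τ.im ^ 2 ≤ h.im * s.im →
    ‖h + τ ^ 2 / (-I - s) - (x0 : ℂ)‖ ≤ η1 →
    ∫⁻ t in {t : ℝ | R1 < ‖(-I - (s + τ ^ 2 / (-I - h))) /
        ((((t - E : ℝ) : ℂ) - (ez : ℂ) * I) - (s + τ ^ 2 / (-I - h)))‖},
      ENNReal.ofReal (‖(((((t - E : ℝ) : ℂ) - (ez : ℂ) * I) - s) * α + β) /
        ((-I - h) * ((((t - E : ℝ) : ℂ) - (ez : ℂ) * I) - s) - τ ^ 2)‖ ^ 2) ∂νz ≤
      cb * ∫⁻ t, ∫⁻ u, ENNReal.ofReal (‖(((((t - E : ℝ) : ℂ) - (ez : ℂ) * I) - s) * α + β) /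
        (((((u - E : ℝ) : ℂ) - (ey : ℂ) * I) - h) *
          ((((t - E : ℝ) : ℂ) - (ez : ℂ) * I) - s) - τ ^ 2)‖ ^ 2) ∂νy ∂νz

/-- **the line hypothesis of `isl_core`** -/
theorem hline_of (ν : ι → Measure ℝ) (hA : A.IsSymm) {E : ℝ} {e : ι → ℝ} (he : ∀ x, 0 < e x)
    {y z a : ι} (hyz : y ≠ z) {x0 η1 R1 : ℝ} {cb : ℝ≥0∞}
    (habs : AbsLine (ν z) (ν y) E (e z) (e y) x0 η1 R1 cb) (c : ι → ℝ)
    (hc : ‖sg A (wF E e (insert z {y}) c) y - (x0 : ℂ)‖ ≤ η1) :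
    ∫⁻ t, {v | R1 < ‖thU A E e {y} {z} v‖}.indicator (fa A E e y a {y}) (update c z t) ∂(ν z) ≤
      cb * ∫⁻ t, ∫⁻ u, fa A E e y a ∅ (update (update c z t) y u) ∂(ν y) ∂(ν z) := by
  obtain ⟨h, s, τ, α, β, h0, s0, hτ, hsg, hall⟩ := line_world (E := E) hA he hyz a c
  rw [hsg] at hc
  have key := habs h s τ α β h0 s0 hτ hc
  refine le_trans (le_of_eq ?_) ((lintegral_indicator_le _ _).trans (key.trans (le_of_eq ?_)))
  · refine lintegral_congr fun t => ?_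
    obtain ⟨h1, h2, h3⟩ := hall t
    by_cases hm : R1 < ‖thU A E e {y} {z} (update c z t)‖
    · have hm' : t ∈ {t : ℝ | R1 < ‖(-I - (s + τ ^ 2 / (-I - h))) /
          ((((t - E : ℝ) : ℂ) - (e z : ℂ) * I) - (s + τ ^ 2 / (-I - h)))‖} := by
        have := hm
        rw [h1] at this
        exact this
      rw [Set.indicator_of_mem (show update c z t ∈ {v | R1 < ‖thU A E e {y} {z} v‖} from hm),
        Set.indicator_of_mem hm', h2]
      congr 3
      rw [div_eq_inv_mul]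
      rfl
    · have hm' : t ∉ {t : ℝ | R1 < ‖(-I - (s + τ ^ 2 / (-I - h))) /
          ((((t - E : ℝ) : ℂ) - (e z : ℂ) * I) - (s + τ ^ 2 / (-I - h)))‖} := by
        intro h4
        apply hm
        rw [h1]
        exact h4
      rw [Set.indicator_of_notMem
        (show update c z t ∉ {v | R1 < ‖thU A E e {y} {z} v‖} from hm),
        Set.indicator_of_notMem hm']
  · congr 1
    refine lintegral_congr fun t => ?_
    obtain ⟨h1, h2, h3⟩ := hall t
    refine lintegral_congr fun u => ?_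
    rw [h3 u]
    congr 3
    rw [div_eq_inv_mul]
    rfl

end P365T1.ISL755
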