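import Vale.Agent.P365.T1a.Site

/-!
# P365-T1, ISL: link from the whole system to the abstract Siegel matrix on a finite set `P`.

`em : P → ι` injective.  `GP = Gr` restricted to `P`, `MP = GP⁻¹`, `SgP = diag (W ∘ em) - MP`
is independent of `W` on `P`; it is symmetric with nonnegative imaginary part.
`Gr_{p x} = (GP F)_p`, `F` independent of `W` on `P`.
-/

set_option linter.all false

namespace P365T1.Link

open P365L P365O P365T1 Matrix Complex
open scoped ComplexConjugate

variable {ι : Type*} [Fintype ι] [DecidableEq ι] {A : Matrix ι ι ℝ} {W : ι → ℂ}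
variable {P : Type*} [Fintype P] [DecidableEq P] {em : P → ι}

/-- Green matrix on `P` -/
noncomputable def GP (A : Matrix ι ι ℝ) (W : ι → ℂ) (em : P → ι) : Matrix P P ℂ :=
  (Gr A W).submatrix em em

/-- its inverse -/
noncomputable def MP (A : Matrix ι ι ℝ) (W : ι → ℂ) (em : P → ι) : Matrix P P ℂ :=
  (GP A W em)⁻¹

/-- self-energy matrix of `P` (own potentials and absorptions excluded) -/
noncomputable def SgP (A : Matrix ι ι ℝ) (W : ι → ℂ) (em : P → ι) : Matrix P P ℂ :=
  Matrix.diagonal (fun p => W (em p)) - MP A W em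

/-- source vector on `P` of the column `x` -/
noncomputable def FP (A : Matrix ι ι ℝ) (W : ι → ℂ) (em : P → ι) (x : ι) : P → ℂ :=
  MP A W em *ᵥ fun p => Gr A W (em p) x

/-- extension of a vector on `P` -/
noncomputable def ext (em : P → ι) (v : P → ℂ) : ι → ℂ :=
  fun x => ∑ p, if em p = x then v p else 0

theorem ext_em (hem : Function.Injective em) (v : P → ℂ) (p : P) : ext em v (em p) = v p := by
  simp only [ext, hem.eq_iff, Finset.sum_ite_eq', Finset.mem_univ, if_true]

theorem sum_mul_ext (u : ι → ℂ) (v : P → ℂ) : ∑ x, u x * ext em v x = ∑ p, u (em p) * v p := by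
  simp only [ext, Finset.mul_sum]
  rw [Finset.sum_comm]
  refine Finset.sum_congr rfl fun p _ => ?_
  simp only [mul_ite, mul_zero, Finset.sum_ite_eq, Finset.mem_univ, if_true]

/-- `u = Gr v̂` -/
noncomputable def uu (A : Matrix ι ι ℝ) (W : ι → ℂ) (em : P → ι) (v : P → ℂ) : ι → ℂ :=
  Gr A W *ᵥ ext em v

theorem uu_apply (v : P → ℂ) (x : ι) : uu A W em v x = ∑ p, Gr A W x (em p) * v p := by
  rw [uu, Matrix.mulVec, dotProduct, sum_mul_ext]

theorem uu_em (v : P → ℂ) (p : P) : uu A W em v (em p) = (GP A W em *ᵥ v) p := by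
  rw [uu_apply, GP, Matrix.mulVec, dotProduct]
  rfl

/-- imaginary part of the form: `Im ∑ conj(u) v̂ = -∑ e |u|²` -/
theorem form_im (hA : A.IsSymm) (hW : ∀ x, (W x).im < 0) (v : P → ℂ) :
    (∑ p, conj ((GP A W em *ᵥ v) p) * v p).im =
      -∑ x, (-(W x).im) * ‖uu A W em v x‖ ^ 2 := by
  have h1 : ∑ p, conj ((GP A W em *ᵥ v) p) * v p =
      ∑ x, conj (uu A W em v x) * ext em v x := by
    rw [sum_mul_ext]
    refine Finset.sum_congr rfl fun p _ => ?_
    rw [uu_em]
  have h2 : ext em v = Kmat A W *ᵥ uu A W em v := by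
    rw [uu, Matrix.mulVec_mulVec, Kmat_mul_Gr hA hW, Matrix.one_mulVec]
  rw [h1]
  set u := uu A W em v with hu
  have h3 : ∀ x, ext em v x = (∑ y, (A x y : ℂ) * u y) + W x * u x := by
    intro x
    rw [h2, Matrix.mulVec, dotProduct]
    have h4 : ∀ y, Kmat A W x y * u y = (A x y : ℂ) * u y +
        (if x = y then W x * u y else 0) := by
      intro y
      rw [Kmat, Matrix.add_apply, Matrix.map_apply, Matrix.diagonal_apply]
      split_ifs <;> ring
    simp only [h4, Finset.sum_add_distrib, Finset.sum_ite_eq, Finset.mem_univ, if_true]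
  have h5 : ∑ x, conj (u x) * ext em v x =
      (∑ x, ∑ y, (A x y : ℂ) * (conj (u x) * u y)) + ∑ x, ((‖u x‖ ^ 2 : ℝ) : ℂ) * W x := by
    rw [← Finset.sum_add_distrib]
    refine Finset.sum_congr rfl fun x _ => ?_
    rw [h3, mul_add, Finset.mul_sum]
    congr 1
    · refine Finset.sum_congr rfl fun y _ => ?_
      ring
    · rw [← Complex.normSq_eq_norm_sq, ← Complex.mul_conj]
      ring
  have h6 : (∑ x, ∑ y, (A x y : ℂ) * (conj (u x) * u y)).im = 0 := by
    have h7 : conj (∑ x, ∑ y, (A x y : ℂ) * (conj (u x) * u y)) =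
        ∑ x, ∑ y, (A x y : ℂ) * (conj (u x) * u y) := by
      rw [map_sum, Finset.sum_comm]
      simp only [map_sum]
      rw [Finset.sum_comm, Finset.sum_comm]
      refine Finset.sum_congr rfl fun x _ => Finset.sum_congr rfl fun y _ => ?_
      have h8 : A y x = A x y := congrFun (congrFun hA x) y
      simp only [map_mul, Complex.conj_ofReal, Complex.conj_conj]
      rw [h8]
      ring
    exact Complex.conj_eq_iff_im.1 h7
  rw [h5, Complex.add_im, h6, zero_add, Complex.im_sum, ← Finset.sum_neg_distrib]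
  refine Finset.sum_congr rfl fun x _ => ?_
  rw [Complex.im_ofReal_mul]
  ring

theorem GP_inj (hA : A.IsSymm) (hW : ∀ x, (W x).im < 0) (hem : Function.Injective em)
    {v : P → ℂ} (h : GP A W em *ᵥ v = 0) : v = 0 := by
  have h1 := form_im hA hW (em := em) v
  rw [h] at h1
  simp only [Pi.zero_apply, map_zero, zero_mul, Finset.sum_const_zero, Complex.zero_im] at h1
  have h2 : ∀ x ∈ (Finset.univ : Finset ι), 0 ≤ (-(W x).im) * ‖uu A W em v x‖ ^ 2 := fun x _ =>
    mul_nonneg (by linarith [hW x]) (sq_nonneg _)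
  have h3 := (Finset.sum_eq_zero_iff_of_nonneg h2).1 (by linarith)
  have h4 : uu A W em v = 0 := by
    funext x
    have h5 := h3 x (Finset.mem_univ x)
    rcases mul_eq_zero.1 h5 with h6 | h6
    · exact absurd h6 (by linarith [hW x])
    · simpa using h6
  have h5 : ext em v = 0 := by
    have h6 : ext em v = Kmat A W *ᵥ uu A W em v := by
      rw [uu, Matrix.mulVec_mulVec, Kmat_mul_Gr hA hW, Matrix.one_mulVec]
    rw [h6, h4, Matrix.mulVec_zero]
  funext p
  rw [← ext_em hem v p, h5]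
  rfl

theorem isUnit_det_GP (hA : A.IsSymm) (hW : ∀ x, (W x).im < 0) (hem : Function.Injective em) :
    IsUnit (GP A W em).det := by
  rw [isUnit_iff_ne_zero]
  intro h
  obtain ⟨v, hv, hv2⟩ := Matrix.exists_mulVec_eq_zero_iff.2 h
  exact hv (GP_inj hA hW hem hv2)

theorem GP_mul_MP (hA : A.IsSymm) (hW : ∀ x, (W x).im < 0) (hem : Function.Injective em) :
    GP A W em * MP A W em = 1 := Matrix.mul_nonsing_inv _ (isUnit_det_GP hA hW hem)

theorem MP_mul_GP (hA : A.IsSymm) (hW : ∀ x, (W x).im < 0) (hem : Function.Injective em) :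
    MP A W em * GP A W em = 1 := Matrix.nonsing_inv_mul _ (isUnit_det_GP hA hW hem)

theorem GP_symm (hA : A.IsSymm) : (GP A W em)ᵀ = GP A W em := by
  ext p q
  rw [Matrix.transpose_apply, GP, Matrix.submatrix_apply, Matrix.submatrix_apply, Gr_symm hA]

theorem MP_symm (hA : A.IsSymm) : (MP A W em)ᵀ = MP A W em := by
  rw [MP, Matrix.transpose_nonsing_inv, GP_symm hA]

theorem SgP_symm (hA : A.IsSymm) : (SgP A W em)ᵀ = SgP A W em := by
  rw [SgP, Matrix.transpose_sub, MP_symm hA, Matrix.diagonal_transpose]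

/-! ### independence of `W` on `P` -/

variable {W' : ι → ℂ}

/-- resolvent identity for two configurations which agree off `P` -/
theorem resolvent_P (hA : A.IsSymm) (hW : ∀ x, (W x).im < 0) (hW' : ∀ x, (W' x).im < 0)
    (hem : Function.Injective em) (hoff : ∀ x, x ∉ Set.range em → W' x = W x) (x z : ι) :
    Gr A W x z = Gr A W' x z +
      ∑ p, Gr A W x (em p) * ((W' (em p) - W (em p)) * Gr A W' (em p) z) := by
  have h1 : Kmat A W' = Kmat A W + Matrix.diagonal (fun x => W' x - W x) := by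
    ext a b
    rw [Kmat, Kmat, Matrix.add_apply, Matrix.add_apply, Matrix.add_apply, Matrix.diagonal_apply,
      Matrix.diagonal_apply, Matrix.diagonal_apply]
    split_ifs <;> ring
  have h2 : Gr A W = Gr A W' +
      Gr A W * (Matrix.diagonal (fun x => W' x - W x) * Gr A W') := by
    have h3 : Gr A W * Kmat A W' * Gr A W' = Gr A W := by
      rw [Matrix.mul_assoc, Kmat_mul_Gr hA hW', Matrix.mul_one]
    rw [h1, Matrix.mul_add, Gr_mul_Kmat hA hW, Matrix.add_mul, Matrix.one_mul,
      Matrix.mul_assoc] at h3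
    exact h3.symm
  have h4 := congrFun (congrFun h2 x) z
  rw [Matrix.add_apply, Matrix.mul_apply] at h4
  rw [h4]
  congr 1
  have h5 : ∀ y, Gr A W x y * (Matrix.diagonal (fun x => W' x - W x) * Gr A W') y z =
      ∑ p, if em p = y then Gr A W x (em p) * ((W' (em p) - W (em p)) * Gr A W' (em p) z)
        else 0 := by
    intro y
    rw [Matrix.diagonal_mul]
    by_cases hy : y ∈ Set.range em
    · obtain ⟨p, rfl⟩ := hy
      simp only [hem.eq_iff, Finset.sum_ite_eq', Finset.mem_univ, if_true]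
    · have h6 : ∀ p, ¬ em p = y := fun p hp => hy ⟨p, hp⟩
      simp only [h6, if_false, Finset.sum_const_zero]
      rw [hoff y hy]
      ring
  simp only [h5]
  rw [Finset.sum_comm]
  refine Finset.sum_congr rfl fun p _ => ?_
  simp only [Finset.sum_ite_eq, Finset.mem_univ, if_true]

theorem GP_resolvent (hA : A.IsSymm) (hW : ∀ x, (W x).im < 0) (hW' : ∀ x, (W' x).im < 0)
    (hem : Function.Injective em) (hoff : ∀ x, x ∉ Set.range em → W' x = W x) :
    GP A W em = GP A W' em +
      GP A W em * (Matrix.diagonal (fun p => W' (em p) - W (em p)) * GP A W' em) := by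
  ext p q
  rw [Matrix.add_apply, Matrix.mul_apply]
  have h := resolvent_P hA hW hW' hem hoff (em p) (em q)
  rw [GP, GP, Matrix.submatrix_apply, Matrix.submatrix_apply, h]
  congr 1
  refine Finset.sum_congr rfl fun r _ => ?_
  rw [Matrix.diagonal_mul]
  rfl

theorem MP_eq (hA : A.IsSymm) (hW : ∀ x, (W x).im < 0) (hW' : ∀ x, (W' x).im < 0)
    (hem : Function.Injective em) (hoff : ∀ x, x ∉ Set.range em → W' x = W x) :
    MP A W' em = MP A W em + Matrix.diagonal (fun p => W' (em p) - W (em p)) := by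
  have h1 : MP A W em * GP A W em * MP A W' em = MP A W em * (GP A W' em +
      GP A W em * (Matrix.diagonal (fun p => W' (em p) - W (em p)) * GP A W' em)) *
      MP A W' em := by
    rw [← GP_resolvent hA hW hW' hem hoff]
  rw [MP_mul_GP hA hW hem, Matrix.one_mul, Matrix.mul_add, Matrix.add_mul, Matrix.mul_assoc,
    GP_mul_MP hA hW' hem, Matrix.mul_one, ← Matrix.mul_assoc (MP A W em) (GP A W em),
    MP_mul_GP hA hW hem, Matrix.one_mul, Matrix.mul_assoc, GP_mul_MP hA hW' hem,
    Matrix.mul_one] at h1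
  exact h1

/-- **the self-energy matrix does not see `W` on `P`** -/
theorem SgP_congr (hA : A.IsSymm) (hW : ∀ x, (W x).im < 0) (hW' : ∀ x, (W' x).im < 0)
    (hem : Function.Injective em) (hoff : ∀ x, x ∉ Set.range em → W' x = W x) :
    SgP A W' em = SgP A W em := by
  rw [SgP, SgP, MP_eq hA hW hW' hem hoff]
  ext p q
  simp only [Matrix.sub_apply, Matrix.add_apply, Matrix.diagonal_apply]
  split_ifs <;> ring

/-- **Green matrix on `P`** for every configuration which agrees with `W` off `P` -/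
theorem GP_eq (hA : A.IsSymm) (hW : ∀ x, (W x).im < 0) (hW' : ∀ x, (W' x).im < 0)
    (hem : Function.Injective em) (hoff : ∀ x, x ∉ Set.range em → W' x = W x) :
    GP A W' em = (Matrix.diagonal (fun p => W' (em p)) - SgP A W em)⁻¹ := by
  rw [← SgP_congr hA hW hW' hem hoff, SgP, sub_sub_cancel, MP,
    Matrix.nonsing_inv_nonsing_inv _ (isUnit_det_GP hA hW' hem)]

/-- **the source vector does not see `W` on `P`** -/
theorem FP_congr (hA : A.IsSymm) (hW : ∀ x, (W x).im < 0) (hW' : ∀ x, (W' x).im < 0)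
    (hem : Function.Injective em) (hoff : ∀ x, x ∉ Set.range em → W' x = W x) (x : ι) :
    FP A W' em x = FP A W em x := by
  have h1 : (fun p => Gr A W (em p) x) = (fun p => Gr A W' (em p) x) +
      GP A W em *ᵥ (Matrix.diagonal (fun p => W' (em p) - W (em p)) *ᵥ
        fun p => Gr A W' (em p) x) := by
    funext p
    rw [Pi.add_apply, resolvent_P hA hW hW' hem hoff (em p) x, Matrix.mulVec, dotProduct]
    congr 1
    refine Finset.sum_congr rfl fun r _ => ?_
    rw [Matrix.mulVec_diagonal]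
    rfl
  rw [FP, FP, MP_eq hA hW hW' hem hoff, Matrix.add_mulVec, h1, Matrix.mulVec_add,
    Matrix.mulVec_mulVec, MP_mul_GP hA hW hem, Matrix.one_mulVec]

theorem Gr_eq_FP (hA : A.IsSymm) (hW : ∀ x, (W x).im < 0) (hem : Function.Injective em) (x : ι)
    (p : P) : Gr A W (em p) x = (GP A W em *ᵥ FP A W em x) p := by
  rw [FP, Matrix.mulVec_mulVec, GP_mul_MP hA hW hem, Matrix.one_mulVec]

/-- **entries of the Green matrix** for every configuration which agrees with `W` off `P` -/
theorem Gr_eq_of (hA : A.IsSymm) (hW : ∀ x, (W x).im < 0) (hW' : ∀ x, (W' x).im < 0)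
    (hem : Function.Injective em) (hoff : ∀ x, x ∉ Set.range em → W' x = W x) (x : ι) (p : P) :
    Gr A W' (em p) x =
      ((Matrix.diagonal (fun p => W' (em p)) - SgP A W em)⁻¹ *ᵥ FP A W em x) p := by
  rw [Gr_eq_FP hA hW' hem, FP_congr hA hW hW' hem hoff, GP_eq hA hW hW' hem hoff]

/-! ### Siegel property -/

/-- the imaginary form of the self-energy is the flux out of `P` -/
theorem SgP_form (hA : A.IsSymm) (hW : ∀ x, (W x).im < 0) (hem : Function.Injective em)
    (v : P → ℂ) :
    (∑ p, conj (v p) * (SgP A W em *ᵥ v) p).im =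
      ∑ x, (-(W x).im) * ‖uu A W em (MP A W em *ᵥ v) x‖ ^ 2 -
        ∑ p, (-(W (em p)).im) * ‖v p‖ ^ 2 := by
  have h1 := form_im hA hW (em := em) (MP A W em *ᵥ v)
  rw [Matrix.mulVec_mulVec, GP_mul_MP hA hW hem, Matrix.one_mulVec] at h1
  have h2 : ∑ p, conj (v p) * (SgP A W em *ᵥ v) p =
      ∑ p, ((‖v p‖ ^ 2 : ℝ) : ℂ) * W (em p) - ∑ p, conj (v p) * (MP A W em *ᵥ v) p := by
    rw [← Finset.sum_sub_distrib]
    refine Finset.sum_congr rfl fun p _ => ?_
    rw [SgP, Matrix.sub_mulVec, Pi.sub_apply, Matrix.mulVec_diagonal,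
      ← Complex.normSq_eq_norm_sq, ← Complex.mul_conj]
    ring
  rw [h2, Complex.sub_im, h1, Complex.im_sum]
  have h3 : ∀ p, (((‖v p‖ ^ 2 : ℝ) : ℂ) * W (em p)).im = ‖v p‖ ^ 2 * (W (em p)).im :=
    fun p => Complex.im_ofReal_mul _ _
  simp only [h3]
  have h4 : ∑ p, ‖v p‖ ^ 2 * (W (em p)).im = -∑ p, (-(W (em p)).im) * ‖v p‖ ^ 2 := by
    rw [← Finset.sum_neg_distrib]
    exact Finset.sum_congr rfl fun p _ => by ring
  rw [h4]
  ring

/-- **Siegel** -/
theorem SgP_form_nonneg (hA : A.IsSymm) (hW : ∀ x, (W x).im < 0) (hem : Function.Injective em)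
    (v : P → ℂ) : 0 ≤ (∑ p, conj (v p) * (SgP A W em *ᵥ v) p).im := by
  rw [SgP_form hA hW hem, sub_nonneg]
  have h1 : ∀ p, uu A W em (MP A W em *ᵥ v) (em p) = v p := by
    intro p
    rw [uu_em, Matrix.mulVec_mulVec, GP_mul_MP hA hW hem, Matrix.one_mulVec]
  have h2 : ∑ p, (-(W (em p)).im) * ‖v p‖ ^ 2 =
      ∑ p, (-(W (em p)).im) * ‖uu A W em (MP A W em *ᵥ v) (em p)‖ ^ 2 := by
    simp only [h1]
  rw [h2]
  have h3 : ∑ p, (-(W (em p)).im) * ‖uu A W em (MP A W em *ᵥ v) (em p)‖ ^ 2 =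
      ∑ x ∈ Finset.univ.map ⟨em, hem⟩,
        (-(W x).im) * ‖uu A W em (MP A W em *ᵥ v) x‖ ^ 2 := by
    rw [Finset.sum_map]
    rfl
  rw [h3]
  exact Finset.sum_le_sum_of_subset_of_nonneg (Finset.subset_univ _) fun x _ _ =>
    mul_nonneg (by linarith [hW x]) (sq_nonneg _)

/-! ### separation: the row of `y` comes from the cell only -/

variable {C : Type*} [Fintype C] [DecidableEq C] {ec : C → ι}

/-- block of the cell -/
noncomputable def KC (A : Matrix ι ι ℝ) (W : ι → ℂ) (ec : C → ι) : Matrix C C ℂ :=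
  (Kmat A W).submatrix ec ec

/-- **separation**: `y ∈ P` has neighbours only in `C ∪ P`, `C` has neighbours only in `C ∪ P` -/
theorem MP_row (hA : A.IsSymm) (hW : ∀ x, (W x).im < 0) (hem : Function.Injective em)
    (hec : Function.Injective ec) (hdis : ∀ p c, em p ≠ ec c)
    (hC : IsUnit (KC A W ec).det)
    (hsep : ∀ c x, x ∉ Set.range em → x ∉ Set.range ec → A (ec c) x = 0) {y : P}
    (hy : ∀ x, x ∉ Set.range em → x ∉ Set.range ec → A (em y) x = 0) (z : P) :
    MP A W em y z = Kmat A W (em y) (em z) -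
      ∑ a, ∑ b, (A (em y) (ec a) : ℂ) * (KC A W ec)⁻¹ a b * (A (ec b) (em z) : ℂ) := by
  -- sums over `ι` of functions supported on the two ranges
  have hsum : ∀ (g : ι → ℂ), (∀ x, x ∉ Set.range em → x ∉ Set.range ec → g x = 0) →
      ∑ x, g x = (∑ p, g (em p)) + ∑ c, g (ec c) := by
    intro g hg
    have h1 : ∑ x ∈ (Finset.univ.map ⟨em, hem⟩) ∪ (Finset.univ.map ⟨ec, hec⟩), g x =
        ∑ x, g x := by
      refine Finset.sum_subset (Finset.subset_univ _) fun x _ hx => ?_
      rw [Finset.mem_union, not_or] at hx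
      refine hg x (fun ⟨p, hp⟩ => hx.1 ?_) (fun ⟨c, hc⟩ => hx.2 ?_)
      · exact Finset.mem_map.2 ⟨p, Finset.mem_univ _, hp⟩
      · exact Finset.mem_map.2 ⟨c, Finset.mem_univ _, hc⟩
    rw [← h1, Finset.sum_union, Finset.sum_map, Finset.sum_map]
    · rfl
    · rw [Finset.disjoint_left]
      intro x hx hx2
      obtain ⟨p, _, hp⟩ := Finset.mem_map.1 hx
      obtain ⟨c, _, hc⟩ := Finset.mem_map.1 hx2
      exact hdis p c (hp.trans hc.symm)
  have hKoff : ∀ {r : ι} {x : ι}, r ≠ x → Kmat A W r x = (A r x : ℂ) := by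
    intro r x hrx
    rw [Kmat, Matrix.add_apply, Matrix.map_apply, Matrix.diagonal_apply_ne _ hrx, add_zero]
  -- equation in the cell
  have hcell : ∀ (q : P) (c : C), Gr A W (ec c) (em q) =
      -∑ b, (KC A W ec)⁻¹ c b * ∑ p, (A (ec b) (em p) : ℂ) * Gr A W (em p) (em q) := by
    intro q c
    have h1 : ∀ b, (∑ a, KC A W ec b a * Gr A W (ec a) (em q)) =
        -∑ p, (A (ec b) (em p) : ℂ) * Gr A W (em p) (em q) := by
      intro b
      have h2 : (Kmat A W * Gr A W) (ec b) (em q) = (1 : Matrix ι ι ℂ) (ec b) (em q) := by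
        rw [Kmat_mul_Gr hA hW]
      rw [Matrix.mul_apply, Matrix.one_apply_ne (fun h => hdis q b h.symm)] at h2
      rw [hsum _ (fun x hx hx2 => by
        have hne : ec b ≠ x := fun h => hx2 ⟨b, h⟩
        rw [hKoff hne, hsep b x hx hx2]
        simp)] at h2
      have h3 : ∀ p, Kmat A W (ec b) (em p) * Gr A W (em p) (em q) =
          (A (ec b) (em p) : ℂ) * Gr A W (em p) (em q) := by
        intro p
        rw [hKoff (fun h => hdis p b h.symm)]
      simp only [h3] at h2
      have h4 : ∑ a, KC A W ec b a * Gr A W (ec a) (em q) =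
          ∑ a, Kmat A W (ec b) (ec a) * Gr A W (ec a) (em q) := rfl
      rw [h4]
      linear_combination h2
    have h5 : KC A W ec *ᵥ (fun a => Gr A W (ec a) (em q)) =
        fun b => -∑ p, (A (ec b) (em p) : ℂ) * Gr A W (em p) (em q) := by
      funext b
      exact h1 b
    have h6 : (fun a => Gr A W (ec a) (em q)) = (KC A W ec)⁻¹ *ᵥ
        fun b => -∑ p, (A (ec b) (em p) : ℂ) * Gr A W (em p) (em q) := by
      rw [← h5, Matrix.mulVec_mulVec, Matrix.nonsing_inv_mul _ hC, Matrix.one_mulVec]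
    have h7 : Gr A W (ec c) (em q) = ((KC A W ec)⁻¹ *ᵥ
        fun b => -∑ p, (A (ec b) (em p) : ℂ) * Gr A W (em p) (em q)) c := congrFun h6 c
    rw [h7, Matrix.mulVec, dotProduct, ← Finset.sum_neg_distrib]
    exact Finset.sum_congr rfl fun b _ => by ring
  -- equation at `y`
  set m : P → ℂ := fun z => Kmat A W (em y) (em z) -
      ∑ a, ∑ b, (A (em y) (ec a) : ℂ) * (KC A W ec)⁻¹ a b * (A (ec b) (em z) : ℂ) with hm
  have hrow : ∀ q, ∑ z, m z * GP A W em z q = (1 : Matrix P P ℂ) y q := by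
    intro q
    have h2 : (Kmat A W * Gr A W) (em y) (em q) = (1 : Matrix ι ι ℂ) (em y) (em q) := by
      rw [Kmat_mul_Gr hA hW]
    rw [Matrix.mul_apply] at h2
    rw [hsum _ (fun x hx hx2 => by
      have hne : em y ≠ x := fun h => hx ⟨y, h⟩
      rw [hKoff hne, hy x hx hx2]
      simp)] at h2
    have h3 : ∀ c, Kmat A W (em y) (ec c) * Gr A W (ec c) (em q) =
        -∑ b, (A (em y) (ec c) : ℂ) * ((KC A W ec)⁻¹ c b *
          ∑ p, (A (ec b) (em p) : ℂ) * Gr A W (em p) (em q)) := by
      intro c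
      rw [hKoff (hdis y c), hcell q c, mul_neg, Finset.mul_sum]
    simp only [h3] at h2
    have h4 : (1 : Matrix ι ι ℂ) (em y) (em q) = (1 : Matrix P P ℂ) y q := by
      rw [Matrix.one_apply, Matrix.one_apply]
      simp only [hem.eq_iff]
    rw [← h4, ← h2, hm]
    simp only [sub_mul, Finset.sum_sub_distrib]
    rw [sub_eq_add_neg]
    congr 1
    rw [Finset.sum_neg_distrib]
    congr 1
    simp only [Finset.sum_mul, Finset.mul_sum]
    rw [Finset.sum_comm]
    refine Finset.sum_congr rfl fun a _ => ?_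
    rw [Finset.sum_comm]
    refine Finset.sum_congr rfl fun b _ => Finset.sum_congr rfl fun p _ => ?_
    rw [GP, Matrix.submatrix_apply]
    ring
  have h1 : m ᵥ* GP A W em = fun q => (1 : Matrix P P ℂ) y q := by
    funext q
    exact hrow q
  have h2 : m = (fun q => (1 : Matrix P P ℂ) y q) ᵥ* MP A W em := by
    rw [← h1, Matrix.vecMul_vecMul, GP_mul_MP hA hW hem, Matrix.vecMul_one]
  have h3 := congrFun h2 z
  rw [Matrix.vecMul, dotProduct] at h3
  simp only [Matrix.one_apply, ite_mul, one_mul, zero_mul, Finset.sum_ite_eq, Finset.mem_univ,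
    if_true] at h3
  rw [← h3]

end P365T1.Link
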