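import Vale.Agent.P365.T1.OneVarP

/-!
# P365-T1, insulated site lemma (ISL): worlds.

`wF E e F v` = the configuration `WV E e v` with the sites of `F` at `-i`.
`thW A E e F z v` = `(-i - s_z)/(W_z - s_z)`, `thU A E e F U v` = quotient of determinants.
-/

set_option linter.all false

namespace P365T1.ISL

open P365L P365O P365T1 P365T1.OneVar Matrix Complex MeasureTheory
open scoped ComplexConjugate ENNReal

variable {ι : Type*} [Fintype ι] [DecidableEq ι] {A : Matrix ι ι ℝ}

/-- the world in which the sites of `F` are at `-i` -/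
noncomputable def wF (E : ℝ) (e : ι → ℝ) (F : Finset ι) (v : ι → ℝ) : ι → ℂ :=
  fun x => if x ∈ F then -I else WV E e v x

section basic

variable {E : ℝ} {e : ι → ℝ} {F : Finset ι} {v : ι → ℝ} {z : ι}

theorem wF_mem (h : z ∈ F) : wF E e F v z = -I := by rw [wF, if_pos h]

theorem wF_not_mem (h : z ∉ F) : wF E e F v z = WV E e v z := by rw [wF, if_neg h]

theorem wF_neg (he : ∀ x, 0 < e x) (F : Finset ι) (v : ι → ℝ) (x : ι) : (wF E e F v x).im < 0 := by
  by_cases h : x ∈ F
  · rw [wF_mem h]; simp
  · rw [wF_not_mem h, WV_im]; linarith [he x]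

theorem wF_empty : wF E e ∅ v = WV E e v := by
  funext x
  rw [wF_not_mem (Finset.notMem_empty x)]

theorem wF_insert (z : ι) (F : Finset ι) (v : ι → ℝ) :
    wF E e (insert z F) v = Function.update (wF E e F v) z (-I) := by
  funext x
  by_cases hx : x = z
  · subst hx
    rw [Function.update_self, wF_mem (Finset.mem_insert_self _ _)]
  · rw [Function.update_of_ne hx]
    by_cases h : x ∈ F
    · rw [wF_mem h, wF_mem (Finset.mem_insert_of_mem h)]
    · rw [wF_not_mem h, wF_not_mem (by simp [hx, h])]

/-- the potential of `z` as a complex number -/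
noncomputable def wz (E : ℝ) (e : ι → ℝ) (z : ι) (t : ℝ) : ℂ := ((t - E : ℝ) : ℂ) - (e z : ℂ) * I

theorem wz_im (z : ι) (t : ℝ) : (wz E e z t).im = -e z := by simp [wz]

theorem wz_re (z : ι) (t : ℝ) : (wz E e z t).re = t - E := by simp [wz]

theorem wF_update_not_mem (hz : z ∉ F) (t : ℝ) :
    wF E e F (Function.update v z t) = Function.update (wF E e F v) z (wz E e z t) := by
  funext x
  by_cases hx : x = z
  · subst hx
    rw [Function.update_self, wF_not_mem hz, WV, wz, Function.update_self]
  · rw [Function.update_of_ne hx]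
    by_cases h : x ∈ F
    · rw [wF_mem h, wF_mem h]
    · rw [wF_not_mem h, wF_not_mem h, WV, WV, Function.update_of_ne hx]

theorem wF_update_mem (hz : z ∈ F) (t : ℝ) : wF E e F (Function.update v z t) = wF E e F v := by
  funext x
  by_cases h : x ∈ F
  · rw [wF_mem h, wF_mem h]
  · rw [wF_not_mem h, wF_not_mem h, WV, WV, Function.update_of_ne (by rintro rfl; exact h hz)]

theorem wF_self (hz : z ∉ F) : wF E e F v z = wz E e z (v z) := by
  rw [wF_not_mem hz, WV, wz]

theorem wF_congr {v' : ι → ℝ} (h : ∀ x, x ∉ F → v x = v' x) : wF E e F v = wF E e F v' := by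
  funext x
  by_cases hx : x ∈ F
  · rw [wF_mem hx, wF_mem hx]
  · rw [wF_not_mem hx, wF_not_mem hx, WV, WV, h x hx]

end basic

/-! ### determinants -/

/-- one potential changes -/
theorem det_upd (hA : A.IsSymm) {W : ι → ℂ} (hW : ∀ x, (W x).im < 0) (z : ι) (w : ℂ) :
    (Kmat A (Function.update W z w)).det = (Kmat A W).det * (1 + (w - W z) * Gr A W z z) := by
  have h1 : Function.update W z w = Function.update W z (W z + (w - W z)) := by
    rw [add_sub_cancel]
  have h0 := det_ne_zero hA hW
  have hK : Kmat A W * Gr A W = 1 := Kmat_mul_Gr hA hW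
  rw [h1, Kmat_update]
  have h2 : Kmat A W + Matrix.single z z (w - W z) =
      Kmat A W * (1 + Gr A W * Matrix.single z z (w - W z)) := by
    rw [mul_add, mul_one, ← mul_assoc, hK, one_mul]
  rw [h2, det_mul]
  congr 1
  have h3 : Gr A W * Matrix.single z z (w - W z) =
      Matrix.replicateCol Unit (fun x => Gr A W x z) * Matrix.replicateRow Unit
        (Pi.single z (w - W z)) := by
    ext x y
    rw [Matrix.mul_apply, Matrix.mul_apply]
    simp only [Matrix.replicateCol_apply, Matrix.replicateRow_apply, Finset.univ_unique,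
      Finset.sum_singleton]
    by_cases hy : y = z
    · subst hy
      rw [Pi.single_eq_same, Finset.sum_eq_single y]
      · rw [Matrix.single_apply_same]
      · intro b _ hb
        rw [Matrix.single_apply_of_ne _ _ _ _ _ (by tauto), mul_zero]
      · intro h; exact absurd (Finset.mem_univ _) h
    · rw [Pi.single_eq_of_ne hy, mul_zero]
      refine Finset.sum_eq_zero fun b _ => ?_
      rw [Matrix.single_apply_of_ne _ _ _ _ _ (by tauto), mul_zero]
  rw [h3, Matrix.det_one_add_replicateCol_mul_replicateRow]
  simp [dotProduct, Pi.single_apply]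

section th

variable {E : ℝ} {e : ι → ℝ} {F U : Finset ι} {v : ι → ℝ} {z : ι}

/-- `th_U` in the world `F` -/
noncomputable def thU (A : Matrix ι ι ℝ) (E : ℝ) (e : ι → ℝ) (F U : Finset ι) (v : ι → ℝ) : ℂ :=
  (Kmat A (wF E e (U ∪ F) v)).det / (Kmat A (wF E e F v)).det

theorem thU_empty (hA : A.IsSymm) (he : ∀ x, 0 < e x) : thU A E e F ∅ v = 1 := by
  rw [thU, Finset.empty_union, div_self (det_ne_zero hA (wF_neg he F v))]

/-- `th_{U ∪ z} = th_z * th_U^{[z]}` -/
theorem thU_insert (hA : A.IsSymm) (he : ∀ x, 0 < e x) (z : ι) :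
    thU A E e F (insert z U) v = thU A E e F {z} v * thU A E e (insert z F) U v := by
  have h0 := det_ne_zero hA (wF_neg (E := E) he (insert z F) v)
  rw [thU, thU, thU]
  have h1 : insert z U ∪ F = U ∪ insert z F := by
    ext x; simp only [Finset.mem_union, Finset.mem_insert]; tauto
  have h2 : ({z} ∪ F : Finset ι) = insert z F := by
    ext x; simp only [Finset.mem_union, Finset.mem_insert, Finset.mem_singleton]
  rw [h1, h2, div_mul_div_comm, mul_comm (det _) (det (Kmat A (wF E e (U ∪ insert z F) v))),
    mul_div_mul_right _ _ h0]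

/-- `th_z = 1 - (W_z + i) G_zz` -/
theorem thU_single (hA : A.IsSymm) (he : ∀ x, 0 < e x) (z : ι) :
    thU A E e F {z} v =
      1 - (wF E e F v z + I) * Gr A (wF E e F v) z z := by
  have h0 := det_ne_zero hA (wF_neg (E := E) he F v)
  have h2 : ({z} ∪ F : Finset ι) = insert z F := by
    ext x; simp only [Finset.mem_union, Finset.mem_insert, Finset.mem_singleton]
  rw [thU, h2, wF_insert, det_upd hA (wF_neg he F v), mul_comm, mul_div_assoc, div_self h0]
  ring

/-- `th_z = (-i - s)/(W_z - s)` -/
theorem thU_single' (hA : A.IsSymm) (he : ∀ x, 0 < e x) (hz : z ∉ F) :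
    thU A E e F {z} v = (-I - sg A (wF E e F v) z) / (wz E e z (v z) - sg A (wF E e F v) z) := by
  have hW := wF_neg (E := E) he F v
  have h0 : wz E e z (v z) - sg A (wF E e F v) z ≠ 0 := by
    intro h
    have h1 := congrArg Complex.im h
    rw [Complex.sub_im, wz_im, Complex.zero_im] at h1
    have h2 := sg_im_nonneg hA hW z
    linarith [he z]
  rw [thU_single hA he, Gr_self_eq hA hW, wF_self hz]
  field_simp
  ring

/-- the self-energy of `z` does not see `v z` -/
theorem sg_wF_update (hA : A.IsSymm) (he : ∀ x, 0 < e x) (hz : z ∉ F) (t : ℝ) :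
    sg A (wF E e F (Function.update v z t)) z = sg A (wF E e F v) z := by
  rw [wF_update_not_mem hz, sg_upd hA (wF_neg he F v)]
  rw [wz_im]
  linarith [he z]

theorem thU_update (hA : A.IsSymm) (he : ∀ x, 0 < e x) (hz : z ∉ F) (t : ℝ) :
    thU A E e F {z} (Function.update v z t) =
      (-I - sg A (wF E e F v) z) / (wz E e z t - sg A (wF E e F v) z) := by
  rw [thU_single' hA he hz, sg_wF_update hA he hz, Function.update_self]

theorem thU_update_mem (hz : z ∈ F) (t : ℝ) :
    thU A E e F U (Function.update v z t) = thU A E e F U v := by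
  rw [thU, thU, wF_update_mem hz, wF_update_mem (Finset.mem_union_right _ hz)]

end th

/-! ### measurability -/

section meas

variable {E : ℝ} {e : ι → ℝ}

theorem continuous_wF (F : Finset ι) : Continuous fun v : ι → ℝ => wF E e F v := by
  refine continuous_pi fun x => ?_
  by_cases h : x ∈ F
  · simp only [wF, if_pos h]
    exact continuous_const
  · simp only [wF, if_neg h]
    have h1 : Continuous fun v : ι → ℝ => v x - E := (continuous_apply x).sub continuous_const
    exact (Complex.continuous_ofReal.comp h1).sub continuous_const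

theorem continuous_Gr_wF (hA : A.IsSymm) (he : ∀ x, 0 < e x) (F : Finset ι) (x y : ι) :
    Continuous fun v : ι → ℝ => Gr A (wF E e F v) x y := by
  rw [continuous_iff_continuousAt]
  intro v
  exact ContinuousAt.comp (g := fun W : ι → ℂ => Gr A W x y)
    (P365L.FIN.continuousAt_Gr hA (wF_neg he F v) x y) (continuous_wF F).continuousAt

theorem continuous_sg_wF (hA : A.IsSymm) (he : ∀ x, 0 < e x) (F : Finset ι) (x : ι) :
    Continuous fun v : ι → ℝ => sg A (wF E e F v) x := by
  have h1 : Continuous fun v : ι → ℝ => wF E e F v x := (continuous_apply x).comp (continuous_wF F)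
  exact h1.sub ((continuous_Gr_wF hA he F x x).inv₀ fun v => Gr_self_ne_zero hA (wF_neg he F v) x)

theorem continuous_det_wF (F : Finset ι) :
    Continuous fun v : ι → ℝ => (Kmat A (wF E e F v)).det := by
  refine Continuous.matrix_det ?_
  refine continuous_matrix fun i j => ?_
  simp only [Kmat, Matrix.add_apply, Matrix.map_apply]
  refine continuous_const.add ?_
  by_cases h : i = j
  · subst h
    simp only [Matrix.diagonal_apply_eq]
    exact (continuous_apply i).comp (continuous_wF F)
  · simp only [Matrix.diagonal_apply_ne _ h]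
    exact continuous_const

theorem continuous_thU (hA : A.IsSymm) (he : ∀ x, 0 < e x) (F U : Finset ι) :
    Continuous fun v : ι → ℝ => thU A E e F U v :=
  (continuous_det_wF (U ∪ F)).div (continuous_det_wF F) fun v => det_ne_zero hA (wF_neg he F v)

end meas

end P365T1.ISL
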