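import Vale.Agent.P365.ISL.Centre77
import Vale.Agent.P365.ISL.World
import Vale.Agent.P365.H417.Link

/-!
# P365-T1, ISL: row of the centre from a cell, cost of the centre from the entrywise inequality
-/

set_option linter.all false

namespace P365T1.Link

open P365L P365O P365T1 P365T1.Switch P365T1.H417 P365T1.ISL Matrix Complex MeasureTheory
open scoped ComplexConjugate ENNReal

variable {ι : Type*} [Fintype ι] [DecidableEq ι] {A : Matrix ι ι ℝ}

/-! ### entrywise version of the cost of the centre -/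

theorem wF_single (E : ℝ) (e : ι → ℝ) (y : ι) (v : ι → ℝ) :
    wF E e {y} v = Function.update (WV E e v) y (-I) := by
  have h := wF_insert (E := E) (e := e) y ∅ v
  rw [wF_empty] at h
  rw [← h]
  rfl

theorem measurable_WV (E : ℝ) (e : ι → ℝ) (x : ι) : Measurable fun v : ι → ℝ => WV E e v x := by
  unfold WV
  have h1 : Measurable fun v : ι → ℝ => v x - E := by fun_prop
  exact (Complex.measurable_ofReal.comp h1).sub_const _

/-- **the entrywise inequality gives the cost of the centre** -/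
theorem centre_cost_entry (hA : A.IsSymm) {ν : ι → Measure ℝ}
    {E : ℝ} {e : ι → ℝ} (he : ∀ x, 0 < e x) {y : ι} (f : ι → ℝ) {η : ℝ≥0∞}
    (h : ∀ x, ∫⁻ v, ENNReal.ofReal (‖Gr A (wF E e {y} v) y x‖ ^ 2) ∂Measure.pi ν ≤
      η * ∫⁻ v, ENNReal.ofReal (‖Gr A (WV E e v) y x‖ ^ 2) ∂Measure.pi ν) :
    ∫⁻ v, ENNReal.ofReal (Yf A (WV E e v) f y) ∂Measure.pi ν ≤
      2 * (η * ∫⁻ v, ENNReal.ofReal (Mf A (WV E e v) f y) ∂Measure.pi ν) := by
  set G : ι → (ι → ℝ) → ℝ≥0∞ := fun x v =>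
    ENNReal.ofReal (‖Gr A (Function.update (WV E e v) y (-I)) y x‖ ^ 2) with hG
  set K : ι → (ι → ℝ) → ℝ≥0∞ := fun x v =>
    ENNReal.ofReal (‖Gr A (WV E e v) y x‖ ^ 2) with hK
  set c : ι → ℝ≥0∞ := fun x => ENNReal.ofReal (e x * (f x - f y) ^ 2) with hc
  have hmG : ∀ x, Measurable (G x) := by
    intro x
    refine (((measurable_Gr (fun v : ι → ℝ => Function.update (WV E e v) y (-I))
      (fun z => ?_) y x).norm).pow_const 2).ennreal_ofReal
    by_cases hz : z = y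
    · subst hz
      simp only [Function.update_self]
      exact measurable_const
    · simp only [Function.update_of_ne hz]
      exact measurable_WV E e z
  have hmK : ∀ x, Measurable (K x) := fun x =>
    ((measurable_Gr (fun v : ι → ℝ => WV E e v) (measurable_WV E e)
      y x).norm.pow_const 2).ennreal_ofReal
  have hWim : ∀ v x, -(WV E e v x).im = e x := by
    intro v x
    simp [WV]
  have s1 : ∫⁻ v, ENNReal.ofReal (Yf A (WV E e v) f y) ∂Measure.pi ν ≤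
      2 * ∑ x, c x * ∫⁻ v, G x v ∂Measure.pi ν := by
    have h1 : ∀ v, ENNReal.ofReal (Yf A (WV E e v) f y) ≤ 2 * ∑ x, c x * G x v := by
      intro v
      refine (ENNReal.ofReal_le_ofReal (Yf_le_ref hA (WV_neg he v) f y)).trans (le_of_eq ?_)
      rw [ENNReal.ofReal_mul (by norm_num), ENNReal.ofReal_ofNat, ENNReal.ofReal_sum_of_nonneg
        (fun x _ => mul_nonneg (mul_nonneg (by rw [hWim]; exact (he x).le) (sq_nonneg _))
          (sq_nonneg _))]
      congr 1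
      refine Finset.sum_congr rfl fun x _ => ?_
      rw [ENNReal.ofReal_mul (mul_nonneg (by rw [hWim]; exact (he x).le) (sq_nonneg _)), hWim]
    refine (lintegral_mono h1).trans (le_of_eq ?_)
    rw [lintegral_const_mul _ (Finset.measurable_sum _ fun x _ => (hmG x).const_mul _),
      lintegral_finset_sum _ fun x _ => (hmG x).const_mul _]
    congr 1
    exact Finset.sum_congr rfl fun x _ => lintegral_const_mul _ (hmG x)
  have s3 : ∑ x, c x * ∫⁻ v, K x v ∂Measure.pi ν =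
      ∫⁻ v, ENNReal.ofReal (Mf A (WV E e v) f y) ∂Measure.pi ν := by
    have h1 : ∀ v, ENNReal.ofReal (Mf A (WV E e v) f y) = ∑ x, c x * K x v := by
      intro v
      rw [Mf_eq_sum, ENNReal.ofReal_sum_of_nonneg
        (fun x _ => mul_nonneg (mul_nonneg (by rw [hWim]; exact (he x).le) (sq_nonneg _))
          (sq_nonneg _))]
      refine Finset.sum_congr rfl fun x _ => ?_
      rw [ENNReal.ofReal_mul (mul_nonneg (by rw [hWim]; exact (he x).le) (sq_nonneg _)), hWim]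
    simp only [h1]
    rw [lintegral_finset_sum _ fun x _ => (hmK x).const_mul _]
    exact Finset.sum_congr rfl fun x _ => (lintegral_const_mul _ (hmK x)).symm
  refine s1.trans (mul_le_mul' le_rfl ?_)
  rw [← s3, Finset.mul_sum]
  refine Finset.sum_le_sum fun x _ => ?_
  have h2 : ∫⁻ v, G x v ∂Measure.pi ν ≤ η * ∫⁻ v, K x v ∂Measure.pi ν := by
    have h3 := h x
    simp only [wF_single] at h3
    exact h3
  calc c x * ∫⁻ v, G x v ∂Measure.pi ν ≤ c x * (η * ∫⁻ v, K x v ∂Measure.pi ν) :=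
        mul_le_mul' le_rfl h2
    _ = η * (c x * ∫⁻ v, K x v ∂Measure.pi ν) := by ring

/-! ### the row of the centre -/

/-- `Lc` = box of the cell without its centre `y`, `S` = ports -/
structure CBox (A : Matrix ι ι ℝ) (y : ι) (Lc S : Finset ι) : Prop where
  yL : y ∉ Lc
  yS : y ∉ S
  LS : Disjoint Lc S
  ny : ∀ k, k ∉ Lc → A y k = 0
  nL : ∀ n ∈ Lc, ∀ k, k ∉ Lc → k ≠ y → k ∉ S → A n k = 0

/-- **ROW**: exact row identity at the centre in every world -/
theorem CBox.row {y : ι} {Lc S : Finset ι} (hB : CBox A y Lc S) (hA : A.IsSymm) {W : ι → ℂ}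
    (hW : ∀ x, (W x).im < 0) {x : ι} (hx : x ∉ Lc) :
    (W y - tt A W Lc y y) * Gr A W y x - ∑ z ∈ S, tt A W Lc y z * Gr A W z x =
      if x = y then 1 else 0 := by
  have h1 := row_y hA hW hB.yL hB.ny (b := fun k => Gr A W k x) (fun n hn => by
    rw [Kmat_mulVec_Gr hA hW, if_neg]
    rintro rfl
    exact hx hn)
  rw [Kmat_mulVec_Gr hA hW] at h1
  have h2 : ∑ k ∈ Lcᶜ.erase y, tt A W Lc y k * Gr A W k x =
      ∑ z ∈ S, tt A W Lc y z * Gr A W z x := by
    symm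
    refine Finset.sum_subset (fun z hz => ?_) (fun k hk hkS => ?_)
    · refine Finset.mem_erase.2 ⟨fun h => hB.yS (h ▸ hz), Finset.mem_compl.2 fun h => ?_⟩
      exact Finset.disjoint_left.1 hB.LS h hz
    · obtain ⟨h3, h4⟩ := Finset.mem_erase.1 hk
      rw [tt_zero fun n' hn' => hB.nL n' hn' k (Finset.mem_compl.1 h4) h3 hkS, zero_mul]
  rw [← h2, ← h1]
  by_cases h : x = y
  · subst h; rfl
  · rw [if_neg h, if_neg (Ne.symm h)]

/-- the row with the couplings of a reference world `W₀` which agrees with `W` on `Lc` -/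
theorem CBox.row' {y : ι} {Lc S : Finset ι} (hB : CBox A y Lc S) (hA : A.IsSymm) {W W₀ : ι → ℂ}
    (hW : ∀ x, (W x).im < 0) (hW₀ : ∀ x, (W₀ x).im < 0) (h : ∀ k ∈ Lc, W₀ k = W k)
    {x : ι} (hx : x ∉ Lc) :
    (W y - tt A W₀ Lc y y) * Gr A W y x - ∑ z ∈ S, tt A W₀ Lc y z * Gr A W z x =
      if x = y then 1 else 0 := by
  have h1 : ∀ k, tt A W₀ Lc y k = tt A W Lc y k := fun k =>
    tt_congr hA hW hW₀ (fun j hj => (h j hj).symm) y k
  rw [h1, ← hB.row hA hW hx]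
  congr 1
  exact Finset.sum_congr rfl fun z _ => by rw [h1]

/-- **quantitative cell data**: real frozen potential `Vs` on the box, windows of half width `w`,
absorption at most `e0`, frozen Green function at most `C0 * wt` -/
theorem CBox.small {y : ι} {Lc S : Finset ι} (hB : CBox A y Lc S) (hA : A.IsSymm)
    (hdeg : ∀ x, ∑ z, |A x z| ≤ 4) {E : ℝ} {Vs : ι → ℝ} {G : ι → ι → ℝ}
    (hG : RGreen A Lc (fun x => Vs x - E) G) {C0 e1 w0 : ℝ} {wt : ι → ι → ℝ} (hC0 : 0 ≤ C0)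
    (he1 : 0 ≤ e1) (hw : ∀ n ∈ Lc, ∀ b ∈ Lc, 0 < wt n b) (hw1 : ∀ n ∈ Lc, ∀ b ∈ Lc, wt n b ≤ 1)
    (hww : ∀ n ∈ Lc, ∀ k ∈ Lc, ∀ b ∈ Lc, wt n k * wt k b ≤ wt n b)
    (hGw : ∀ n ∈ Lc, ∀ b ∈ Lc, |G n b| ≤ C0 * wt n b)
    (hsm : e1 * C0 * (Lc.card : ℝ) ≤ 1 / 2) (hw0 : 0 ≤ w0)
    (hfar : ∀ z ∈ S, ∀ n ∈ Lc, ∀ n' ∈ Lc, A y n ≠ 0 → A n' z ≠ 0 → wt n n' ≤ w0)
    {W : ι → ℂ} (hW : ∀ x, (W x).im < 0) (hWx : ∀ x ∈ Lc, ‖W x - ((Vs x - E : ℝ) : ℂ)‖ ≤ e1) :
    (∀ z ∈ S, ‖tt A W Lc y z‖ ≤ 32 * C0 * w0) ∧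
      ‖tt A W Lc y y - ((∑ n ∈ Lc, ∑ n' ∈ Lc, A y n * G n n' * A n' y : ℝ) : ℂ)‖ ≤
        32 * C0 ^ 2 * e1 * (Lc.card : ℝ) := by
  have hb := GB_bound hA hW hG hC0 he1 hw hww hGw hWx hsm
  constructor
  · intro z hz
    have h1 : ‖tt A W Lc y z‖ ≤ 16 * (2 * C0 * w0) := by
      refine tt_le hA hdeg (by positivity) fun n hn n' hn' h2 h3 => ?_
      refine (hb n hn n' hn').1.trans ?_
      have := hfar z hz n hn n' hn' h2 h3
      gcongr
    linarith
  · have h1 : ‖tt A W Lc y y - ((∑ n ∈ Lc, ∑ n' ∈ Lc, A y n * G n n' * A n' y : ℝ) : ℂ)‖ ≤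
        16 * (2 * C0 ^ 2 * e1 * (Lc.card : ℝ)) := by
      refine tt_self_close hA hdeg (by positivity) fun n hn n' hn' => ?_
      refine (hb n hn n' hn').2.trans ?_
      have h2 := hw1 n hn n' hn'
      have h3 : 0 ≤ 2 * C0 ^ 2 * e1 * (Lc.card : ℝ) := by positivity
      nlinarith
    linarith

end P365T1.Link
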