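import Mathlib

/-!
# Determinant algebra for the insulated site lemma (P365 T1, chapter C, note 18390)

`pm W X`   : principal minor of `X` on the finite set `W`.
`MD M D W` : `M` with `D z` subtracted from the diagonal entries `z ∈ W`.
* `det_MD`      : `det (MD M D W) = det M * pm W (1 - diag D * M⁻¹)`            (`θ_W`)
* `Kq`, `num_MD`: the same for the numerator `(M⁻¹ F)_y det M`                  (`Ξ_W`)
* `pm_diag_mul` : scaling of the rows
* `inv_MD_singleton`, `green_sink` : one site moved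
* `norm_pm_le`  : `|pm W X| ≤ |W|! ∏ b_z²`
* `exists_sink` : a finite digraph without cycles has a sink
-/

set_option autoImplicit false
set_option linter.unusedSectionVars false
set_option linter.unusedVariables false
set_option linter.dupNamespace false
set_option linter.style.header false
set_option linter.unusedSimpArgs false

open Finset Function Matrix
open scoped BigOperators

namespace P365T1.ISL

variable {ι : Type*} [Fintype ι] [DecidableEq ι]

/-- principal minor on `W` -/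
noncomputable def pm (W : Finset ι) (X : Matrix ι ι ℂ) : ℂ :=
  (X.submatrix ((↑) : W → ι) ((↑) : W → ι)).det

omit [Fintype ι] in
theorem pm_congr {W : Finset ι} {X Y : Matrix ι ι ℂ} (h : ∀ i ∈ W, ∀ j ∈ W, X i j = Y i j) :
    pm W X = pm W Y := by
  unfold pm
  congr 1
  ext i j
  exact h i i.2 j j.2

omit [Fintype ι] in
theorem pm_empty (X : Matrix ι ι ℂ) : pm ∅ X = 1 := by
  unfold pm
  exact det_isEmpty

omit [Fintype ι] in
theorem pm_singleton (z : ι) (X : Matrix ι ι ℂ) : pm {z} X = X z z := by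
  unfold pm
  have : Subsingleton (({z} : Finset ι) : Type _) :=
    ⟨fun a b => Subtype.ext ((Finset.mem_singleton.1 a.2).trans (Finset.mem_singleton.1 b.2).symm)⟩
  rw [det_eq_elem_of_subsingleton _ (⟨z, Finset.mem_singleton_self z⟩ : ({z} : Finset ι))]
  rfl

omit [Fintype ι] in
theorem pm_pair {z w : ι} (h : z ≠ w) (X : Matrix ι ι ℂ) :
    pm {z, w} X = X z z * X w w - X z w * X w z := by
  have hz : z ∈ ({z, w} : Finset ι) := by simp
  have hw : w ∈ ({z, w} : Finset ι) := by simp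
  let f : Fin 2 → (({z, w} : Finset ι) : Type _) := ![⟨z, hz⟩, ⟨w, hw⟩]
  have hf : Function.Bijective f := by
    constructor
    · intro a b hab
      fin_cases a <;> fin_cases b <;> simp_all [f]
    · rintro ⟨a, ha⟩
      rcases Finset.mem_insert.1 ha with h1 | h1
      · exact ⟨0, Subtype.ext h1.symm⟩
      · exact ⟨1, Subtype.ext (Finset.mem_singleton.1 h1).symm⟩
  unfold pm
  rw [← det_submatrix_equiv_self (Equiv.ofBijective f hf), det_fin_two]
  rfl

/-- a matrix with unit rows off `W` -/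
theorem det_unit_rows {W : Finset ι} {N : Matrix ι ι ℂ} (h : ∀ i ∉ W, N i = Pi.single i 1) :
    N.det = pm W N := by
  rw [twoBlockTriangular_det N (fun i => i ∈ W) (fun i hi j hj => by
    rw [h i hi]
    have : j ≠ i := fun e => hi (e ▸ hj)
    simp [Pi.single_apply, this])]
  have h1 : (toSquareBlockProp N fun i => ¬ i ∈ W) = 1 := by
    ext i j
    have e1 : (toSquareBlockProp N fun i => ¬ i ∈ W) i j = N i j := rfl
    rw [e1, h i i.2]
    by_cases hij : i = j
    · subst hij; simp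
    · have : (j : ι) ≠ i := fun e => hij (Subtype.ext e.symm)
      simp [Pi.single_apply, this, one_apply_ne hij]
  rw [h1, det_one, mul_one]
  unfold pm
  have hs : (Subtype.fintype (fun i => i ∈ W) : Fintype {i // i ∈ W}) =
      (Finset.Subtype.fintype W) := Subsingleton.elim _ _
  rw [hs]
  rfl

/-- `M` with `D z` subtracted from the diagonal entries `z ∈ W` -/
def MD (M : Matrix ι ι ℂ) (D : ι → ℂ) (W : Finset ι) : Matrix ι ι ℂ :=
  M - Matrix.diagonal fun i => if i ∈ W then D i else 0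

theorem MD_empty (M : Matrix ι ι ℂ) (D : ι → ℂ) : MD M D ∅ = M := by
  ext i j
  by_cases h : i = j <;> simp [MD, h]

theorem MD_union (M : Matrix ι ι ℂ) (D : ι → ℂ) {W W' : Finset ι} (h : Disjoint W W') :
    MD (MD M D W) D W' = MD M D (W ∪ W') := by
  ext i j
  by_cases hij : i = j
  · subst hij
    by_cases h1 : i ∈ W
    · have h2 : i ∉ W' := Finset.disjoint_left.1 h h1
      simp [MD, h1, h2]
    · by_cases h2 : i ∈ W' <;> simp [MD, h1, h2]
  · simp [MD, hij]

theorem MD_insert (M : Matrix ι ι ℂ) (D : ι → ℂ) {z : ι} {W : Finset ι} (hz : z ∉ W) :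
    MD (MD M D {z}) D W = MD M D (insert z W) := by
  rw [MD_union M D (Finset.disjoint_singleton_left.2 hz)]
  rfl

theorem MD_congr (M : Matrix ι ι ℂ) {D D' : ι → ℂ} {W : Finset ι} (h : ∀ i ∈ W, D i = D' i) :
    MD M D W = MD M D' W := by
  unfold MD
  congr 2
  ext i
  by_cases hi : i ∈ W
  · simp [hi, h i hi]
  · simp [hi]

/-- **(A1)** `θ_W`, determinant form -/
theorem det_MD {M : Matrix ι ι ℂ} (hM : M.det ≠ 0) (D : ι → ℂ) (W : Finset ι) :
    (MD M D W).det = M.det * pm W (1 - Matrix.diagonal D * M⁻¹) := by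
  have hu : IsUnit M.det := isUnit_iff_ne_zero.2 hM
  have h1 : MD M D W = (1 - (Matrix.diagonal fun i => if i ∈ W then D i else 0) * M⁻¹) * M := by
    rw [Matrix.sub_mul, Matrix.one_mul, Matrix.mul_assoc, nonsing_inv_mul _ hu, Matrix.mul_one]
    rfl
  rw [h1, det_mul, mul_comm]
  congr 1
  rw [det_unit_rows (W := W)]
  · refine pm_congr fun i hi j hj => ?_
    simp [Matrix.sub_apply, Matrix.diagonal_mul, hi]
  · intro i hi
    ext j
    rw [Matrix.sub_apply, Matrix.diagonal_mul]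
    simp [hi, Matrix.one_apply, Pi.single_apply, eq_comm]

theorem pm_one_sub_singleton (D : ι → ℂ) (m : Matrix ι ι ℂ) (z : ι) :
    pm {z} (1 - Matrix.diagonal D * m) = 1 - D z * m z z := by
  rw [pm_singleton, Matrix.sub_apply, Matrix.diagonal_mul, one_apply_eq]

theorem pm_one_sub_pair (D : ι → ℂ) (m : Matrix ι ι ℂ) {z w : ι} (h : z ≠ w) :
    pm {z, w} (1 - Matrix.diagonal D * m) =
      (1 - D z * m z z) * (1 - D w * m w w) - D z * D w * (m z w * m w z) := by
  rw [pm_pair h]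
  simp only [Matrix.sub_apply, Matrix.diagonal_mul, one_apply_eq, one_apply_ne h,
    one_apply_ne h.symm]
  ring

/-- `θ_W` as a ratio -/
theorem det_MD_div {M : Matrix ι ι ℂ} (hM : M.det ≠ 0) (D : ι → ℂ) (W : Finset ι) :
    (MD M D W).det / M.det = pm W (1 - Matrix.diagonal D * M⁻¹) := by
  rw [det_MD hM, mul_div_cancel_left₀ _ hM]

/-- multiplicativity: `θ_{z ∪ W} = θ_z θ^{[z]}_W` -/
theorem theta_insert {M : Matrix ι ι ℂ} (hM : M.det ≠ 0) (D : ι → ℂ) {z : ι} {W : Finset ι}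
    (hz : z ∉ W) (hMz : (MD M D {z}).det ≠ 0) :
    pm (insert z W) (1 - Matrix.diagonal D * M⁻¹) =
      (1 - D z * M⁻¹ z z) * pm W (1 - Matrix.diagonal D * (MD M D {z})⁻¹) := by
  rw [← det_MD_div hM, ← det_MD_div hMz, ← pm_one_sub_singleton, ← det_MD_div hM,
    MD_insert M D hz]
  field_simp

/-! ### numerators -/

/-- column `y` replaced by `F` -/
theorem det_updateCol {M : Matrix ι ι ℂ} (hM : M.det ≠ 0) (F : ι → ℂ) (y : ι) :
    (M.updateCol y F).det = M.det * (M⁻¹ *ᵥ F) y := by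
  rw [← cramer_apply, cramer_eq_adjugate_mulVec]
  have h : M.adjugate = M.det • M⁻¹ := by
    rw [Matrix.inv_def, Ring.inverse_eq_inv', smul_smul, mul_inv_cancel₀ hM, one_smul]
  rw [h, smul_mulVec, Pi.smul_apply, smul_eq_mul]

/-- the matrix `K = m - q pᵀ/γ`, `m = M⁻¹`, `q = M⁻¹ F`, `p = row y of m`, `γ = q_y` -/
noncomputable def Kq (M : Matrix ι ι ℂ) (F : ι → ℂ) (y : ι) : Matrix ι ι ℂ :=
  Matrix.of fun i j => M⁻¹ i j - (M⁻¹ *ᵥ F) i * M⁻¹ y j / (M⁻¹ *ᵥ F) y

theorem inv_updateCol {M : Matrix ι ι ℂ} (hM : M.det ≠ 0) (F : ι → ℂ) {y : ι}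
    (hg : (M⁻¹ *ᵥ F) y ≠ 0) {i : ι} (hi : i ≠ y) (j : ι) :
    (M.updateCol y F)⁻¹ i j = Kq M F y i j := by
  have hu : IsUnit M.det := isUnit_iff_ne_zero.2 hM
  set q := M⁻¹ *ᵥ F with hq
  have hinv : M⁻¹ * M = 1 := nonsing_inv_mul _ hu
  have hmm : ∀ a b, ∑ k, M⁻¹ a k * M k b = (1 : Matrix ι ι ℂ) a b := fun a b => by
    rw [← hinv, mul_apply]
  have hqs : ∀ a, ∑ k, M⁻¹ a k * F k = q a := fun a => rfl
  let K' : Matrix ι ι ℂ := Matrix.of fun a b =>
    if a = y then M⁻¹ y b / q y else M⁻¹ a b - q a * M⁻¹ y b / q y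
  have hK' : K' * M.updateCol y F = 1 := by
    ext a b
    rw [mul_apply]
    have hcol : ∀ k, M.updateCol y F k b = if b = y then F k else M k b := fun k => by
      rw [updateCol_apply]
    by_cases ha : a = y
    · have e1 : ∀ k, K' a k = M⁻¹ y k / q y := fun k => by simp [K', ha]
      simp only [e1, hcol]
      by_cases hb : b = y
      · simp only [hb, if_true]
        rw [show (∑ k, M⁻¹ y k / q y * F k) = (∑ k, M⁻¹ y k * F k) / q y by
          rw [Finset.sum_div]; exact Finset.sum_congr rfl fun k _ => by ring, hqs, div_self hg, ha,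
          hb, one_apply_eq]
      · simp only [hb, if_false]
        rw [show (∑ k, M⁻¹ y k / q y * M k b) = (∑ k, M⁻¹ y k * M k b) / q y by
          rw [Finset.sum_div]; exact Finset.sum_congr rfl fun k _ => by ring, hmm,
          one_apply_ne (Ne.symm hb), zero_div, ha, one_apply_ne (Ne.symm hb)]
    · have e1 : ∀ k, K' a k = M⁻¹ a k - q a * M⁻¹ y k / q y := fun k => by simp [K', ha]
      simp only [e1, hcol]
      by_cases hb : b = y
      · simp only [hb, if_true]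
        rw [show (∑ k, (M⁻¹ a k - q a * M⁻¹ y k / q y) * F k) =
            (∑ k, M⁻¹ a k * F k) - q a / q y * ∑ k, M⁻¹ y k * F k by
          rw [Finset.mul_sum, ← Finset.sum_sub_distrib]
          exact Finset.sum_congr rfl fun k _ => by ring, hqs, hqs, hb, one_apply_ne ha,
          div_mul_cancel₀ _ hg, sub_self]
      · simp only [hb, if_false]
        rw [show (∑ k, (M⁻¹ a k - q a * M⁻¹ y k / q y) * M k b) =
            (∑ k, M⁻¹ a k * M k b) - q a / q y * ∑ k, M⁻¹ y k * M k b by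
          rw [Finset.mul_sum, ← Finset.sum_sub_distrib]
          exact Finset.sum_congr rfl fun k _ => by ring, hmm, hmm, one_apply_ne (Ne.symm hb)]
        ring
  rw [inv_eq_left_inv hK']
  simp [K', hi, Kq, hq]

theorem MD_updateCol (M : Matrix ι ι ℂ) (D : ι → ℂ) {W : Finset ι} (F : ι → ℂ) {y : ι}
    (hy : y ∉ W) : MD (M.updateCol y F) D W = (MD M D W).updateCol y F := by
  ext i j
  by_cases hj : j = y
  · subst hj
    by_cases hij : i = j
    · subst hij; simp [MD, hy]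
    · simp [MD, hij]
  · simp [MD, hj]

/-- **(A2)** `Ξ_W`: the numerator -/
theorem num_MD {M : Matrix ι ι ℂ} (hM : M.det ≠ 0) (D : ι → ℂ) {W : Finset ι} (F : ι → ℂ) {y : ι}
    (hy : y ∉ W) (hg : (M⁻¹ *ᵥ F) y ≠ 0) :
    ((MD M D W).updateCol y F).det =
      M.det * (M⁻¹ *ᵥ F) y * pm W (1 - Matrix.diagonal D * Kq M F y) := by
  rw [← MD_updateCol M D F hy, det_MD (by rw [det_updateCol hM]; exact mul_ne_zero hM hg),
    det_updateCol hM]
  congr 1
  refine pm_congr fun i hi j hj => ?_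
  have hiy : i ≠ y := fun e => hy (e ▸ hi)
  simp only [Matrix.sub_apply, Matrix.diagonal_mul]
  rw [inv_updateCol hM F hg hiy]

/-- `γ^{[W]} θ_W = γ Ξ_W` -/
theorem gamma_theta {M : Matrix ι ι ℂ} (hM : M.det ≠ 0) (D : ι → ℂ) {W : Finset ι} (F : ι → ℂ)
    {y : ι} (hy : y ∉ W) (hg : (M⁻¹ *ᵥ F) y ≠ 0) (hMW : (MD M D W).det ≠ 0) :
    ((MD M D W)⁻¹ *ᵥ F) y * pm W (1 - Matrix.diagonal D * M⁻¹) =
      (M⁻¹ *ᵥ F) y * pm W (1 - Matrix.diagonal D * Kq M F y) := by
  have h1 := num_MD hM D F hy hg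
  rw [det_updateCol hMW, det_MD hM] at h1
  have h2 : M.det * (((MD M D W)⁻¹ *ᵥ F) y * pm W (1 - Matrix.diagonal D * M⁻¹)) =
      M.det * ((M⁻¹ *ᵥ F) y * pm W (1 - Matrix.diagonal D * Kq M F y)) := by
    rw [← mul_assoc, ← mul_assoc, ← h1]
    ring
  exact mul_left_cancel₀ hM h2

/-! ### row scaling, the matrix `H` -/

theorem pm_diag_mul (c : ι → ℂ) (X : Matrix ι ι ℂ) (W : Finset ι) :
    pm W (Matrix.diagonal c * X) = (∏ z ∈ W, c z) * pm W X := by
  unfold pm
  have h : (Matrix.diagonal c * X).submatrix ((↑) : W → ι) ((↑) : W → ι) =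
      Matrix.diagonal (fun z : W => c z) * X.submatrix ((↑) : W → ι) ((↑) : W → ι) := by
    ext i j
    simp [Matrix.diagonal_mul]
  rw [h, det_mul, det_diagonal, Finset.prod_coe_sort]

/-- the matrix `H_zz' = (γ/(D_z q_z)) X_zz'`, `X = 1 - D K` -/
noncomputable def Hq (M : Matrix ι ι ℂ) (D : ι → ℂ) (F : ι → ℂ) (y : ι) : Matrix ι ι ℂ :=
  Matrix.diagonal (fun z => (M⁻¹ *ᵥ F) y / (D z * (M⁻¹ *ᵥ F) z)) *
    (1 - Matrix.diagonal D * Kq M F y)

theorem pm_Hq (M : Matrix ι ι ℂ) (D : ι → ℂ) (F : ι → ℂ) (y : ι) (W : Finset ι) :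
    pm W (Hq M D F y) = (∏ z ∈ W, (M⁻¹ *ᵥ F) y / (D z * (M⁻¹ *ᵥ F) z)) *
      pm W (1 - Matrix.diagonal D * Kq M F y) := pm_diag_mul _ _ _

theorem X_diag (M : Matrix ι ι ℂ) (D : ι → ℂ) (F : ι → ℂ) (y : ι) (z : ι) :
    (1 - Matrix.diagonal D * Kq M F y) z z =
      (1 - D z * M⁻¹ z z) + D z * (M⁻¹ *ᵥ F) z * M⁻¹ y z / (M⁻¹ *ᵥ F) y := by
  simp only [Matrix.sub_apply, Matrix.diagonal_mul, Kq, Matrix.of_apply, one_apply_eq]
  ring

theorem Hq_off {M : Matrix ι ι ℂ} {D : ι → ℂ} {F : ι → ℂ} {y z w : ι} (hzw : z ≠ w)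
    (hg : (M⁻¹ *ᵥ F) y ≠ 0) (hD : D z ≠ 0) (hq : (M⁻¹ *ᵥ F) z ≠ 0) :
    Hq M D F y z w = M⁻¹ y w - (M⁻¹ *ᵥ F) y / (M⁻¹ *ᵥ F) z * M⁻¹ z w := by
  simp only [Hq, Matrix.diagonal_mul, Matrix.sub_apply, Kq, Matrix.of_apply, one_apply_ne hzw]
  field_simp
  ring

theorem Hq_diag {M : Matrix ι ι ℂ} {D : ι → ℂ} {F : ι → ℂ} {y z : ι}
    (hg : (M⁻¹ *ᵥ F) y ≠ 0) (hD : D z ≠ 0) (hq : (M⁻¹ *ᵥ F) z ≠ 0) :
    Hq M D F y z z = (M⁻¹ *ᵥ F) y / (D z * (M⁻¹ *ᵥ F) z) * (1 - D z * M⁻¹ z z) + M⁻¹ y z := by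
  simp only [Hq, Matrix.diagonal_mul, Matrix.sub_apply, Kq, Matrix.of_apply, one_apply_eq]
  field_simp
  ring

/-! ### one site moved -/

theorem inv_MD_singleton {M : Matrix ι ι ℂ} (hM : M.det ≠ 0) (D : ι → ℂ) {z : ι}
    (hθ : 1 - D z * M⁻¹ z z ≠ 0) (i j : ι) :
    (MD M D {z})⁻¹ i j = M⁻¹ i j + M⁻¹ i z * D z * M⁻¹ z j / (1 - D z * M⁻¹ z z) := by
  have hu : IsUnit M.det := isUnit_iff_ne_zero.2 hM
  have hinv : M⁻¹ * M = 1 := nonsing_inv_mul _ hu
  have hmm : ∀ a b, ∑ k, M⁻¹ a k * M k b = (1 : Matrix ι ι ℂ) a b := fun a b => by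
    rw [← hinv, mul_apply]
  set th := 1 - D z * M⁻¹ z z with hth
  let N : Matrix ι ι ℂ := Matrix.of fun a b => M⁻¹ a b + M⁻¹ a z * D z * M⁻¹ z b / th
  have hN : N * MD M D {z} = 1 := by
    ext a b
    rw [mul_apply]
    have e1 : ∀ k, N a k * MD M D {z} k b =
        M⁻¹ a k * M k b + (M⁻¹ a z * D z / th) * (M⁻¹ z k * M k b) -
          (if k = b then (if k = z then N a z * D z else 0) else 0) := by
      intro k
      have e2 : MD M D {z} k b = M k b - (if k = b then (if k = z then D z else 0) else 0) := by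
        by_cases hkb : k = b
        · subst hkb
          by_cases hkz : k = z
          · subst hkz; simp [MD]
          · simp [MD, hkz]
        · simp [MD, hkb]
      rw [e2]
      by_cases hkb : k = b
      · by_cases hkz : k = z
        · simp only [hkb, hkz, if_true, N, Matrix.of_apply]
          subst hkb; subst hkz
          simp only [if_true]
          ring
        · simp only [hkz, if_false, N, Matrix.of_apply, ite_self]
          ring
      · simp only [hkb, if_false, N, Matrix.of_apply]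
        ring
    simp only [e1]
    rw [Finset.sum_sub_distrib, Finset.sum_add_distrib, ← Finset.mul_sum, hmm, hmm]
    rw [Finset.sum_ite_eq' Finset.univ b fun k => if k = z then N a z * D z else 0]
    simp only [Finset.mem_univ, if_true]
    by_cases hb : b = z
    · subst hb
      simp only [if_true, one_apply_eq]
      have e3 : N a b = M⁻¹ a b + M⁻¹ a b * D b * M⁻¹ b b / th := rfl
      rw [e3]
      have e5 : th + D b * M⁻¹ b b = 1 := by rw [hth]; ring
      have e4 : M⁻¹ a b * D b / th * 1 - (M⁻¹ a b + M⁻¹ a b * D b * M⁻¹ b b / th) * D b = 0 := by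
        calc M⁻¹ a b * D b / th * 1 - (M⁻¹ a b + M⁻¹ a b * D b * M⁻¹ b b / th) * D b
            = M⁻¹ a b * D b / th * (1 - (th + D b * M⁻¹ b b)) := by field_simp
          _ = 0 := by rw [e5]; ring
      linear_combination e4
    · simp only [hb, if_false, one_apply_ne (Ne.symm hb)]
      ring
  rw [inv_eq_left_inv hN]
  rfl

/-- column `z` of the moved Green function: `Gh^{[z]}_{zy} = Gh_{zy}/θ_z` -/
theorem inv_MD_singleton_self {M : Matrix ι ι ℂ} (hM : M.det ≠ 0) (D : ι → ℂ) {z : ι}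
    (hθ : 1 - D z * M⁻¹ z z ≠ 0) (j : ι) :
    (MD M D {z})⁻¹ z j = M⁻¹ z j / (1 - D z * M⁻¹ z z) := by
  rw [inv_MD_singleton hM D hθ, eq_div_iff hθ, add_mul, div_mul_cancel₀ _ hθ]
  ring

/-- **(A4)** the row `y` of the moved Green function in terms of `H` (symmetric `M`) -/
theorem green_sink {M : Matrix ι ι ℂ} (hM : M.det ≠ 0) (D : ι → ℂ) (F : ι → ℂ) {y z w : ι}
    (hsym : ∀ a b, M⁻¹ a b = M⁻¹ b a) (hzw : z ≠ w)
    (hθ : 1 - D z * M⁻¹ z z ≠ 0) (hg : (M⁻¹ *ᵥ F) y ≠ 0) (hD : D z ≠ 0)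
    (hq : (M⁻¹ *ᵥ F) z ≠ 0) :
    (MD M D {z})⁻¹ y w = Hq M D F y z w +
      (M⁻¹ *ᵥ F) y / (M⁻¹ *ᵥ F) z *
        ((1 - Matrix.diagonal D * Kq M F y) z z / (1 - D z * M⁻¹ z z)) * M⁻¹ z w := by
  rw [inv_MD_singleton hM D hθ, Hq_off hzw hg hD hq, X_diag]
  field_simp
  ring

/-! ### bound of a minor -/

omit [Fintype ι] in
/-- **(A5)** -/
theorem norm_pm_le {W : Finset ι} {X : Matrix ι ι ℂ} {b : ι → ℝ} (hb : ∀ z ∈ W, 0 < b z)
    (hX : ∀ z ∈ W, ∀ w ∈ W, ‖X z w‖ ≤ b z * b w) :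
    ‖pm W X‖ ≤ (W.card.factorial : ℝ) * ∏ z ∈ W, b z ^ 2 := by
  have h1 : X.submatrix ((↑) : W → ι) ((↑) : W → ι) =
      Matrix.diagonal (fun z : W => (b z : ℂ)) *
        (Matrix.of fun z w : W => X z w / (b z * b w)) *
          Matrix.diagonal (fun z : W => (b z : ℂ)) := by
    ext i j
    have hi : (b i : ℂ) ≠ 0 := Complex.ofReal_ne_zero.2 (hb i i.2).ne'
    have hj : (b j : ℂ) ≠ 0 := Complex.ofReal_ne_zero.2 (hb j j.2).ne'
    simp only [Matrix.submatrix_apply, Matrix.mul_diagonal, Matrix.diagonal_mul, Matrix.of_apply]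
    field_simp
  have h2 : ‖(Matrix.of fun z w : W => X z w / ((b z : ℂ) * b w)).det‖ ≤
      (W.card.factorial : ℝ) := by
    have h3 := Matrix.det_le (A := Matrix.of fun z w : W => X z w / ((b z : ℂ) * b w))
      (abv := IsAbsoluteValue.toAbsoluteValue (fun c : ℂ => ‖c‖)) (x := (1 : ℝ)) (fun i j => by
        show ‖X i j / ((b i : ℂ) * b j)‖ ≤ 1
        have hi := hb i i.2
        have hj := hb j j.2
        rw [norm_div, norm_mul, Complex.norm_real, Complex.norm_real, Real.norm_of_nonneg hi.le,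
          Real.norm_of_nonneg hj.le]
        exact div_le_one_of_le₀ (hX i i.2 j j.2) (mul_pos hi hj).le)
    rw [one_pow, nsmul_eq_mul, mul_one, Fintype.card_coe] at h3
    exact h3
  unfold pm
  rw [h1, det_mul, det_mul, det_diagonal, norm_mul, norm_mul]
  have h4 : ‖∏ z : W, ((b z : ℝ) : ℂ)‖ = ∏ z ∈ W, b z := by
    rw [norm_prod, ← Finset.prod_coe_sort W]
    refine Finset.prod_congr rfl fun z _ => ?_
    rw [Complex.norm_real, Real.norm_of_nonneg (hb z z.2).le]
  rw [h4]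
  have h5 : 0 ≤ ∏ z ∈ W, b z := Finset.prod_nonneg fun z hz => (hb z hz).le
  have h6 : ∏ z ∈ W, b z ^ 2 = (∏ z ∈ W, b z) * ∏ z ∈ W, b z := by
    rw [← Finset.prod_mul_distrib]
    exact Finset.prod_congr rfl fun z _ => by ring
  rw [h6]
  calc (∏ z ∈ W, b z) * ‖(Matrix.of fun z w : W => X z w / ((b z : ℂ) * b w)).det‖ *
        ∏ z ∈ W, b z
      ≤ (∏ z ∈ W, b z) * (W.card.factorial : ℝ) * ∏ z ∈ W, b z := by gcongr
    _ = _ := by ring

/-! ### sinks -/

/-- **(A6)** if every vertex of `Z` has a successor in `Z` different from itself, there is a cycle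
(with distinct vertices) -/
theorem exists_cycle {α : Type*} [Finite α] {Z : Set α} (hZ : Z.Nonempty) {E : α → α → Prop}
    (h : ∀ z ∈ Z, ∃ w ∈ Z, w ≠ z ∧ E z w) :
    ∃ (n : ℕ) (c : ℕ → α), 2 ≤ n ∧ (∀ i, c i ∈ Z) ∧ (∀ i, E (c i) (c (i + 1))) ∧
      (∀ i, c (i + n) = c i) ∧ ∀ i < n, ∀ j < n, c i = c j → i = j := by
  classical
  choose! f hf using h
  obtain ⟨z0, hz0⟩ := hZ
  have hmem : ∀ i, f^[i] z0 ∈ Z := by
    intro i
    induction i with
    | zero => exact hz0
    | succ i ih => rw [Function.iterate_succ_apply']; exact (hf _ ih).1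
  obtain ⟨a, b, hab, he⟩ := Finite.exists_ne_map_eq_of_infinite fun i : ℕ => f^[i] z0
  wlog hlt : a < b generalizing a b
  · exact this b a hab.symm he.symm (by omega)
  set w := f^[a] z0 with hw
  have hper : Function.IsPeriodicPt f (b - a) w := by
    show f^[b - a] w = w
    rw [hw, ← Function.iterate_add_apply, Nat.sub_add_cancel hlt.le]
    exact he.symm
  have hpos : 0 < Function.minimalPeriod f w := hper.minimalPeriod_pos (by omega)
  have hwm : ∀ i, f^[i] w ∈ Z := fun i => by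
    rw [hw, ← Function.iterate_add_apply]
    exact hmem _
  refine ⟨Function.minimalPeriod f w, fun i => f^[i] w, ?_, hwm, fun i => ?_, fun i => ?_, ?_⟩
  · by_contra hn
    have h1 : Function.minimalPeriod f w = 1 := by omega
    have h2 : f w = w := by
      have := Function.iterate_minimalPeriod (f := f) (x := w)
      rwa [h1] at this
    exact (hf w (hwm 0)).2.1 h2
  · show E (f^[i] w) (f^[i + 1] w)
    rw [Function.iterate_succ_apply']
    exact (hf _ (hwm i)).2.2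
  · show f^[i + Function.minimalPeriod f w] w = f^[i] w
    rw [Function.iterate_add_apply, Function.iterate_minimalPeriod]
  · intro i hi j hj hij
    exact (Function.iterate_eq_iterate_iff_of_lt_minimalPeriod hi hj).1 hij

/-- a digraph without cycle has a sink -/
theorem exists_sink {α : Type*} [Finite α] {Z : Set α} (hZ : Z.Nonempty) {E : α → α → Prop}
    (h : ¬ ∃ (n : ℕ) (c : ℕ → α), 2 ≤ n ∧ (∀ i, c i ∈ Z) ∧ (∀ i, E (c i) (c (i + 1))) ∧
      (∀ i, c (i + n) = c i) ∧ ∀ i < n, ∀ j < n, c i = c j → i = j) :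
    ∃ z ∈ Z, ∀ w ∈ Z, w ≠ z → ¬ E z w := by
  by_contra hcon
  push Not at hcon
  exact h (exists_cycle hZ hcon)

end P365T1.ISL
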