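import Vale.Agent.P365.ISL.Mass
import Vale.Agent.P365.H229.Asm

/-!
# P365-T1, insulated site lemma (ISL): total mass of the exceptional events, assembly.
-/

set_option linter.all false

namespace P365T1.ISL

open P365L P365O P365T1 P365T1.OneVar Matrix Complex MeasureTheory Function
open scoped ComplexConjugate ENNReal

variable {ι : Type*} [Fintype ι] [DecidableEq ι] {A : Matrix ι ι ℝ}

/-- all the exceptional events -/
def BadS (A : Matrix ι ι ℝ) (E : ℝ) (e : ι → ℝ) (y a : ι) (Lam r1 : ℝ) (S : Finset ι) :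
    Set (ι → ℝ) :=
  (⋃ U ∈ S.powerset.erase ∅, NU A E e y a Lam {y} U) ∪
    ⋃ p ∈ S.offDiag, PU A E e r1 {y} p.1 p.2

theorem measurableSet_BadS (hA : A.IsSymm) {E : ℝ} {e : ι → ℝ} (he : ∀ x, 0 < e x) (y a : ι)
    (Lam r1 : ℝ) (S : Finset ι) : MeasurableSet (BadS A E e y a Lam r1 S) := by
  refine MeasurableSet.union ?_ ?_
  · exact Finset.measurableSet_biUnion _ fun U _ => measurableSet_NU hA he Lam {y} U
  · exact Finset.measurableSet_biUnion _ fun p _ => measurableSet_PU hA he r1 {y} p.1 p.2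

theorem not_mem_BadS {E : ℝ} {e : ι → ℝ} {y a : ι} {Lam r1 : ℝ} {S : Finset ι} {v : ι → ℝ}
    (hA : A.IsSymm) (he : ∀ x, 0 < e x) (hv : v ∉ BadS A E e y a Lam r1 S) :
    (∀ U ⊆ S, ‖thU A E e {y} U v‖ * ‖Gr A (wF E e (U ∪ {y}) v) y a‖ ^ 2 ≤
      Lam ^ U.card * ‖Gr A (wF E e {y} v) y a‖ ^ 2) ∧
    ∀ z ∈ S, ∀ z' ∈ S, z ≠ z' →
      ‖thU A E e (insert z' {y}) {z} v‖ ≤ r1 * ‖thU A E e {y} {z} v‖ := by
  rw [BadS, Set.mem_union, not_or] at hv
  obtain ⟨h1, h2⟩ := hv
  constructor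
  · intro U hU
    by_cases h0 : U = ∅
    · subst h0
      rw [thU_empty hA he]
      simp
    · by_contra h
      apply h1
      simp only [Set.mem_iUnion]
      exact ⟨U, Finset.mem_erase.2 ⟨h0, Finset.mem_powerset.2 hU⟩, not_le.1 h⟩
  · intro z hz z' hz' hzz
    by_contra h
    apply h2
    simp only [Set.mem_iUnion]
    exact ⟨(z, z'), Finset.mem_offDiag.2 ⟨hz, hz', hzz⟩, not_le.1 h⟩

theorem lint_biUnion_le {α β : Type*} [DecidableEq β] [MeasurableSpace α] {μ : Measure α}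
    (T : Finset β) (s : β → Set α) (f : α → ℝ≥0∞) :
    ∫⁻ v in (⋃ b ∈ T, s b), f v ∂μ ≤ ∑ b ∈ T, ∫⁻ v in s b, f v ∂μ := by
  induction T using Finset.induction_on with
  | empty => simp
  | insert b T hb ih =>
    rw [Finset.sum_insert hb, Finset.set_biUnion_insert]
    exact (lintegral_union_le _ _ _).trans (add_le_add le_rfl ih)

/-- `∑_{U ≠ ∅} q^|U| ≤ 2 k q` -/
theorem sum_pow_card_le (S : Finset ι) {q : ℝ} (hq : 0 ≤ q) (hk : (S.card : ℝ) * q ≤ 1) :
    ∑ U ∈ S.powerset.erase ∅, q ^ U.card ≤ 2 * ((S.card : ℝ) * q) := by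
  have h1 : ∑ U ∈ S.powerset, q ^ U.card = (q + 1) ^ S.card := by
    rw [← Finset.sum_pow_mul_eq_add_pow]
    simp
  have h2 : ∑ U ∈ S.powerset.erase ∅, q ^ U.card = (q + 1) ^ S.card - 1 := by
    rw [← h1, ← Finset.sum_erase_add _ _ (Finset.empty_mem_powerset S)]
    simp
  rw [h2]
  have h3 : (q + 1) ^ S.card ≤ Real.exp ((S.card : ℝ) * q) := by
    rw [Real.exp_nat_mul]
    gcongr
    exact Real.add_one_le_exp q
  have h4 : Real.exp ((S.card : ℝ) * q) - 1 ≤ 2 * ((S.card : ℝ) * q) := by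
    have h5 := Real.abs_exp_sub_one_le (x := (S.card : ℝ) * q)
      (by rw [abs_of_nonneg (by positivity)]; exact hk)
    rw [abs_of_nonneg (show (0 : ℝ) ≤ (S.card : ℝ) * q by positivity)] at h5
    exact (le_abs_self _).trans h5
  linarith

theorem bad_le {ν : ι → Measure ℝ} [∀ i, IsProbabilityMeasure (ν i)] (hA : A.IsSymm) {E : ℝ}
    {e : ι → ℝ} (he : ∀ x, 0 < e x) {y a : ι} {S : Finset ι} (hyS : y ∉ S) {k0 k1 k3 Lam r1 : ℝ}
    (hk0 : 0 ≤ k0) (hk1 : 0 ≤ k1) (hk3 : 0 ≤ k3) (hLam : 0 < Lam)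
    (h1 : ∀ z ∈ S, S1 (ν z) E (e z) (ENNReal.ofReal k1))
    (h2 : ∀ z ∈ S, S2 (ν z) E (e z) (ENNReal.ofReal k0))
    (h3 : ∀ z ∈ S, S3 (ν z) E (e z) r1 (ENNReal.ofReal k3))
    (hq : 16 * ((S.card : ℝ) * (k0 * k1)) ≤ Lam) (hp : 8 * ((S.card : ℝ) ^ 2 * k3) ≤ 1) :
    ∫⁻ v in BadS A E e y a Lam r1 S, fa A E e y a {y} v ∂(Measure.pi ν) ≤
      4⁻¹ * ∫⁻ v, fa A E e y a {y} v ∂(Measure.pi ν) := by
  set I := ∫⁻ v, fa A E e y a {y} v ∂(Measure.pi ν) with hI
  set q : ℝ := k0 * k1 / Lam with hqdef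
  have hq0 : 0 ≤ q := by positivity
  have hSq : (S.card : ℝ) * q ≤ 1 / 16 := by
    rw [hqdef, ← mul_div_assoc, div_le_iff₀ hLam]
    linarith
  have e1 : ∫⁻ v in (⋃ U ∈ S.powerset.erase ∅, NU A E e y a Lam {y} U),
      fa A E e y a {y} v ∂(Measure.pi ν) ≤ ENNReal.ofReal (1 / 8) * I := by
    calc _ ≤ ∑ U ∈ S.powerset.erase ∅, ∫⁻ v in NU A E e y a Lam {y} U,
          fa A E e y a {y} v ∂(Measure.pi ν) := lint_biUnion_le _ _ _
      _ ≤ ∑ U ∈ S.powerset.erase ∅, ENNReal.ofReal (q ^ U.card) * I := by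
          refine Finset.sum_le_sum fun U hU => ?_
          have hUS : U ⊆ S := Finset.mem_powerset.1 (Finset.mem_of_mem_erase hU)
          have hd : Disjoint U {y} := by
            rw [Finset.disjoint_singleton_right]
            exact fun h => hyS (hUS h)
          have h := massN (y := y) (a := a) hA he hd (fun z hz => h1 z (hUS hz))
            (fun z hz => h2 z (hUS hz)) hLam
          refine h.trans (le_of_eq ?_)
          rw [← ENNReal.ofReal_mul hk0, ← ENNReal.ofReal_div_of_pos hLam, ← hqdef,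
            ENNReal.ofReal_pow hq0]
      _ = ENNReal.ofReal (∑ U ∈ S.powerset.erase ∅, q ^ U.card) * I := by
          rw [ENNReal.ofReal_sum_of_nonneg (fun U _ => by positivity), Finset.sum_mul]
      _ ≤ ENNReal.ofReal (1 / 8) * I := by
          gcongr
          refine (sum_pow_card_le S hq0 (by linarith)).trans ?_
          linarith
  have e2 : ∫⁻ v in (⋃ p ∈ S.offDiag, PU A E e r1 {y} p.1 p.2),
      fa A E e y a {y} v ∂(Measure.pi ν) ≤ ENNReal.ofReal (1 / 8) * I := by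
    calc _ ≤ ∑ p ∈ S.offDiag, ∫⁻ v in PU A E e r1 {y} p.1 p.2,
          fa A E e y a {y} v ∂(Measure.pi ν) := lint_biUnion_le _ _ _
      _ ≤ ∑ p ∈ S.offDiag, ENNReal.ofReal k3 * I := by
          refine Finset.sum_le_sum fun p hp => ?_
          obtain ⟨hp1, hp2, hp3⟩ := Finset.mem_offDiag.1 hp
          have hz : p.1 ∉ ({y} : Finset ι) := by
            rw [Finset.mem_singleton]
            rintro rfl
            exact hyS hp1
          exact massP hA he hz hp3 (h3 p.1 hp1)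
      _ = ENNReal.ofReal ((S.offDiag.card : ℝ) * k3) * I := by
          rw [Finset.sum_const, nsmul_eq_mul, ENNReal.ofReal_mul (by positivity),
            ENNReal.ofReal_natCast, mul_assoc]
      _ ≤ ENNReal.ofReal (1 / 8) * I := by
          gcongr
          have hc : (S.offDiag.card : ℝ) ≤ (S.card : ℝ) ^ 2 := by
            rw [Finset.offDiag_card, sq]
            have : S.card * S.card - S.card ≤ S.card * S.card := Nat.sub_le _ _
            exact_mod_cast this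
          have : (S.offDiag.card : ℝ) * k3 ≤ (S.card : ℝ) ^ 2 * k3 := by gcongr
          linarith
  calc ∫⁻ v in BadS A E e y a Lam r1 S, fa A E e y a {y} v ∂(Measure.pi ν)
      ≤ ENNReal.ofReal (1 / 8) * I + ENNReal.ofReal (1 / 8) * I :=
        (lintegral_union_le _ _ _).trans (add_le_add e1 e2)
    _ = 4⁻¹ * I := by
        rw [← add_mul, ← ENNReal.ofReal_add (by norm_num) (by norm_num)]
        congr 1
        rw [show (1 : ℝ) / 8 + 1 / 8 = 4⁻¹ by norm_num, ENNReal.ofReal_inv_of_pos (by norm_num)]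
        norm_num

/-- **assembly**, ports = a finite set of sites -/
theorem assemble {ν : ι → Measure ℝ} [∀ i, IsProbabilityMeasure (ν i)] {S : Finset ι}
    {f g : (ι → ℝ) → ℝ≥0∞} (hf : Measurable f) (hg : Measurable g)
    (hfin : ∫⁻ v, f v ∂Measure.pi ν ≠ ⊤) {B : Set (ι → ℝ)} (hBm : MeasurableSet B)
    (hB : ∫⁻ v in B, f v ∂Measure.pi ν ≤ 4⁻¹ * ∫⁻ v, f v ∂Measure.pi ν)
    {R Q : ι → Set (ι → ℝ)} (hR : ∀ z, MeasurableSet (R z)) (hQ : ∀ z, MeasurableSet (Q z))
    (hQi : ∀ z v t, update v z t ∈ Q z ↔ v ∈ Q z) {a b : ℝ≥0∞}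
    (hcover : ∀ᵐ v ∂Measure.pi ν, v ∉ B → f v ≤ a * g v ∨ ∃ z ∈ S, v ∈ R z ∧ v ∈ Q z)
    (hline : ∀ z ∈ S, ∀ v, v ∈ Q z → ∫⁻ t, (R z).indicator f (update v z t) ∂ν z ≤
      b * ∫⁻ t, g (update v z t) ∂ν z) :
    ∫⁻ v, f v ∂Measure.pi ν ≤
      2 * ((a + (S.card : ℝ≥0∞) * b) * ∫⁻ v, g v ∂Measure.pi ν) := by
  set P := Measure.pi ν with hP
  have h1 : ∀ᵐ v ∂P, v ∈ Bᶜ → f v ≤ a * g v + ∑ z ∈ S, (Q z).indicator ((R z).indicator f) v := by
    filter_upwards [hcover] with v hc hv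
    rcases hc hv with h | ⟨z, hzS, hz1, hz2⟩
    · exact h.trans le_self_add
    · refine le_trans ?_ le_add_self
      refine le_trans ?_ (Finset.single_le_sum
        (f := fun z => (Q z).indicator ((R z).indicator f) v) (fun _ _ => zero_le) hzS)
      simp only [Set.indicator_of_mem hz2, Set.indicator_of_mem hz1]
      exact le_rfl
  have h2 : ∫⁻ v in Bᶜ, f v ∂P ≤
      ∫⁻ v, (a * g v + ∑ z ∈ S, (Q z).indicator ((R z).indicator f) v) ∂P := by
    refine (setLIntegral_mono_ae' hBm.compl h1).trans ?_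
    exact setLIntegral_le_lintegral _ _
  have hind : ∀ z, Measurable fun v => (Q z).indicator ((R z).indicator f) v := fun z =>
    (hf.indicator (hR z)).indicator (hQ z)
  have h3 : ∫⁻ v, (a * g v + ∑ z ∈ S, (Q z).indicator ((R z).indicator f) v) ∂P =
      a * ∫⁻ v, g v ∂P + ∑ z ∈ S, ∫⁻ v, (Q z).indicator ((R z).indicator f) v ∂P := by
    rw [lintegral_add_left (hg.const_mul a), lintegral_const_mul _ hg,
      lintegral_finsetSum _ fun z _ => hind z]
  have h4 : ∀ z ∈ S, ∫⁻ v, (Q z).indicator ((R z).indicator f) v ∂P ≤ b * ∫⁻ v, g v ∂P := by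
    intro z hzS
    rw [hP, lintegral_resample _ (hind z) z]
    have h5 : ∀ v, ∫⁻ t, (Q z).indicator ((R z).indicator f) (update v z t) ∂ν z ≤
        b * ∫⁻ t, g (update v z t) ∂ν z := by
      intro v
      by_cases hv : v ∈ Q z
      · refine le_trans (lintegral_mono fun t => ?_) (hline z hzS v hv)
        rw [Set.indicator_of_mem ((hQi z v t).2 hv)]
      · have h6 : ∀ t, (Q z).indicator ((R z).indicator f) (update v z t) = 0 := by
          intro t
          rw [Set.indicator_of_notMem]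
          rw [hQi z v t]
          exact hv
        simp [h6]
    refine (lintegral_mono h5).trans ?_
    have hmeas : Measurable fun v => ∫⁻ t, g (update v z t) ∂ν z := by
      have h7 := hg.lmarginal ν (s := {z})
      have h8 : (fun v => ∫⁻ t, g (update v z t) ∂ν z) = ∫⋯∫⁻_{z}, g ∂ν := by
        funext v
        rw [lmarginal_singleton]
      rw [h8]
      exact h7
    rw [lintegral_const_mul _ hmeas, ← lintegral_resample _ hg z]
  have h5 : ∫⁻ v, f v ∂P = ∫⁻ v in B, f v ∂P + ∫⁻ v in Bᶜ, f v ∂P :=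
    (lintegral_add_compl f hBm).symm
  have h6 : ∫⁻ v in Bᶜ, f v ∂P ≤
      (a + (S.card : ℝ≥0∞) * b) * ∫⁻ v, g v ∂P := by
    refine h2.trans (h3.le.trans ?_)
    have h7 : ∑ z ∈ S, ∫⁻ v, (Q z).indicator ((R z).indicator f) v ∂P ≤
        (S.card : ℝ≥0∞) * b * ∫⁻ v, g v ∂P := by
      refine (Finset.sum_le_sum fun z hz => h4 z hz).trans ?_
      rw [Finset.sum_const, nsmul_eq_mul, mul_assoc]
    rw [add_mul]
    exact add_le_add le_rfl h7
  set J1 := ∫⁻ v, f v ∂P with hI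
  set J := (a + (S.card : ℝ≥0∞) * b) * ∫⁻ v, g v ∂P with hJ
  have h7 : J1 ≤ 4⁻¹ * J1 + J := by
    calc J1 = _ := h5
      _ ≤ 4⁻¹ * J1 + J := add_le_add hB h6
  by_cases hJt : J = ⊤
  · rw [hJt]
    simp
  · have hI' : J1 ≠ ⊤ := hfin
    have e1 : (4⁻¹ * J1 + J) = ENNReal.ofReal (4⁻¹ * J1.toReal + J.toReal) := by
      rw [ENNReal.ofReal_add (by positivity) (by positivity), ENNReal.ofReal_mul (by positivity),
        ENNReal.ofReal_toReal hI', ENNReal.ofReal_toReal hJt]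
      congr 2
      rw [ENNReal.ofReal_inv_of_pos (by norm_num)]
      norm_num
    have e2 : J1.toReal ≤ 4⁻¹ * J1.toReal + J.toReal := by
      rw [e1] at h7
      exact ENNReal.toReal_le_of_le_ofReal (by positivity) h7
    have e3 : J1.toReal ≤ 2 * J.toReal := by
      have : 0 ≤ J.toReal := ENNReal.toReal_nonneg
      linarith
    calc J1 = ENNReal.ofReal J1.toReal := (ENNReal.ofReal_toReal hI').symm
      _ ≤ ENNReal.ofReal (2 * J.toReal) := ENNReal.ofReal_le_ofReal e3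
      _ = 2 * J := by
        rw [ENNReal.ofReal_mul (by norm_num), ENNReal.ofReal_toReal hJt]
        norm_num

end P365T1.ISL
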