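import Vale.Agent.P365.ISL.Link77
import Vale.Agent.P365.C937.SwitchAll

/-!
# P365-T1, ISL: from the abstract insulated site inequality to the cost of the centre of a cell
in the whole system.
-/

set_option linter.all false

namespace P365T1.Link

open P365L P365O P365T1 P365T1.Switch Matrix Complex MeasureTheory
open scoped ComplexConjugate ENNReal

/-- diagonal on `Option κ`: `a` at `none`, `w z - E - i eS z` at `some z` -/
noncomputable def dgo {κ : Type*} (a : ℂ) (E : ℝ) (eS w : κ → ℝ) : Option κ → ℂ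
  | none => a
  | some z => ((w z - E : ℝ) : ℂ) - (eS z : ℂ) * I

/-- **the abstract insulated site inequality** for the self-energy matrix `Sg` on `Option κ`
(`none` = the centre, `some z` = ports) -/
def ISLfor {κ : Type*} [Fintype κ] [DecidableEq κ] (νS : κ → Measure ℝ) (νy : Measure ℝ)
    (E : ℝ) (eS : κ → ℝ) (ey : ℝ) (Sg : Matrix (Option κ) (Option κ) ℂ) (η : ℝ≥0∞) : Prop :=
  ∀ F : Option κ → ℂ,
    ∫⁻ w, ENNReal.ofReal (‖((Matrix.diagonal (dgo (-I) E eS w) - Sg)⁻¹ *ᵥ F) none‖ ^ 2)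
        ∂(Measure.pi νS) ≤
      η * ∫⁻ w, ∫⁻ u, ENNReal.ofReal (‖((Matrix.diagonal
        (dgo (((u - E : ℝ) : ℂ) - (ey : ℂ) * I) E eS w) - Sg)⁻¹ *ᵥ F) none‖ ^ 2)
        ∂νy ∂(Measure.pi νS)

variable {ι : Type*} [Fintype ι] [DecidableEq ι] {A : Matrix ι ι ℝ}

/-- centre and ports -/
def emo (y : ι) (S : Finset ι) : Option S → ι
  | none => y
  | some z => z

theorem emo_inj {y : ι} {S : Finset ι} (hy : y ∉ S) : Function.Injective (emo y S) := by
  intro p q h
  cases p with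
  | none =>
    cases q with
    | none => rfl
    | some z => exact absurd (show (z : ι) = y from h.symm) (fun h2 => hy (h2 ▸ z.2))
  | some z =>
    cases q with
    | none => exact absurd (show (z : ι) = y from h) (fun h2 => hy (h2 ▸ z.2))
    | some z' => exact congrArg some (Subtype.ext h)

theorem not_range_emo {y : ι} {S : Finset ι} {x : ι} (hx : x ∉ Set.range (emo y S)) :
    x ≠ y ∧ x ∉ S := by
  constructor
  · intro h
    exact hx ⟨none, h.symm⟩
  · intro h
    exact hx ⟨some ⟨x, h⟩, rfl⟩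

theorem Yf_le_ref (hA : A.IsSymm) {W : ι → ℂ} (hW : ∀ x, (W x).im < 0) (f : ι → ℝ) (y : ι) :
    Yf A W f y ≤ 2 * ∑ x, (-(W x).im) * (f x - f y) ^ 2 *
      ‖Gr A (Function.update W y (-I)) y x‖ ^ 2 := by
  have hI : ((-I : ℂ)).im < 0 := negI_im
  have hs := sg_im_nonneg hA hW y
  have h1 : ∀ x, ‖Gr A (Function.update W y (-I)) y x‖ ^ 2 =
      ‖gw A W y x‖ ^ 2 / ‖-I - sg A W y‖ ^ 2 := by
    intro x
    rw [Gr_eq_gw' hA (update_neg hW hI), gw_upd hA hW hI, Gr_zz_upd hA hW hI, norm_mul, mul_pow,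
      norm_inv, inv_pow, div_eq_mul_inv]
  have h2 : 0 < ‖-I - sg A W y‖ ^ 2 := pow_pos (norm_pos_iff.2 (ref_ne hs)) 2
  have h3 : ‖-I - sg A W y‖ ^ 2 ≤ 2 * (1 + ‖sg A W y‖ ^ 2) := by
    have h4 := norm_sub_le (-I) (sg A W y)
    rw [norm_neg, norm_I] at h4
    nlinarith [norm_nonneg (-I - sg A W y), norm_nonneg (sg A W y),
      sq_nonneg (1 - ‖sg A W y‖)]
  have h5 : Yf A W f y = Nf A W f y / (1 + ‖sg A W y‖ ^ 2) := rfl
  have h6 : ∑ x, (-(W x).im) * (f x - f y) ^ 2 * ‖Gr A (Function.update W y (-I)) y x‖ ^ 2 =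
      Nf A W f y / ‖-I - sg A W y‖ ^ 2 := by
    rw [Nf, Finset.sum_div]
    refine Finset.sum_congr rfl fun x _ => ?_
    rw [h1]
    ring
  rw [h5, h6, mul_div_assoc', div_le_div_iff₀ (by positivity) h2]
  have h7 := Nf_nonneg hW (A := A) f y
  nlinarith

theorem Mf_eq_sum (W : ι → ℂ) (f : ι → ℝ) (y : ι) :
    Mf A W f y = ∑ x, (-(W x).im) * (f x - f y) ^ 2 * ‖Gr A W y x‖ ^ 2 := by
  rw [Mf]
  refine Finset.sum_congr rfl fun x _ => ?_
  rw [KK]
  ring

theorem updF_of_mem {S : Finset ι} (v : ι → ℝ) (w : S → ℝ) {x : ι} (hx : x ∈ S) :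
    Function.updateFinset v S w x = w ⟨x, hx⟩ := by
  rw [Function.updateFinset, dif_pos hx]

theorem updF_of_notMem {S : Finset ι} (v : ι → ℝ) (w : S → ℝ) {x : ι} (hx : x ∉ S) :
    Function.updateFinset v S w x = v x := by
  rw [Function.updateFinset, dif_neg hx]

/-- the entry `G_{y x}` as a function of the ports, centre at `a` -/
theorem Gr_ports (hA : A.IsSymm) {E : ℝ} {e : ι → ℝ} (he : ∀ x, 0 < e x) {y : ι} {S : Finset ι}
    (hy : y ∉ S) (v : ι → ℝ) (w : S → ℝ) {a : ℂ} (ha : a.im < 0) (x : ι) :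
    Gr A (Function.update (WV E e (Function.updateFinset v S w)) y a) y x =
      ((Matrix.diagonal (dgo a E (fun z : S => e z) w) - SgP A (WV E e v) (emo y S))⁻¹ *ᵥ
        FP A (WV E e v) (emo y S) x) none := by
  have hW' : ∀ x, ((Function.update (WV E e (Function.updateFinset v S w)) y a) x).im < 0 :=
    fun x => update_neg (WV_neg he _) ha x
  have h := Gr_eq_of hA (WV_neg (E := E) he v) hW' (emo_inj hy)
    (fun x hx => by
      obtain ⟨h1, h2⟩ := not_range_emo hx
      rw [Function.update_of_ne h1, WV, WV, updF_of_notMem v w h2]) x none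
  have h1 : emo y S none = y := rfl
  rw [h1] at h
  rw [h]
  congr 4
  funext p
  cases p with
  | none => exact Function.update_self _ _ _
  | some z =>
    have h2 : emo y S (some z) = (z : ι) := rfl
    have h3 : (z : ι) ≠ y := fun h4 => hy (h4 ▸ z.2)
    rw [h2, Function.update_of_ne h3, WV, updF_of_mem v w z.2]
    rfl

/-- **cost of the centre in the whole system** -/
theorem centre_cost (hA : A.IsSymm) {ν : ι → Measure ℝ} [∀ x, IsProbabilityMeasure (ν x)]
    {E : ℝ} {e : ι → ℝ} (he : ∀ x, 0 < e x) {y : ι} {S : Finset ι} (hy : y ∉ S) (f : ι → ℝ)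
    {η : ℝ≥0∞} (hη : η ≠ ⊤)
    (hisl : ∀ v : ι → ℝ, ISLfor (fun z : S => ν z) (ν y) E (fun z : S => e z) (e y)
      (SgP A (WV E e v) (emo y S)) η) :
    ∫⁻ v, ENNReal.ofReal (Yf A (WV E e v) f y) ∂Measure.pi ν ≤
      2 * (η * ∫⁻ v, ENNReal.ofReal (Mf A (WV E e v) f y) ∂Measure.pi ν) := by
  -- the two families of functions
  set G : ι → (ι → ℝ) → ℝ≥0∞ := fun x v =>
    ENNReal.ofReal (‖Gr A (Function.update (WV E e v) y (-I)) y x‖ ^ 2) with hG
  set K : ι → (ι → ℝ) → ℝ≥0∞ := fun x v =>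
    ENNReal.ofReal (‖Gr A (WV E e v) y x‖ ^ 2) with hK
  set c : ι → ℝ≥0∞ := fun x => ENNReal.ofReal (e x * (f x - f y) ^ 2) with hc
  have hmW : ∀ x, Measurable fun v : ι → ℝ => WV E e v x := by
    intro x
    unfold WV
    have h1 : Measurable fun v : ι → ℝ => v x - E := by fun_prop
    exact (Complex.measurable_ofReal.comp h1).sub_const _
  have hmG : ∀ x, Measurable (G x) := by
    intro x
    refine (((measurable_Gr (fun v : ι → ℝ => Function.update (WV E e v) y (-I))
      (fun z => ?_) y x).norm).pow_const 2).ennreal_ofReal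
    by_cases hz : z = y
    · subst hz
      simp only [Function.update_self]
      exact measurable_const
    · simp only [Function.update_of_ne hz]
      exact hmW z
  have hmK : ∀ x, Measurable (K x) := fun x =>
    ((measurable_Gr (fun v : ι → ℝ => WV E e v) hmW y x).norm.pow_const 2).ennreal_ofReal
  have hWim : ∀ v x, -(WV E e v x).im = e x := by
    intro v x
    simp [WV]
  -- step 1
  have s1 : ∫⁻ v, ENNReal.ofReal (Yf A (WV E e v) f y) ∂Measure.pi ν ≤
      2 * ∑ x, c x * ∫⁻ v, G x v ∂Measure.pi ν := by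
    have h1 : ∀ v, ENNReal.ofReal (Yf A (WV E e v) f y) ≤ 2 * ∑ x, c x * G x v := by
      intro v
      refine (ENNReal.ofReal_le_ofReal (Yf_le_ref hA (WV_neg he v) f y)).trans (le_of_eq ?_)
      rw [ENNReal.ofReal_mul (by norm_num), ENNReal.ofReal_ofNat, ENNReal.ofReal_sum_of_nonneg
        (fun x _ => mul_nonneg (mul_nonneg (by rw [hWim]; exact (he x).le) (sq_nonneg _))
          (sq_nonneg _))]
      congr 1
      refine Finset.sum_congr rfl fun x _ => ?_
      rw [ENNReal.ofReal_mul (mul_nonneg (by rw [hWim]; exact (he x).le) (sq_nonneg _)), hWim]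
    refine (lintegral_mono h1).trans (le_of_eq ?_)
    rw [lintegral_const_mul _ (Finset.measurable_sum _ fun x _ => (hmG x).const_mul _),
      lintegral_finset_sum _ fun x _ => (hmG x).const_mul _]
    congr 1
    exact Finset.sum_congr rfl fun x _ => lintegral_const_mul _ (hmG x)
  -- step 2
  have s2 : ∀ x, ∫⁻ v, G x v ∂Measure.pi ν ≤ η * ∫⁻ v, K x v ∂Measure.pi ν := by
    intro x
    have hmH : Measurable (∫⋯∫⁻_{y}, K x ∂ν) := (hmK x).lmarginal ν
    rw [← lint_lmarginal S (hmG x)]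
    have h1 : ∫⁻ v, K x v ∂Measure.pi ν =
        ∫⁻ v, (∫⋯∫⁻_S, (∫⋯∫⁻_{y}, K x ∂ν) ∂ν) v ∂Measure.pi ν := by
      rw [lint_lmarginal S hmH, lint_lmarginal {y} (hmK x)]
    rw [h1, ← lintegral_const_mul _ (hmH.lmarginal ν)]
    refine lintegral_mono fun v => ?_
    have h2 := hisl v (FP A (WV E e v) (emo y S) x)
    have h3 : (∫⋯∫⁻_S, G x ∂ν) v = ∫⁻ w, ENNReal.ofReal (‖((Matrix.diagonal
        (dgo (-I) E (fun z : S => e z) w) - SgP A (WV E e v) (emo y S))⁻¹ *ᵥ
          FP A (WV E e v) (emo y S) x) none‖ ^ 2) ∂(Measure.pi fun z : S => ν z) := by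
      rw [lmarginal]
      refine lintegral_congr fun w => ?_
      simp only [hG]
      rw [Gr_ports hA he hy v w negI_im x]
    have h4 : (∫⋯∫⁻_S, (∫⋯∫⁻_{y}, K x ∂ν) ∂ν) v = ∫⁻ w, ∫⁻ u, ENNReal.ofReal
        (‖((Matrix.diagonal (dgo (((u - E : ℝ) : ℂ) - (e y : ℂ) * I) E (fun z : S => e z) w) -
          SgP A (WV E e v) (emo y S))⁻¹ *ᵥ FP A (WV E e v) (emo y S) x) none‖ ^ 2)
        ∂(ν y) ∂(Measure.pi fun z : S => ν z) := by
      rw [lmarginal]
      refine lintegral_congr fun w => ?_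
      rw [lmarginal_singleton]
      refine lintegral_congr fun u => ?_
      simp only [hK]
      rw [WV_update, Gr_ports hA he hy v w (by simp [he y]) x]
    rw [h3, h4]
    exact h2
  -- step 3
  have s3 : ∑ x, c x * ∫⁻ v, K x v ∂Measure.pi ν =
      ∫⁻ v, ENNReal.ofReal (Mf A (WV E e v) f y) ∂Measure.pi ν := by
    have h1 : ∀ v, ENNReal.ofReal (Mf A (WV E e v) f y) = ∑ x, c x * K x v := by
      intro v
      rw [Mf_eq_sum, ENNReal.ofReal_sum_of_nonneg
        (fun x _ => mul_nonneg (mul_nonneg (by rw [hWim]; exact (he x).le) (sq_nonneg _))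
          (sq_nonneg _))]
      refine Finset.sum_congr rfl fun x _ => ?_
      rw [ENNReal.ofReal_mul (mul_nonneg (by rw [hWim]; exact (he x).le) (sq_nonneg _)), hWim]
    simp only [h1]
    rw [lintegral_finset_sum _ fun x _ => (hmK x).const_mul _]
    exact Finset.sum_congr rfl fun x _ => (lintegral_const_mul _ (hmK x)).symm
  refine s1.trans (mul_le_mul' le_rfl ?_)
  rw [← s3, Finset.mul_sum]
  refine Finset.sum_le_sum fun x _ => ?_
  calc c x * ∫⁻ v, G x v ∂Measure.pi ν ≤ c x * (η * ∫⁻ v, K x v ∂Measure.pi ν) :=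
        mul_le_mul' le_rfl (s2 x)
    _ = η * (c x * ∫⁻ v, K x v ∂Measure.pi ν) := by ring

end P365T1.Link
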