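import Mathlib

/-!
# P365, insulated site lemma, piece (I4): the cycle lemma

A complex matrix all of whose principal minors satisfy `‖det H[W]‖ ≤ r ^ |W|` has a *sink*: an index
`z` with `‖H z z'‖ ≤ 2000 |κ| r` for all `z' ≠ z`.
-/

namespace P365T1.ISL

open Finset Matrix

section Dom

variable {n : Type*} [Fintype n] [DecidableEq n]

/-- Weighted diagonal dominance: a bound for solutions. -/
theorem dom_solve (B : Matrix n n ℂ) (w : n → ℝ) (hw : ∀ i, 0 < w i) (hd : ∀ i, B i i = 1)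
    (hN : ∀ i, ∑ j ∈ univ.erase i, w i * ‖B i j‖ / w j ≤ 1 / 2)
    (u c : n → ℂ) (h : B *ᵥ u = c) (κ : ℝ) (hc : ∀ i, w i * ‖c i‖ ≤ κ) (i : n) :
    w i * ‖u i‖ ≤ 2 * κ := by
  classical
  obtain ⟨i0, -, hi0⟩ := Finset.exists_max_image univ (fun i => w i * ‖u i‖) ⟨i, mem_univ i⟩
  have hm : ∀ j, w j * ‖u j‖ ≤ w i0 * ‖u i0‖ := fun j => hi0 j (mem_univ j)
  have hrow : u i0 = c i0 - ∑ j ∈ univ.erase i0, B i0 j * u j := by
    have h1 : c i0 = ∑ j, B i0 j * u j := by rw [← h]; rfl
    rw [h1, ← Finset.add_sum_erase univ _ (mem_univ i0), hd i0]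
    ring
  have hnorm : w i0 * ‖u i0‖ ≤ w i0 * ‖c i0‖ + ∑ j ∈ univ.erase i0, w i0 * (‖B i0 j‖ * ‖u j‖) := by
    rw [← Finset.mul_sum, ← mul_add]
    apply mul_le_mul_of_nonneg_left _ (hw i0).le
    calc ‖u i0‖ = ‖c i0 - ∑ j ∈ univ.erase i0, B i0 j * u j‖ := by rw [← hrow]
      _ ≤ ‖c i0‖ + ‖∑ j ∈ univ.erase i0, B i0 j * u j‖ := norm_sub_le _ _
      _ ≤ ‖c i0‖ + ∑ j ∈ univ.erase i0, ‖B i0 j * u j‖ := by
          gcongr; exact norm_sum_le _ _
      _ = _ := by simp
  have hsum : ∑ j ∈ univ.erase i0, w i0 * (‖B i0 j‖ * ‖u j‖) ≤ 1 / 2 * (w i0 * ‖u i0‖) := by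
    calc ∑ j ∈ univ.erase i0, w i0 * (‖B i0 j‖ * ‖u j‖)
        = ∑ j ∈ univ.erase i0, (w i0 * ‖B i0 j‖ / w j) * (w j * ‖u j‖) := by
          apply Finset.sum_congr rfl
          intro j _
          have := (hw j).ne'
          field_simp
      _ ≤ ∑ j ∈ univ.erase i0, (w i0 * ‖B i0 j‖ / w j) * (w i0 * ‖u i0‖) := by
          apply Finset.sum_le_sum
          intro j _
          apply mul_le_mul_of_nonneg_left (hm j)
          exact div_nonneg (mul_nonneg (hw i0).le (norm_nonneg _)) (hw j).le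
      _ = (∑ j ∈ univ.erase i0, (w i0 * ‖B i0 j‖ / w j)) * (w i0 * ‖u i0‖) := by
          rw [Finset.sum_mul]
      _ ≤ _ := mul_le_mul_of_nonneg_right (hN i0) (mul_nonneg (hw i0).le (norm_nonneg _))
  have := hc i0
  have := hm i
  linarith

/-- Weighted diagonal dominance: lower bound for the determinant. -/
theorem dom_det (B : Matrix n n ℂ) (w : n → ℝ) (hw : ∀ i, 0 < w i) (hd : ∀ i, B i i = 1)
    (hN : ∀ i, ∑ j ∈ univ.erase i, w i * ‖B i j‖ / w j ≤ 1 / 2) :
    (1 / 2 : ℝ) ^ (Fintype.card n) ≤ ‖B.det‖ := by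
  classical
  have key : ∀ μ ∈ B.charpoly.roots, (1 / 2 : ℝ) ≤ ‖μ‖ := by
    intro μ hμ
    have hroot : B.charpoly.IsRoot μ := by
      rw [Polynomial.mem_roots'] at hμ; exact hμ.2
    have hdet0 : (Matrix.scalar n μ - B).det = 0 := by
      rw [← Matrix.eval_charpoly]; exact hroot
    obtain ⟨u, hu, hBu⟩ := Matrix.exists_mulVec_eq_zero_iff.mpr hdet0
    have hBu' : ∀ i, μ * u i = ∑ j, B i j * u j := by
      intro i
      have := congrFun hBu i
      rw [Matrix.sub_mulVec] at this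
      simp only [Pi.sub_apply, Pi.zero_apply, Matrix.scalar_apply, Matrix.mulVec_diagonal] at this
      rw [sub_eq_zero] at this
      exact this
    obtain ⟨k, hk⟩ : ∃ k, u k ≠ 0 := by
      by_contra hcon
      push Not at hcon
      exact hu (funext hcon)
    obtain ⟨i0, -, hi0⟩ := Finset.exists_max_image univ (fun i => w i * ‖u i‖) ⟨k, mem_univ k⟩
    have hm : ∀ j, w j * ‖u j‖ ≤ w i0 * ‖u i0‖ := fun j => hi0 j (mem_univ j)
    have hpos : 0 < w i0 * ‖u i0‖ :=
      lt_of_lt_of_le (mul_pos (hw k) (norm_pos_iff.mpr hk)) (hm k)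
    have hrow : (μ - 1) * u i0 = ∑ j ∈ univ.erase i0, B i0 j * u j := by
      have h1 := hBu' i0
      rw [← Finset.add_sum_erase univ _ (mem_univ i0), hd i0] at h1
      linear_combination h1
    have hsum : w i0 * ‖∑ j ∈ univ.erase i0, B i0 j * u j‖ ≤ 1 / 2 * (w i0 * ‖u i0‖) := by
      calc w i0 * ‖∑ j ∈ univ.erase i0, B i0 j * u j‖
          ≤ w i0 * ∑ j ∈ univ.erase i0, ‖B i0 j * u j‖ := by
            apply mul_le_mul_of_nonneg_left (norm_sum_le _ _) (hw i0).le
        _ = ∑ j ∈ univ.erase i0, (w i0 * ‖B i0 j‖ / w j) * (w j * ‖u j‖) := by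
            rw [Finset.mul_sum]
            apply Finset.sum_congr rfl
            intro j _
            have := (hw j).ne'
            rw [norm_mul]
            field_simp
        _ ≤ ∑ j ∈ univ.erase i0, (w i0 * ‖B i0 j‖ / w j) * (w i0 * ‖u i0‖) := by
            apply Finset.sum_le_sum
            intro j _
            apply mul_le_mul_of_nonneg_left (hm j)
            exact div_nonneg (mul_nonneg (hw i0).le (norm_nonneg _)) (hw j).le
        _ = (∑ j ∈ univ.erase i0, (w i0 * ‖B i0 j‖ / w j)) * (w i0 * ‖u i0‖) := by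
            rw [Finset.sum_mul]
        _ ≤ _ := mul_le_mul_of_nonneg_right (hN i0) hpos.le
    have h2 : ‖μ - 1‖ * (w i0 * ‖u i0‖) ≤ 1 / 2 * (w i0 * ‖u i0‖) := by
      calc ‖μ - 1‖ * (w i0 * ‖u i0‖) = w i0 * ‖(μ - 1) * u i0‖ := by rw [norm_mul]; ring
        _ = w i0 * ‖∑ j ∈ univ.erase i0, B i0 j * u j‖ := by rw [hrow]
        _ ≤ _ := hsum
    have h3 : ‖μ - 1‖ ≤ 1 / 2 := le_of_mul_le_mul_right h2 hpos
    have h4 : (1 : ℝ) ≤ ‖μ‖ + ‖μ - 1‖ := by
      calc (1 : ℝ) = ‖(1 : ℂ)‖ := by simp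
        _ = ‖μ - (μ - 1)‖ := by congr 1; ring
        _ ≤ _ := norm_sub_le _ _
    linarith
  have hcard : Multiset.card B.charpoly.roots = Fintype.card n := by
    rw [← (IsAlgClosed.splits B.charpoly).natDegree_eq_card_roots, Matrix.charpoly_natDegree_eq_dim]
  rw [Matrix.det_eq_prod_roots_charpoly, ← hcard]
  have gen : ∀ s : Multiset ℂ, (∀ μ ∈ s, (1 / 2 : ℝ) ≤ ‖μ‖) → (1 / 2 : ℝ) ^ (Multiset.card s) ≤ ‖s.prod‖ := by
    intro s
    induction s using Multiset.induction_on with
    | empty => intro _; simp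
    | cons a s ih =>
      intro hs
      rw [Multiset.card_cons, Multiset.prod_cons, norm_mul, pow_succ']
      apply mul_le_mul (hs a (Multiset.mem_cons_self a s))
        (ih (fun μ hμ => hs μ (Multiset.mem_cons_of_mem hμ))) (by positivity) (norm_nonneg _)
  exact gen _ key

end Dom


section Window

variable {ι : Type*}

/-- The determinant of the shifted (cyclically rotated columns) and row-normalised window. -/
theorem window_det (H : Matrix ι ι ℂ) (v : ℕ → ι) (l : ℕ) (K : ℝ) (hK : 0 < K)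
    (hdet : ‖(H.submatrix (fun i : Fin (l + 1) => v i) (fun i : Fin (l + 1) => v i)).det‖ ≤ 1)
    (hedge : ∀ i ≤ l, K ≤ ‖H (v i) (v (i + 1))‖) :
    ‖(fromBlocks (of fun (i j : Fin l) => H (v i) (v (j + 1)) / H (v i) (v (i + 1)))
      (of fun (i : Fin l) (_ : Fin 1) => H (v i) (v 0) / H (v i) (v (i + 1)))
      (of fun (_ : Fin 1) (j : Fin l) => H (v l) (v (j + 1)) / H (v l) (v (l + 1)))
      (of fun (_ : Fin 1) (_ : Fin 1) => H (v l) (v 0) / H (v l) (v (l + 1)))).det‖
      ≤ (1 / K) ^ (l + 1) := by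
  classical
  set S := H.submatrix (fun i : Fin (l + 1) => v i) (fun i : Fin (l + 1) => v i) with hS
  set M := (of fun (p q : Fin (l + 1)) => (H (v p) (v (p + 1)))⁻¹ *
    (S.submatrix id (finRotate (l + 1))) p q) with hM
  have hMe : fromBlocks (of fun (i j : Fin l) => H (v i) (v (j + 1)) / H (v i) (v (i + 1)))
      (of fun (i : Fin l) (_ : Fin 1) => H (v i) (v 0) / H (v i) (v (i + 1)))
      (of fun (_ : Fin 1) (j : Fin l) => H (v l) (v (j + 1)) / H (v l) (v (l + 1)))
      (of fun (_ : Fin 1) (_ : Fin 1) => H (v l) (v 0) / H (v l) (v (l + 1)))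
      = M.submatrix finSumFinEquiv finSumFinEquiv := by
    have hrl : (finRotate (l + 1)) (Fin.natAdd l (0 : Fin 1)) = 0 := by
      have : Fin.natAdd l (0 : Fin 1) = Fin.last l := by ext; simp
      rw [this, finRotate_last]
    have hrc : ∀ j : Fin l, ((finRotate (l + 1)) (Fin.castAdd 1 j) : ℕ) = j + 1 := by
      intro j
      have : (Fin.castAdd 1 j : Fin (l + 1)) ≠ Fin.last l := by
        intro h
        have := congrArg Fin.val h
        simp at this
        have := j.2
        omega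
      rw [coe_finRotate_of_ne_last this]
      simp
    ext p q
    rcases p with i | i <;> rcases q with j | j
    · simp only [fromBlocks_apply₁₁, of_apply, submatrix_apply, finSumFinEquiv_apply_left,
        hM, hS, id, hrc, div_eq_inv_mul, Fin.val_castAdd]
    · have : j = 0 := Subsingleton.elim _ _
      subst this
      simp only [fromBlocks_apply₁₂, of_apply, submatrix_apply, finSumFinEquiv_apply_left,
        finSumFinEquiv_apply_right, hM, hS, id, hrl]
      simp [div_eq_inv_mul]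
    · have : i = 0 := Subsingleton.elim _ _
      subst this
      simp only [fromBlocks_apply₂₁, of_apply, submatrix_apply, finSumFinEquiv_apply_left,
        finSumFinEquiv_apply_right, hM, hS, id, hrc, div_eq_inv_mul, Fin.val_natAdd]
      simp
    · have hi : i = 0 := Subsingleton.elim _ _
      have hj : j = 0 := Subsingleton.elim _ _
      subst hi hj
      simp only [fromBlocks_apply₂₂, of_apply, submatrix_apply, 
        finSumFinEquiv_apply_right, hM, hS, id, hrl]
      simp [div_eq_inv_mul]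
  rw [hMe, det_submatrix_equiv_self, hM, det_mul_column, det_permute', norm_mul, norm_mul]
  have h1 : ‖((Equiv.Perm.sign (finRotate (l + 1)) : ℤ) : ℂ)‖ = 1 := by
    rcases Int.units_eq_one_or (Equiv.Perm.sign (finRotate (l + 1))) with h | h <;> rw [h] <;> simp
  rw [h1, one_mul, norm_prod]
  have h2 : ∏ p : Fin (l + 1), ‖(H (v p) (v (p + 1)))⁻¹‖ ≤ ∏ _p : Fin (l + 1), (1 / K) := by
    apply Finset.prod_le_prod
    · intro p _; exact norm_nonneg _
    · intro p _
      rw [norm_inv, one_div]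
      exact inv_anti₀ hK (hedge p (Nat.lt_succ_iff.mp p.2))
  calc (∏ p : Fin (l + 1), ‖(H (v p) (v (p + 1)))⁻¹‖) * ‖S.det‖
      ≤ (∏ _p : Fin (l + 1), (1 / K)) * 1 := by
        apply mul_le_mul h2 hdet (norm_nonneg _)
        exact Finset.prod_nonneg (fun _ _ => by positivity)
    _ = (1 / K) ^ (l + 1) := by simp

theorem geo_sum (i l : ℕ) :
    ∑ j ∈ Finset.range l, (if i < j then (1 / 4 : ℝ) ^ (j - i) else 0)
      ≤ 1 / 3 * (1 - (1 / 4 : ℝ) ^ (l - 1 - i)) := by
  induction l with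
  | zero => simp
  | succ l ih =>
    rw [Finset.sum_range_succ]
    by_cases h : i < l
    · rw [if_pos h]
      obtain ⟨d, rfl⟩ : ∃ d, l = i + d + 1 := ⟨l - i - 1, by omega⟩
      have e1 : i + d + 1 - i = d + 1 := by omega
      have e2 : i + d + 1 - 1 - i = d := by omega
      have e3 : i + d + 1 + 1 - 1 - i = d + 1 := by omega
      rw [e1, e3, pow_succ]
      rw [e2] at ih
      linarith
    · rw [if_neg h]
      have e3 : l + 1 - 1 - i = 0 := by omega
      have e2 : l - 1 - i = 0 := by omega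
      rw [e3]
      rw [e2] at ih
      simpa using ih

theorem geo_sum' (i l : ℕ) :
    ∑ j : Fin l, (if i < (j : ℕ) then (1 / 4 : ℝ) ^ ((j : ℕ) - i) else 0) ≤ 1 / 3 := by
  rw [Fin.sum_univ_eq_sum_range (fun j => if i < j then (1 / 4 : ℝ) ^ (j - i) else 0) l]
  refine (geo_sum i l).trans ?_
  have : (0 : ℝ) ≤ (1 / 4 : ℝ) ^ (l - 1 - i) := by positivity
  linarith

/-- The induction step of the cycle lemma: the corner entry of a chordless window is tiny. -/
theorem window_step (H : Matrix ι ι ℂ) (v : ℕ → ι) (l N : ℕ) (hl : 1 ≤ l) (hlN : l + 1 ≤ N)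
    (hdet : ‖(H.submatrix (fun i : Fin (l + 1) => v i) (fun i : Fin (l + 1) => v i)).det‖ ≤ 1)
    (hedge : ∀ i ≤ l, 2000 * (N : ℝ) ≤ ‖H (v i) (v (i + 1))‖)
    (hdiag : ∀ i ≤ l, ‖H (v i) (v i)‖ ≤ 1)
    (hfwd : ∀ i j, i + 1 < j → j ≤ l → ‖H (v i) (v j)‖ ≤ 2000 * N)
    (hback : ∀ i j, j < i → i ≤ l → i - j < l →
      ‖H (v i) (v j)‖ ≤ 1 / (100 * N) / 4 ^ (i - j) * ‖H (v i) (v (i + 1))‖) :
    ‖H (v l) (v 0)‖ ≤ 1 / (100 * N) / 4 ^ l * ‖H (v l) (v (l + 1))‖ := by
  classical
  have hN1 : (1 : ℝ) ≤ N := by exact_mod_cast (by omega : 1 ≤ N)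
  have hN0 : (0 : ℝ) < N := by linarith
  have hK : (0 : ℝ) < 2000 * N := by positivity
  have hhpos : ∀ i ≤ l, 0 < ‖H (v i) (v (i + 1))‖ := fun i hi => lt_of_lt_of_le hK (hedge i hi)
  have hhne : ∀ i ≤ l, H (v i) (v (i + 1)) ≠ 0 := fun i hi => norm_pos_iff.mp (hhpos i hi)
  set E : ℕ → ℕ → ℂ := fun i j => H (v i) (v j) / H (v i) (v (i + 1)) with hE
  have hE1 : ∀ i ≤ l, E i (i + 1) = 1 := fun i hi => div_self (hhne i hi)
  have hEf : ∀ i j, i + 1 < j → j ≤ l → ‖E i j‖ ≤ 1 := by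
    intro i j hij hj
    rw [hE]; simp only [norm_div]
    rw [div_le_one (hhpos i (by omega))]
    exact (hfwd i j hij hj).trans (hedge i (by omega))
  have hEd : ∀ i ≤ l, ‖E i i‖ ≤ 1 / (2000 * N) := by
    intro i hi
    rw [hE]; simp only [norm_div]
    rw [div_le_div_iff₀ (hhpos i hi) hK]
    have h1 := hdiag i hi
    have h2 := hedge i hi
    nlinarith
  have hEb : ∀ i j, j < i → i ≤ l → i - j < l → ‖E i j‖ ≤ 1 / (100 * N) / 4 ^ (i - j) := by
    intro i j hij hi hl'
    rw [hE]; simp only [norm_div]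
    rw [div_le_iff₀ (hhpos i hi)]
    exact hback i j hij hi hl'
  -- the blocks
  set B : Matrix (Fin l) (Fin l) ℂ := of fun (i j : Fin l) => E i (j + 1) with hB
  set C : Matrix (Fin l) (Fin 1) ℂ := of fun (i : Fin l) (_ : Fin 1) => E i 0 with hC
  set R : Matrix (Fin 1) (Fin l) ℂ := of fun (_ : Fin 1) (j : Fin l) => E l (j + 1) with hR
  set X : Matrix (Fin 1) (Fin 1) ℂ := of fun (_ : Fin 1) (_ : Fin 1) => E l 0 with hX
  have hdetM : ‖(fromBlocks B C R X).det‖ ≤ (1 / (2000 * N : ℝ)) ^ (l + 1) :=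
    window_det H v l (2000 * N) hK hdet hedge
  have hd : ∀ i : Fin l, B i i = 1 := fun i => hE1 i i.2.le
  have hw : ∀ i : Fin l, (0 : ℝ) < (4 : ℝ) ^ (i : ℕ) := fun i => by positivity
  have hNrow : ∀ i : Fin l, ∑ j ∈ univ.erase i, (4 : ℝ) ^ (i : ℕ) * ‖B i j‖ / 4 ^ (j : ℕ) ≤ 1 / 2 := by
    intro i
    have hterm : ∀ j ∈ univ.erase i, (4 : ℝ) ^ (i : ℕ) * ‖B i j‖ / 4 ^ (j : ℕ)
        ≤ (if (i : ℕ) < (j : ℕ) then (1 / 4 : ℝ) ^ ((j : ℕ) - i) else 0) + 4 / (100 * N) := by
      intro j hj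
      have hne : (j : ℕ) ≠ i := fun h => (Finset.ne_of_mem_erase hj) (Fin.ext h)
      have hBij : B i j = E i (j + 1) := rfl
      rw [hBij]
      rcases lt_or_gt_of_ne hne with hlt | hgt
      · -- j < i
        rw [if_neg (by omega), zero_add]
        rcases Nat.lt_or_ge (j + 1) i with h1 | h1
        · have h2 := hEb i (j + 1) h1 i.2.le (by have := i.2; omega)
          obtain ⟨d, hd'⟩ : ∃ d, (i : ℕ) = (j : ℕ) + 1 + d := ⟨i - (j + 1), by omega⟩
          have e1 : (i : ℕ) - (j + 1) = d := by omega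
          rw [e1] at h2
          calc (4 : ℝ) ^ (i : ℕ) * ‖E i (j + 1)‖ / 4 ^ (j : ℕ)
              ≤ (4 : ℝ) ^ (i : ℕ) * (1 / (100 * N) / 4 ^ d) / 4 ^ (j : ℕ) := by gcongr
            _ = 4 / (100 * N) := by
                rw [hd', pow_add, pow_add]
                field_simp
        · have h3 : (i : ℕ) = j + 1 := by omega
          have h2 := hEd i i.2.le
          calc (4 : ℝ) ^ (i : ℕ) * ‖E i (j + 1)‖ / 4 ^ (j : ℕ)
              ≤ (4 : ℝ) ^ (i : ℕ) * (1 / (2000 * N)) / 4 ^ (j : ℕ) := by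
                rw [← h3]; gcongr
            _ = 4 / (2000 * N) := by
                rw [h3, pow_succ]
                field_simp
            _ ≤ 4 / (100 * N) := by
                apply div_le_div_of_nonneg_left (by norm_num) (by positivity)
                nlinarith
      · -- i < j
        rw [if_pos hgt]
        have h2 := hEf i (j + 1) (by omega) (by have := j.2; omega)
        obtain ⟨d, hd'⟩ : ∃ d, (j : ℕ) = (i : ℕ) + d := ⟨j - i, by omega⟩
        have e1 : (j : ℕ) - i = d := by omega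
        have h3 : (0 : ℝ) ≤ 4 / (100 * N) := by positivity
        calc (4 : ℝ) ^ (i : ℕ) * ‖E i (j + 1)‖ / 4 ^ (j : ℕ)
            ≤ (4 : ℝ) ^ (i : ℕ) * 1 / 4 ^ (j : ℕ) := by gcongr
          _ = (1 / 4 : ℝ) ^ d := by
              rw [hd', pow_add, one_div, inv_pow]
              field_simp
          _ ≤ _ := by rw [e1]; linarith
    have hnn : ∀ j : Fin l, (0 : ℝ) ≤ (if (i : ℕ) < (j : ℕ) then (1 / 4 : ℝ) ^ ((j : ℕ) - i) else 0)
        + 4 / (100 * N) := by
      intro j
      split_ifs <;> positivity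
    calc ∑ j ∈ univ.erase i, (4 : ℝ) ^ (i : ℕ) * ‖B i j‖ / 4 ^ (j : ℕ)
        ≤ ∑ j ∈ univ.erase i,
          ((if (i : ℕ) < (j : ℕ) then (1 / 4 : ℝ) ^ ((j : ℕ) - i) else 0) + 4 / (100 * N)) :=
          Finset.sum_le_sum hterm
      _ ≤ ∑ j : Fin l,
          ((if (i : ℕ) < (j : ℕ) then (1 / 4 : ℝ) ^ ((j : ℕ) - i) else 0) + 4 / (100 * N)) :=
          Finset.sum_le_sum_of_subset_of_nonneg (Finset.erase_subset _ _) (fun j _ _ => hnn j)
      _ = ∑ j : Fin l, (if (i : ℕ) < (j : ℕ) then (1 / 4 : ℝ) ^ ((j : ℕ) - i) else 0)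
          + l * (4 / (100 * N)) := by
          rw [Finset.sum_add_distrib]; simp
      _ ≤ 1 / 3 + 1 / 25 := by
          apply add_le_add (geo_sum' i l)
          have hlN' : (l : ℝ) ≤ N := by exact_mod_cast (by omega : l ≤ N)
          rw [mul_div_assoc', div_le_div_iff₀ (by positivity) (by norm_num)]
          nlinarith
      _ ≤ 1 / 2 := by norm_num
  have hdetB : (1 / 2 : ℝ) ^ l ≤ ‖B.det‖ := by
    have := dom_det B (fun i => (4 : ℝ) ^ (i : ℕ)) hw hd hNrow
    simpa using this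
  have hdetB0 : 0 < ‖B.det‖ := lt_of_lt_of_le (by positivity) hdetB
  have hunit : IsUnit B.det := isUnit_iff_ne_zero.mpr (norm_pos_iff.mp hdetB0)
  let _ : Invertible B := Matrix.invertibleOfIsUnitDet B hunit
  have hfb := Matrix.det_fromBlocks₁₁ B C R X
  set c : Fin l → ℂ := fun i => E i 0 with hc
  set u : Fin l → ℂ := (⅟B) *ᵥ c with hu
  have hBu : B *ᵥ u = c := by
    rw [hu, Matrix.mulVec_mulVec, mul_invOf_self, Matrix.one_mulVec]
  have hcb : ∀ i : Fin l, (4 : ℝ) ^ (i : ℕ) * ‖c i‖ ≤ 1 / (100 * N) := by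
    intro i
    rcases Nat.eq_zero_or_pos (i : ℕ) with h0 | h0
    · have h1 := hEd i i.2.le
      have : c i = E i i := by rw [hc]; simp only [h0]
      rw [this, h0, pow_zero, one_mul]
      rw [h0] at h1
      refine h1.trans ?_
      apply div_le_div_of_nonneg_left (by norm_num) (by positivity)
      nlinarith
    · have h1 := hEb i 0 h0 i.2.le (by have := i.2; omega)
      rw [Nat.sub_zero] at h1
      calc (4 : ℝ) ^ (i : ℕ) * ‖c i‖ ≤ (4 : ℝ) ^ (i : ℕ) * (1 / (100 * N) / 4 ^ (i : ℕ)) := by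
            gcongr
        _ = 1 / (100 * N) := by field_simp
  have hub : ∀ i : Fin l, (4 : ℝ) ^ (i : ℕ) * ‖u i‖ ≤ 2 * (1 / (100 * N)) :=
    dom_solve B (fun i => (4 : ℝ) ^ (i : ℕ)) hw hd hNrow u c hBu _ hcb
  -- the Schur complement
  have hschur : (X - R * ⅟B * C).det = E l 0 - ∑ j : Fin l, E l (j + 1) * u j := by
    rw [Matrix.det_fin_one, Matrix.sub_apply, Matrix.mul_assoc, Matrix.mul_apply]
    congr 1
  have hru : ‖∑ j : Fin l, E l (j + 1) * u j‖ ≤ 8 / (100 * 100 * N) / 4 ^ l := by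
    calc ‖∑ j : Fin l, E l (j + 1) * u j‖ ≤ ∑ j : Fin l, ‖E l (j + 1) * u j‖ := norm_sum_le _ _
      _ ≤ ∑ _j : Fin l, (8 / (100 * N) / (100 * N) / 4 ^ l : ℝ) := by
          apply Finset.sum_le_sum
          intro j _
          rw [norm_mul]
          have hj := hub j
          have hj' : ‖u j‖ ≤ 2 * (1 / (100 * N)) / 4 ^ (j : ℕ) := by
            rw [le_div_iff₀ (hw j)]; linarith
          rcases Nat.lt_or_ge (j + 1) l with h1 | h1
          · have h2 := hEb l (j + 1) h1 le_rfl (by omega)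
            obtain ⟨d, hd'⟩ : ∃ d, l = (j : ℕ) + 1 + d := ⟨l - (j + 1), by omega⟩
            have e1 : l - ((j : ℕ) + 1) = d := by omega
            rw [e1] at h2
            calc ‖E l (j + 1)‖ * ‖u j‖
                ≤ (1 / (100 * N) / 4 ^ d) * (2 * (1 / (100 * N)) / 4 ^ (j : ℕ)) := by gcongr
              _ = 8 / (100 * N) / (100 * N) / 4 ^ l := by
                  have e2 : (4 : ℝ) ^ l = 4 ^ (j : ℕ) * 4 * 4 ^ d := by
                    conv_lhs => rw [hd']
                    rw [pow_add, pow_add]; ring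
                  rw [e2]
                  field_simp
                  norm_num
          · have h3 : l = (j : ℕ) + 1 := by have := j.2; omega
            have h2 := hEd l le_rfl
            have h2' : ‖E l (j + 1)‖ ≤ 1 / (2000 * N) := by rw [← h3]; exact h2
            calc ‖E l (j + 1)‖ * ‖u j‖
                ≤ (1 / (2000 * N)) * (2 * (1 / (100 * N)) / 4 ^ (j : ℕ)) := by gcongr
              _ ≤ (1 / (100 * N)) * (2 * (1 / (100 * N)) / 4 ^ (j : ℕ)) := by
                  apply mul_le_mul_of_nonneg_right _ (by positivity)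
                  apply div_le_div_of_nonneg_left (by norm_num) (by positivity)
                  nlinarith
              _ = 8 / (100 * N) / (100 * N) / 4 ^ l := by
                  have e2 : (4 : ℝ) ^ l = 4 ^ (j : ℕ) * 4 := by
                    conv_lhs => rw [h3]
                    rw [pow_succ]
                  rw [e2]
                  field_simp
                  norm_num
      _ = l * (8 / (100 * N) / (100 * N) / 4 ^ l) := by simp
      _ ≤ N * (8 / (100 * N) / (100 * N) / 4 ^ l) := by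
          have hlN' : (l : ℝ) ≤ N := by exact_mod_cast (by omega : l ≤ N)
          gcongr
      _ = 8 / (100 * 100 * N) / 4 ^ l := by field_simp
  have hS : ‖E l 0 - ∑ j : Fin l, E l (j + 1) * u j‖ ≤ 2 ^ l * (1 / (2000 * N : ℝ)) ^ (l + 1) := by
    rw [hfb, hschur, norm_mul] at hdetM
    have h1 : (1 / 2 : ℝ) ^ l * ‖E l 0 - ∑ j : Fin l, E l (j + 1) * u j‖
        ≤ (1 / (2000 * N : ℝ)) ^ (l + 1) :=
      (mul_le_mul_of_nonneg_right hdetB (norm_nonneg _)).trans hdetM
    have h2 : (2 : ℝ) ^ l * ((1 / 2 : ℝ) ^ l * ‖E l 0 - ∑ j : Fin l, E l (j + 1) * u j‖)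
        = ‖E l 0 - ∑ j : Fin l, E l (j + 1) * u j‖ := by
      rw [← mul_assoc, ← mul_pow]; norm_num
    rw [← h2]
    gcongr
  have hS' : (2 : ℝ) ^ l * (1 / (2000 * N : ℝ)) ^ (l + 1) ≤ 1 / (2000 * N) / 4 ^ l := by
    have h1 : (8 : ℝ) ^ l * (1 / (2000 * N : ℝ)) ^ l ≤ 1 := by
      rw [← mul_pow]
      apply pow_le_one₀ (by positivity)
      rw [mul_one_div, div_le_one hK]
      nlinarith
    have h2 : (2 : ℝ) ^ l * (1 / (2000 * N : ℝ)) ^ (l + 1)
        = (8 : ℝ) ^ l * (1 / (2000 * N : ℝ)) ^ l * (1 / (2000 * N) / 4 ^ l) := by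
      have h3 : (8 : ℝ) ^ l = 2 ^ l * 4 ^ l := by rw [← mul_pow]; norm_num
      rw [h3, pow_succ]
      field_simp
    rw [h2]
    calc _ ≤ 1 * (1 / (2000 * N) / (4 : ℝ) ^ l) := by
          apply mul_le_mul_of_nonneg_right h1 (by positivity)
      _ = _ := one_mul _
  have hEl : ‖E l 0‖ ≤ 1 / (100 * N) / 4 ^ l := by
    calc ‖E l 0‖ = ‖(E l 0 - ∑ j : Fin l, E l (j + 1) * u j) + ∑ j : Fin l, E l (j + 1) * u j‖ := by
          congr 1; ring
      _ ≤ ‖E l 0 - ∑ j : Fin l, E l (j + 1) * u j‖ + ‖∑ j : Fin l, E l (j + 1) * u j‖ :=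
          norm_add_le _ _
      _ ≤ 1 / (2000 * N) / 4 ^ l + 8 / (100 * 100 * N) / 4 ^ l :=
          add_le_add (hS.trans hS') hru
      _ ≤ 1 / (100 * N) / 4 ^ l := by
          rw [← add_div]
          gcongr
          rw [div_add_div _ _ (by positivity) (by positivity), div_le_div_iff₀ (by positivity) (by positivity)]
          nlinarith [mul_pos hN0 hN0, mul_pos (mul_pos hN0 hN0) hN0]
  have h5 : ‖H (v l) (v 0)‖ = ‖E l 0‖ * ‖H (v l) (v (l + 1))‖ := by
    rw [hE]; simp only [norm_div]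
    rw [div_mul_cancel₀ _ (hhpos l le_rfl).ne']
  rw [h5]
  exact mul_le_mul_of_nonneg_right hEl (norm_nonneg _)

end Window

section Walk

variable {ι : Type*}

/-- `v` is a closed walk of length `n` for the relation `e`. -/
def ClosedWalk (e : ι → ι → Prop) (n : ℕ) : Prop :=
  ∃ v : ℕ → ι, (∀ i, v (i + n) = v i) ∧ ∀ i, e (v i) (v (i + 1))

theorem closedWalk_of_list (e : ι → ι → Prop) (L : ℕ) (w : ℕ → ι)
    (h1 : ∀ t, t < L → e (w t) (w (t + 1))) (h2 : e (w L) (w 0)) : ClosedWalk e (L + 1) := by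
  refine ⟨fun t => w (t % (L + 1)), fun i => by simp, fun i => ?_⟩
  simp only
  have hlt : i % (L + 1) < L + 1 := Nat.mod_lt _ (by omega)
  rcases Nat.lt_or_ge (i % (L + 1)) L with h | h
  · have : (i + 1) % (L + 1) = i % (L + 1) + 1 := by
      rw [Nat.add_mod]
      rcases Nat.eq_zero_or_pos L with h0 | h0
      · omega
      · rw [Nat.mod_eq_of_lt (by omega : 1 < L + 1)]
        exact Nat.mod_eq_of_lt (by omega)
    rw [this]
    exact h1 _ h
  · have h3 : i % (L + 1) = L := by omega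
    have : (i + 1) % (L + 1) = 0 := by
      have := Nat.div_add_mod i (L + 1)
      rw [h3] at this
      have h4 : i + 1 = (L + 1) * (i / (L + 1) + 1) := by
        rw [mul_add, mul_one]; omega
      rw [h4]; simp
    rw [this, h3]
    exact h2

/-- If every vertex has an out-edge, there is a shortest closed walk; it is injective on windows
and chordless. -/
theorem exists_min_walk [Finite ι] [Nonempty ι] (e : ι → ι → Prop) (hout : ∀ z, ∃ z', e z z') :
    ∃ n : ℕ, 1 ≤ n ∧ ∃ v : ℕ → ι, (∀ i, v (i + n) = v i) ∧ (∀ i, e (v i) (v (i + 1))) ∧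
      (∀ i j, i < j → j < i + n → v i ≠ v j) ∧
      (∀ i j, i + 1 < j → j < i + n → ¬ e (v i) (v j)) := by
  classical
  choose f hf using hout
  have hex : ∃ n, 1 ≤ n ∧ ClosedWalk e n := by
    obtain ⟨x⟩ := ‹Nonempty ι›
    have : ¬ Function.Injective (fun k : ℕ => f^[k] x) := not_injective_infinite_finite _
    rw [Function.Injective] at this
    push Not at this
    obtain ⟨a, b, hab, hne⟩ := this
    wlog hlt : a < b generalizing a b
    · exact this b a hab.symm hne.symm (by omega)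
    obtain ⟨d, rfl⟩ : ∃ d, b = a + d + 1 := ⟨b - a - 1, by omega⟩
    refine ⟨d + 1, by omega, closedWalk_of_list e d (fun t => f^[a + t] x) ?_ ?_⟩
    · intro t _
      have : f^[a + (t + 1)] x = f (f^[a + t] x) := by
        rw [← Function.iterate_succ_apply' f]; rfl
      rw [this]
      exact hf _
    · simp only [add_zero]
      have h3 : f^[a] x = f (f^[a + d] x) := by
        rw [← Function.iterate_succ_apply' f]
        simpa using hab
      rw [h3]
      exact hf _
  set n := Nat.find hex with hn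
  obtain ⟨hn1, v, hper, hedge⟩ := Nat.find_spec hex
  rw [← hn] at hn1 hper
  have hmin : ∀ m, 1 ≤ m → ClosedWalk e m → n ≤ m := fun m h1 h2 => Nat.find_min' hex ⟨h1, h2⟩
  refine ⟨n, hn1, v, hper, hedge, ?_, ?_⟩
  · intro i j hij hjn hv
    obtain ⟨d, rfl⟩ : ∃ d, j = i + d + 1 := ⟨j - i - 1, by omega⟩
    have := hmin (d + 1) (by omega) (closedWalk_of_list e d (fun t => v (i + t))
      (fun t _ => hedge (i + t)) (by
        show e (v (i + d)) (v i)
        rw [hv]; exact hedge (i + d)))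
    omega
  · intro i j hij hjn he
    obtain ⟨d, hd⟩ : ∃ d, i + n = j + d := ⟨i + n - j, by omega⟩
    have := hmin (d + 1) (by omega) (closedWalk_of_list e d (fun t => v (j + t))
      (fun t _ => hedge (j + t)) (by
        rw [← hd, hper]; exact he))
    omega

end Walk

section Main

/-- **Cycle lemma**, normalised form: all principal minors at most `1` in norm. -/
theorem cycle_one {κ : Type*} [Fintype κ] [Nonempty κ] (H : Matrix κ κ ℂ)
    (h : ∀ (m : ℕ) (f : Fin m → κ), Function.Injective f → ‖(H.submatrix f f).det‖ ≤ 1) :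
    ∃ z : κ, ∀ z', z' ≠ z → ‖H z z'‖ ≤ 2000 * Fintype.card κ := by
  classical
  by_contra hcon
  push Not at hcon
  obtain ⟨n, hn1, v, hper, hedge, hinj, hch⟩ := exists_min_walk
    (fun z z' => z' ≠ z ∧ 2000 * (Fintype.card κ : ℝ) < ‖H z z'‖) hcon
  set N := Fintype.card κ with hN
  have hnN : n ≤ N := by
    have hi : Function.Injective (fun i : Fin n => v i) := by
      intro a b hab
      by_contra hne
      rcases lt_or_gt_of_ne (fun h => hne (Fin.ext h) : (a : ℕ) ≠ b) with h1 | h1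
      · exact hinj a b h1 (by have := b.2; omega) hab
      · exact hinj b a h1 (by have := a.2; omega) hab.symm
    simpa using Fintype.card_le_of_injective _ hi
  have hn2 : 2 ≤ n := by
    rcases Nat.lt_or_ge n 2 with h1 | h1
    · have : n = 1 := by omega
      subst this
      exact absurd (hper 0) (hedge 0).1
    · exact h1
  have hdiag : ∀ i, ‖H (v i) (v i)‖ ≤ 1 := by
    intro i
    have := h 1 (fun _ => v i) (fun a b _ => Subsingleton.elim a b)
    simpa [Matrix.det_fin_one] using this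
  have main : ∀ l, 1 ≤ l → l + 1 ≤ n → ∀ a,
      ‖H (v (a + l)) (v a)‖ ≤ 1 / (100 * N) / 4 ^ l * ‖H (v (a + l)) (v (a + l + 1))‖ := by
    intro l
    induction l using Nat.strong_induction_on with
    | _ l ih =>
      intro hl hln a
      have := window_step H (fun i => v (a + i)) l N hl (by omega)
        (h (l + 1) (fun i : Fin (l + 1) => v (a + i)) (by
          intro x y hxy
          by_contra hne
          rcases lt_or_gt_of_ne (fun h => hne (Fin.ext h) : (x : ℕ) ≠ y) with h1 | h1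
          · exact hinj (a + x) (a + y) (by omega) (by have := y.2; omega) hxy
          · exact hinj (a + y) (a + x) (by omega) (by have := x.2; omega) hxy.symm))
        (fun i _ => (hedge (a + i)).2.le)
        (fun i _ => hdiag _)
        (fun i j hij hjl => by
          by_contra hlt
          push Not at hlt
          exact hch (a + i) (a + j) (by omega) (by omega)
            ⟨(hinj (a + i) (a + j) (by omega) (by omega)).symm, hlt⟩)
        (fun i j hji hil hlt => by
          have h1 := ih (i - j) hlt (by omega) (by omega) (a + j)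
          have e1 : a + j + (i - j) = a + i := by omega
          rw [e1] at h1
          exact h1)
      exact this
  have hfin := main (n - 1) (by omega) (by omega) 0
  have e1 : 0 + (n - 1) + 1 = 0 + n := by omega
  rw [e1, hper 0] at hfin
  have hpos : 0 < ‖H (v (0 + (n - 1))) (v 0)‖ := by
    have := (hedge (0 + (n - 1))).2
    rw [e1, hper 0] at this
    exact lt_of_le_of_lt (by positivity) this
  have hN1 : (1 : ℝ) ≤ N := by exact_mod_cast (by omega : 1 ≤ N)
  have hc : 1 / (100 * (N : ℝ)) / 4 ^ (n - 1) < 1 := by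
    have h4 : (1 : ℝ) ≤ 4 ^ (n - 1) := one_le_pow₀ (by norm_num)
    rw [div_div, div_lt_one (by positivity)]
    nlinarith
  nlinarith

/-- **Cycle lemma** (sink form). -/
theorem cycle_sink_fun {κ : Type*} [Fintype κ] [Nonempty κ] (H : Matrix κ κ ℂ) (r : ℝ) (hr : 0 < r)
    (h : ∀ (m : ℕ) (f : Fin m → κ), Function.Injective f → ‖(H.submatrix f f).det‖ ≤ r ^ m) :
    ∃ z : κ, ∀ z', z' ≠ z → ‖H z z'‖ ≤ 2000 * Fintype.card κ * r := by
  obtain ⟨z, hz⟩ := cycle_one ((r : ℂ)⁻¹ • H) (by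
    intro m f hf
    have hsm : ((r : ℂ)⁻¹ • H).submatrix f f = (r : ℂ)⁻¹ • H.submatrix f f := rfl
    rw [hsm, Matrix.det_smul, norm_mul, norm_pow, norm_inv, Complex.norm_real,
      Real.norm_of_nonneg hr.le, Fintype.card_fin]
    calc r⁻¹ ^ m * ‖(H.submatrix f f).det‖ ≤ r⁻¹ ^ m * r ^ m := by
          gcongr; exact h m f hf
      _ = 1 := by rw [← mul_pow, inv_mul_cancel₀ hr.ne', one_pow])
  refine ⟨z, fun z' hz' => ?_⟩
  have h1 := hz z' hz'
  rw [Matrix.smul_apply, smul_eq_mul, norm_mul, norm_inv, Complex.norm_real,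
    Real.norm_of_nonneg hr.le] at h1
  calc ‖H z z'‖ = r⁻¹ * ‖H z z'‖ * r := by field_simp
    _ ≤ 2000 * Fintype.card κ * r := by gcongr

theorem det_fun_of_finset {κ : Type*} [DecidableEq κ] (H : Matrix κ κ ℂ) (Z : Finset κ) (r : ℝ)
    (h : ∀ W : Finset κ, W ⊆ Z →
      ‖(H.submatrix (fun i : W => (i : κ)) (fun i : W => (i : κ))).det‖ ≤ r ^ W.card)
    (m : ℕ) (f : Fin m → κ) (hf : Function.Injective f) (hfZ : ∀ i, f i ∈ Z) :
    ‖(H.submatrix f f).det‖ ≤ r ^ m := by
  classical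
  set W : Finset κ := Finset.univ.image f with hW
  have hcard : W.card = m := by
    rw [hW, Finset.card_image_of_injective _ hf]; simp
  have h1 := h W (by
    intro x hx
    rw [hW, Finset.mem_image] at hx
    obtain ⟨i, -, rfl⟩ := hx
    exact hfZ i)
  rw [hcard] at h1
  let g : Fin m ≃ W := Equiv.ofBijective (fun i => ⟨f i, by rw [hW]; simp⟩) ⟨by
    intro a b hab
    exact hf (congrArg Subtype.val hab), by
    rintro ⟨x, hx⟩
    rw [hW, Finset.mem_image] at hx
    obtain ⟨i, -, rfl⟩ := hx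
    exact ⟨i, rfl⟩⟩
  have h2 : H.submatrix f f
      = (H.submatrix (fun i : W => (i : κ)) (fun i : W => (i : κ))).submatrix g g := by
    ext i j; rfl
  rw [h2, Matrix.det_submatrix_equiv_self]
  exact h1

/-- **Cycle lemma** on a nonempty finite set `Z` of indices: a sink inside `Z`. -/
theorem cycle_sink_on {κ : Type*} [DecidableEq κ] (H : Matrix κ κ ℂ) (Z : Finset κ)
    (hZ : Z.Nonempty) (r : ℝ) (hr : 0 < r)
    (h : ∀ W : Finset κ, W ⊆ Z →
      ‖(H.submatrix (fun i : W => (i : κ)) (fun i : W => (i : κ))).det‖ ≤ r ^ W.card) :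
    ∃ z ∈ Z, ∀ z' ∈ Z, z' ≠ z → ‖H z z'‖ ≤ 2000 * Z.card * r := by
  classical
  have : Nonempty Z := hZ.to_subtype
  obtain ⟨z, hz⟩ := cycle_sink_fun (H.submatrix (fun i : Z => (i : κ)) (fun i : Z => (i : κ))) r hr (by
    intro m f hf
    rw [Matrix.submatrix_submatrix]
    exact det_fun_of_finset H Z r h m _ (Subtype.val_injective.comp hf) (fun i => (f i).2))
  refine ⟨z, z.2, fun z' hz' hne => ?_⟩
  have := hz ⟨z', hz'⟩ (fun hh => hne (congrArg Subtype.val hh))
  simpa using this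

/-- **Cycle lemma** for a finite index type, finset form of the hypothesis. -/
theorem cycle_sink {κ : Type*} [Fintype κ] [DecidableEq κ] [Nonempty κ] (H : Matrix κ κ ℂ) (r : ℝ)
    (hr : 0 < r)
    (h : ∀ W : Finset κ,
      ‖(H.submatrix (fun i : W => (i : κ)) (fun i : W => (i : κ))).det‖ ≤ r ^ W.card) :
    ∃ z : κ, ∀ z', z' ≠ z → ‖H z z'‖ ≤ 2000 * Fintype.card κ * r :=
  cycle_sink_fun H r hr (fun m f hf =>
    det_fun_of_finset H univ r (fun W _ => h W) m f hf (fun _ => mem_univ _))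

end Main

end P365T1.ISL
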