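import Vale.Agent.P365.ISL.SinkW320
import Vale.Agent.P365.ISL.Cycle

/-!
# P365-T1, insulated site lemma: `hcover` of 701's `isl_core`

`cover_of_row`: with `Lam = q²`, `R₁ = q⁶`, `η₀ = 1/q`, `η₁ = KS L X / q²`, the row identity with
`δ * (KD L X * r₁ * k³ * q⁵) ≤ 1` gives the cover.
-/

set_option autoImplicit false
set_option linter.all false

namespace P365T1.ISL

open P365L P365O P365T1 P365T1.OneVar Matrix Complex MeasureTheory SinkG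
open scoped ComplexConjugate ENNReal

universe u

theorem sinkLemma_2000 : SinkLemma.{u} 2000 := fun κ _ _ H Z r hr hZ h =>
  cycle_sink_on H Z hZ r hr h

/-- constant in `η₁` -/
noncomputable def KS (L X : ℝ) : ℝ :=
  2 * (X + 2) * (4 * (L + 1) * (L + 3) * (X + 2) + 1) + 1

/-- constant in the smallness condition of `δ` -/
noncomputable def KD (L X : ℝ) : ℝ := 64208 * (L + 1) * (L + 3) * (X + 2)

variable {ι : Type u} [Fintype ι] [DecidableEq ι] {A : Matrix ι ι ℝ}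

/-- the row identity of the cell (77's `CBox.row'`) -/
def Row (A : Matrix ι ι ℝ) (E : ℝ) (e : ι → ℝ) (y : ι) (S : Finset ι) (x0 : ℂ) (δ : ℝ)
    (v : ι → ℝ) : Prop :=
  ∃ (t : ι → ℂ) (h0 : ℂ), (∀ z ∈ S, ‖t z‖ ≤ δ) ∧ ‖h0 - x0‖ ≤ δ ∧
    ∀ F : Finset ι, y ∈ F → F ⊆ insert y S → ∀ x ∈ insert y S,
      (-I - h0) * Gr A (wF E e F v) y x - ∑ z ∈ S, t z * Gr A (wF E e F v) z x =
        if x = y then 1 else 0

theorem KS_pos {L X : ℝ} (hL : 0 ≤ L) (hX : 0 ≤ X) : 0 < KS L X := by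
  unfold KS
  positivity

theorem KD_pos {L X : ℝ} (hL : 0 ≤ L) (hX : 0 ≤ X) : 0 < KD L X := by
  unfold KD
  positivity

theorem one_le_cp {L : ℝ} (hL : 0 ≤ L) : 1 ≤ Real.sqrt (2 * (L + 3)) := by
  rw [show (1 : ℝ) = Real.sqrt 1 by rw [Real.sqrt_one]]
  exact Real.sqrt_le_sqrt (by linarith)

theorem cp_le {L : ℝ} (hL : 0 ≤ L) : Real.sqrt (2 * (L + 3)) ≤ 2 * (L + 3) := by
  have h1 := one_le_cp hL
  have h2 : Real.sqrt (2 * (L + 3)) ^ 2 = 2 * (L + 3) := Real.sq_sqrt (by linarith)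
  nlinarith

theorem one_le_mu {r : ℝ} (hr : 1 ≤ r) : 1 ≤ Real.sqrt (8 * r) := by
  rw [show (1 : ℝ) = Real.sqrt 1 by rw [Real.sqrt_one]]
  exact Real.sqrt_le_sqrt (by linarith)

theorem mu_le {r : ℝ} (hr : 1 ≤ r) : Real.sqrt (8 * r) ≤ 8 * r := by
  have h1 := one_le_mu hr
  have h2 : Real.sqrt (8 * r) ^ 2 = 8 * r := Real.sq_sqrt (by linarith)
  nlinarith

theorem le_cube {k : ℝ} (hk : 1 ≤ k) : k ≤ k ^ 3 := by
  calc k = k ^ 1 := (pow_one k).symm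
    _ ≤ k ^ 3 := pow_le_pow_right₀ hk (by norm_num)

theorem sum_le {M cp L μ k q : ℝ} (hM : M = cp * (L + 1) * μ) (hcp : 1 ≤ cp) (hL : 0 ≤ L)
    (hμ : 1 ≤ μ) (hk : 1 ≤ k) (hq : 1 ≤ q) :
    4000 * M * (k ^ 3 * q) + k * cp * (1 + (L + 1) * μ) * q ^ 3 + 2 * M * (k * q) +
      8 * (cp * (L + 1)) * q + cp ≤ 4013 * M * (k ^ 3 * q ^ 3) := by
  have hcp0 : 0 ≤ cp := by linarith
  have hM0 : 0 ≤ M := by rw [hM]; positivity
  have k3 := le_cube hk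
  have q3 := le_cube hq
  have hk0 : 0 ≤ k := by linarith
  have hq0 : 0 ≤ q := by linarith
  have hk31 : 1 ≤ k ^ 3 := by linarith
  have hq31 : 1 ≤ q ^ 3 := by linarith
  have hM1 : cp * (L + 1) ≤ M := by
    rw [hM]
    exact le_mul_of_one_le_right (by positivity) hμ
  have hMcp : cp ≤ M := (le_mul_of_one_le_right hcp0 (by linarith)).trans hM1
  have b1 : 4000 * M * (k ^ 3 * q) ≤ 4000 * M * (k ^ 3 * q ^ 3) := by gcongr
  have b2 : k * cp * (1 + (L + 1) * μ) * q ^ 3 ≤ 2 * M * (k ^ 3 * q ^ 3) := by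
    have h1 : cp * (1 + (L + 1) * μ) ≤ 2 * M := by
      have h2 : cp * (1 + (L + 1) * μ) = cp + M := by rw [hM]; ring
      linarith
    calc k * cp * (1 + (L + 1) * μ) * q ^ 3 = k * (cp * (1 + (L + 1) * μ)) * q ^ 3 := by ring
      _ ≤ k ^ 3 * (2 * M) * q ^ 3 := by gcongr
      _ = _ := by ring
  have b3 : 2 * M * (k * q) ≤ 2 * M * (k ^ 3 * q ^ 3) := by gcongr
  have b4 : 8 * (cp * (L + 1)) * q ≤ 8 * M * (k ^ 3 * q ^ 3) := by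
    calc 8 * (cp * (L + 1)) * q ≤ 8 * M * q ^ 3 := by gcongr
      _ = 8 * M * (1 * q ^ 3) := by ring
      _ ≤ 8 * M * (k ^ 3 * q ^ 3) := by gcongr
  have b5 : cp ≤ M * (k ^ 3 * q ^ 3) := by
    calc cp ≤ M := hMcp
      _ = M * (1 * 1) := by ring
      _ ≤ M * (k ^ 3 * q ^ 3) := by gcongr
  linarith

theorem M_le {L X r1 : ℝ} (hL : 0 ≤ L) (hX : 0 ≤ X) (hr1 : 1 ≤ r1) :
    4013 * (Real.sqrt (2 * (L + 3)) * (L + 1) * Real.sqrt (8 * r1)) ≤ KD L X * r1 := by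
  have hr0 : 0 ≤ r1 := by linarith
  have h1 := cp_le hL
  have h2 := mu_le hr1
  calc 4013 * (Real.sqrt (2 * (L + 3)) * (L + 1) * Real.sqrt (8 * r1))
      ≤ 4013 * ((2 * (L + 3)) * (L + 1) * (8 * r1)) := by gcongr
    _ = 64208 * (L + 1) * (L + 3) * 1 * r1 := by ring
    _ ≤ 64208 * (L + 1) * (L + 3) * (X + 2) * r1 := by
        gcongr
        linarith
    _ = KD L X * r1 := by rw [KD]

theorem etaS_le {L X hb r1 q δ k : ℝ} (hL : 0 ≤ L) (hX : 0 ≤ X) (hhb : hb ≤ X + 2)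
    (hhb0 : 0 ≤ hb) (hr1 : 1 ≤ r1) (hq : 1 ≤ q) (hδ : 0 ≤ δ) (hk : 1 ≤ k)
    (hδ1 : δ * (KD L X * r1 * k ^ 3 * q ^ 5) ≤ 1) :
    etaS k δ (L + 1) (Real.sqrt (2 * (L + 3))) hb (Real.sqrt (8 * r1)) q (q ^ 3) 2000 ≤
      (4 * (L + 1) * (L + 3) * (X + 2) + 1) / q ^ 2 := by
  have hcp2 : Real.sqrt (2 * (L + 3)) ^ 2 = 2 * (L + 3) := Real.sq_sqrt (by linarith)
  have hcp1 := one_le_cp hL
  have hμ1 := one_le_mu hr1
  have hMK := M_le hL hX hr1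
  have hq0 : 0 < q := by linarith
  have hk0 : 0 ≤ k := by linarith
  generalize Real.sqrt (2 * (L + 3)) = cp at *
  generalize Real.sqrt (8 * r1) = μ at *
  have e1 : etaS k δ (L + 1) cp hb μ q (q ^ 3) 2000 =
      δ * (4000 * (cp * (L + 1) * μ) * (k ^ 3 * q) + k * cp * (1 + (L + 1) * μ) * q ^ 3 +
        2 * (cp * (L + 1) * μ) * (k * q) + 8 * (cp * (L + 1)) * q + cp) +
      2 * (L + 1) * cp ^ 2 * hb / q ^ 2 := by
    unfold etaS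
    field_simp
    ring
  have hsum := sum_le (M := cp * (L + 1) * μ) rfl hcp1 hL hμ1 hk hq
  have hδM : δ * (4013 * (cp * (L + 1) * μ) * (k ^ 3 * q ^ 3)) ≤ 1 / q ^ 2 := by
    rw [le_div_iff₀ (by positivity)]
    calc δ * (4013 * (cp * (L + 1) * μ) * (k ^ 3 * q ^ 3)) * q ^ 2
        = δ * ((4013 * (cp * (L + 1) * μ)) * k ^ 3 * q ^ 5) := by ring
      _ ≤ δ * (KD L X * r1 * k ^ 3 * q ^ 5) := by gcongr
      _ ≤ 1 := hδ1
  have h1 : 2 * (L + 1) * cp ^ 2 * hb ≤ 4 * (L + 1) * (L + 3) * (X + 2) := by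
    rw [hcp2]
    calc 2 * (L + 1) * (2 * (L + 3)) * hb ≤ 2 * (L + 1) * (2 * (L + 3)) * (X + 2) := by
          gcongr
      _ = _ := by ring
  rw [e1]
  calc _ ≤ δ * (4013 * (cp * (L + 1) * μ) * (k ^ 3 * q ^ 3)) +
        4 * (L + 1) * (L + 3) * (X + 2) / q ^ 2 := by gcongr
    _ ≤ 1 / q ^ 2 + 4 * (L + 1) * (L + 3) * (X + 2) / q ^ 2 := by gcongr
    _ = _ := by ring

theorem one_le_KD {L X r1 K : ℝ} (hL : 0 ≤ L) (hX : 0 ≤ X) (hr1 : 1 ≤ r1) (hK : 1 ≤ K) :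
    1 ≤ KD L X * r1 * K ^ 3 := by
  unfold KD
  calc (1 : ℝ) = 1 * 1 * 1 * 1 * 1 * 1 := by ring
    _ ≤ 64208 * (L + 1) * (L + 3) * (X + 2) * r1 * K ^ 3 := by
        gcongr
        · norm_num
        · linarith
        · linarith
        · linarith
        · exact one_le_pow₀ hK

theorem delta_q {L X r1 K δ q : ℝ} (hL : 0 ≤ L) (hX : 0 ≤ X) (hr1 : 1 ≤ r1) (hK : 1 ≤ K)
    (hδ : 0 ≤ δ) (hq : 1 ≤ q) (hδ1 : δ * (KD L X * r1 * K ^ 3 * q ^ 5) ≤ 1) :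
    δ * q ^ 5 ≤ 1 := by
  refine le_trans ?_ hδ1
  have h1 := one_le_KD hL hX hr1 hK
  have h2 : 0 ≤ q := by linarith
  calc δ * q ^ 5 = δ * (1 * q ^ 5) := by ring
    _ ≤ δ * ((KD L X * r1 * K ^ 3) * q ^ 5) := by gcongr

theorem two_le_q {L X q : ℝ} (hL : 0 ≤ L) (hX : 0 ≤ X) (hq1 : 1 ≤ q)
    (hq : 2 * (4 * (L + 1) * (L + 3) * (X + 2) + 1) ≤ q ^ 2) : 2 ≤ q := by
  have h1 : 4 * (0 + 1) * (0 + 3) * (0 + 2) ≤ 4 * (L + 1) * (L + 3) * (X + 2) := by gcongr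
  by_contra h
  push Not at h
  nlinarith

theorem eta0_le {L X r1 K δ q : ℝ} (hL : 0 ≤ L) (hX : 0 ≤ X) (hr1 : 1 ≤ r1) (hK : 1 ≤ K)
    (hδ : 0 ≤ δ) (hq : 1 ≤ q) (hδ1 : δ * (KD L X * r1 * K ^ 3 * q ^ 5) ≤ 1) :
    K * δ * (Real.sqrt (2 * (L + 3)) * q ^ 3) * (5 * (X + 2)) ≤ 1 / q := by
  have hq0 : 0 < q := by linarith
  rw [le_div_iff₀ hq0]
  refine le_trans ?_ hδ1
  have h0 := cp_le hL
  have h1 := le_cube hK
  have h2 : Real.sqrt (2 * (L + 3)) * (5 * (X + 2)) ≤ KD L X * r1 := by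
    calc Real.sqrt (2 * (L + 3)) * (5 * (X + 2)) ≤ 2 * (L + 3) * (5 * (X + 2)) := by gcongr
      _ = 10 * 1 * (L + 3) * (X + 2) * 1 := by ring
      _ ≤ 64208 * (L + 1) * (L + 3) * (X + 2) * r1 := by
          gcongr
          · norm_num
          · linarith
      _ = KD L X * r1 := by rw [KD]
  have h3 : q ^ 4 ≤ q ^ 5 := pow_le_pow_right₀ hq (by norm_num)
  have hs : 0 ≤ Real.sqrt (2 * (L + 3)) := Real.sqrt_nonneg _
  calc K * δ * (Real.sqrt (2 * (L + 3)) * q ^ 3) * (5 * (X + 2)) * q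
      = δ * ((Real.sqrt (2 * (L + 3)) * (5 * (X + 2))) * K * q ^ 4) := by ring
    _ ≤ δ * ((KD L X * r1) * K ^ 3 * q ^ 5) := by
        have hr0 : 0 ≤ r1 := by linarith
        have hKDp := (KD_pos hL hX).le
        gcongr

theorem delta_le {X K δ q cp : ℝ} (hX : 0 ≤ X) (hK : 1 ≤ K) (hδ : 0 ≤ δ) (hq : 1 ≤ q)
    (hcp : 1 ≤ cp) : δ ≤ K * δ * (cp * q ^ 3) * (X + 2) := by
  have h7 : 1 ≤ q ^ 3 := one_le_pow₀ hq
  calc δ = 1 * δ * (1 * 1) * 1 := by ring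
    _ ≤ K * δ * (cp * q ^ 3) * (X + 2) := by
        gcongr
        linarith

/-- **`hcover`** at one `v` -/
theorem cover_of_row (hA : A.IsSymm) {E : ℝ} {e : ι → ℝ} (he : ∀ x, 0 < e x) {y a : ι}
    {S : Finset ι} (hyS : y ∉ S) {v : ι → ℝ} {L : ℝ} (hL0 : 0 ≤ L)
    (hL : ∀ z ∈ S, |v z - E| ≤ L) (he2 : ∀ z ∈ S, e z ≤ 1 / 2) {x0 : ℂ} {X δ : ℝ}
    (hx0 : ‖x0‖ ≤ X) (hδ : 0 ≤ δ) (hrow : Row A E e y S x0 δ v) {q r1 : ℝ} (hr1 : 1 ≤ r1)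
    (hq : 2 * (4 * (L + 1) * (L + 3) * (X + 2) + 1) ≤ q ^ 2) (hq1 : 1 ≤ q)
    (hδ1 : δ * (KD L X * r1 * (max 1 (S.card : ℝ)) ^ 3 * q ^ 5) ≤ 1)
    (hAU : ∀ U ⊆ S, ‖thU A E e {y} U v‖ * ‖Gr A (wF E e (U ∪ {y}) v) y a‖ ^ 2 ≤
      (q ^ 2) ^ U.card * ‖Gr A (wF E e {y} v) y a‖ ^ 2)
    (hP : ∀ z ∈ S, ∀ z' ∈ S, z ≠ z' →
      ‖thU A E e (insert z' {y}) {z} v‖ ≤ r1 * ‖thU A E e {y} {z} v‖)
    (hγ : Gr A (wF E e {y} v) y a ≠ 0) :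
    ‖sg A (wF E e {y} v) y - x0‖ ≤ 1 / q ∨ ∃ z ∈ S, q ^ 6 < ‖thU A E e {y} {z} v‖ ∧
      ‖sg A (wF E e (insert z {y}) v) y - x0‖ ≤ KS L X / q ^ 2 := by
  obtain ⟨t, h0, ht, hh0, hrow⟩ := hrow
  obtain ⟨K, hK⟩ : ∃ K, K = max 1 (S.card : ℝ) := ⟨_, rfl⟩
  rw [← hK] at hδ1
  have hK1 : 1 ≤ K := by rw [hK]; exact le_max_left _ _
  have hKS : (S.card : ℝ) ≤ K := by rw [hK]; exact le_max_right _ _
  have hX : 0 ≤ X := (norm_nonneg _).trans hx0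
  have hq0 : 0 < q := by linarith
  have hδq := delta_q hL0 hX hr1 hK1 hδ hq1 hδ1
  have hq2 := two_le_q hL0 hX hq1 hq
  have hδ1' : δ ≤ 1 := by
    have h1 : 1 ≤ q ^ 5 := one_le_pow₀ hq1
    calc δ = δ * 1 := (mul_one δ).symm
      _ ≤ δ * q ^ 5 := by gcongr
      _ ≤ 1 := hδq
  have hδq2 : δ ≤ 1 / q ^ 2 := by
    rw [le_div_iff₀ (by positivity)]
    refine le_trans ?_ hδq
    have h1 : q ^ 2 ≤ q ^ 5 := pow_le_pow_right₀ hq1 (by norm_num)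
    gcongr
  have hhb : ‖-I - h0‖ ≤ 1 + X + δ := by
    have h1 : -I - h0 = -I - x0 - (h0 - x0) := by ring
    rw [h1]
    refine (norm_sub_le _ _).trans (add_le_add ((norm_sub_le _ _).trans ?_) hh0)
    rw [norm_neg, Complex.norm_I]
    linarith
  have hhb2 : 1 + X + δ ≤ X + 2 := by linarith
  have hcp1 := one_le_cp hL0
  have heta := etaS_le (hb := 1 + X + δ) hL0 hX hhb2 (by linarith) hr1 hq1 hδ hK1 hδ1
  have hη0a := eta0_le hL0 hX hr1 hK1 hδ hq1 hδ1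
  have hδle := delta_le (cp := Real.sqrt (2 * (L + 3))) hX hK1 hδ hq1 hcp1
  have hsc : (S.card : ℝ) * δ * (Real.sqrt (2 * (L + 3)) * q ^ 3) ≤
      K * δ * (Real.sqrt (2 * (L + 3)) * q ^ 3) := by gcongr
  have hη0b : (S.card : ℝ) * δ * (Real.sqrt (2 * (L + 3)) * q ^ 3) ≤ 1 / 2 := by
    have h1 : 1 / q ≤ 1 / 2 := by gcongr
    have h2 : K * δ * (Real.sqrt (2 * (L + 3)) * q ^ 3) * 1 ≤
        K * δ * (Real.sqrt (2 * (L + 3)) * q ^ 3) * (5 * (X + 2)) := by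
      gcongr
      linarith
    linarith
  have hmono : etaS S.card δ (L + 1) (Real.sqrt (2 * (L + 3))) (1 + X + δ)
      (Real.sqrt (8 * r1)) q (q ^ 3) 2000 ≤
      etaS K δ (L + 1) (Real.sqrt (2 * (L + 3))) (1 + X + δ) (Real.sqrt (8 * r1)) q (q ^ 3)
        2000 := by
    unfold etaS
    gcongr
  have hη1 := hmono.trans heta
  have hη1h : (4 * (L + 1) * (L + 3) * (X + 2) + 1) / q ^ 2 ≤ 1 / 2 := by
    rw [div_le_iff₀ (by positivity)]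
    linarith
  have hρ : 2 * q ≤ q ^ 3 := by
    have h1 : 2 * 1 ≤ q * q := by gcongr
    calc 2 * q = (2 * 1) * q := by ring
      _ ≤ (q * q) * q := by gcongr
      _ = q ^ 3 := by ring
  have hhb0 : 0 ≤ 1 + X + δ := by linarith
  have hCn : 0 ≤ (4 * (L + 1) * (L + 3) * (X + 2) + 1) / q ^ 2 := by positivity
  rcases sink_or_small (by norm_num) sinkLemma_2000 hA he (a := a) hyS hL he2 hδ ht hhb hrow hγ
    (lam := q) (r1 := r1) (ρ := q ^ 3) hq0 hr1 (one_le_pow₀ hq1) hρ hAU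
    hP (η0 := 2 * (1 + X + δ) * ((S.card : ℝ) * δ * (Real.sqrt (2 * (L + 3)) * q ^ 3)))
    (η1 := 2 * (1 + X + δ) * ((4 * (L + 1) * (L + 3) * (X + 2) + 1) / q ^ 2))
    hη0b le_rfl (hη1.trans hη1h)
    (mul_le_mul_of_nonneg_left hη1 (by linarith)) with h | ⟨z, hz, h1, h2⟩
  · left
    have h3 : sg A (wF E e {y} v) y - x0 = (sg A (wF E e {y} v) y - h0) + (h0 - x0) := by ring
    rw [h3]
    refine (norm_add_le _ _).trans ((add_le_add h hh0).trans ?_)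
    have h4 : 2 * (1 + X + δ) * ((S.card : ℝ) * δ * (Real.sqrt (2 * (L + 3)) * q ^ 3)) ≤
        2 * (X + 2) * (K * δ * (Real.sqrt (2 * (L + 3)) * q ^ 3)) := by gcongr
    have h6 : 0 ≤ K * δ * (Real.sqrt (2 * (L + 3)) * q ^ 3) * (X + 2) := by positivity
    linarith
  · right
    refine ⟨z, hz, ?_, ?_⟩
    · calc q ^ 6 = (q ^ 3) ^ 2 := by ring
        _ < _ := h1
    · have h3 : sg A (wF E e (insert z {y}) v) y - x0 =
          (sg A (wF E e (insert z {y}) v) y - h0) + (h0 - x0) := by ring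
      rw [h3]
      refine (norm_add_le _ _).trans ((add_le_add h2 hh0).trans ?_)
      have h4 : 2 * (1 + X + δ) * ((4 * (L + 1) * (L + 3) * (X + 2) + 1) / q ^ 2) ≤
          2 * (X + 2) * ((4 * (L + 1) * (L + 3) * (X + 2) + 1) / q ^ 2) := by
        gcongr
      calc _ ≤ 2 * (X + 2) * ((4 * (L + 1) * (L + 3) * (X + 2) + 1) / q ^ 2) + 1 / q ^ 2 :=
            add_le_add h4 hδq2
        _ = KS L X / q ^ 2 := by
            unfold KS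
            ring

/-- **`hcover` of 701's `isl_core`** -/
theorem hcover_of_row {ν : ι → Measure ℝ} (hA : A.IsSymm) {E : ℝ} {e : ι → ℝ}
    (he : ∀ x, 0 < e x) {y a : ι} {S : Finset ι} (hyS : y ∉ S) {L : ℝ} (hL0 : 0 ≤ L)
    (he2 : ∀ z ∈ S, e z ≤ 1 / 2) {x0 : ℂ} {X δ : ℝ} (hx0 : ‖x0‖ ≤ X) (hδ : 0 ≤ δ)
    (hae : ∀ᵐ v ∂(Measure.pi ν), (∀ z ∈ S, |v z - E| ≤ L) ∧ Row A E e y S x0 δ v)
    {q r1 : ℝ} (hr1 : 1 ≤ r1) (hq : 2 * (4 * (L + 1) * (L + 3) * (X + 2) + 1) ≤ q ^ 2)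
    (hq1 : 1 ≤ q) (hδ1 : δ * (KD L X * r1 * (max 1 (S.card : ℝ)) ^ 3 * q ^ 5) ≤ 1) :
    ∀ᵐ v ∂(Measure.pi ν),
      (∀ U ⊆ S, ‖thU A E e {y} U v‖ * ‖Gr A (wF E e (U ∪ {y}) v) y a‖ ^ 2 ≤
        (q ^ 2) ^ U.card * ‖Gr A (wF E e {y} v) y a‖ ^ 2) →
      (∀ z ∈ S, ∀ z' ∈ S, z ≠ z' →
        ‖thU A E e (insert z' {y}) {z} v‖ ≤ r1 * ‖thU A E e {y} {z} v‖) →
      Gr A (wF E e {y} v) y a ≠ 0 →
      ‖sg A (wF E e {y} v) y - x0‖ ≤ 1 / q ∨ ∃ z ∈ S, q ^ 6 < ‖thU A E e {y} {z} v‖ ∧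
        ‖sg A (wF E e (insert z {y}) v) y - x0‖ ≤ KS L X / q ^ 2 := by
  filter_upwards [hae] with v hv hAU hP hγ
  exact cover_of_row hA he hyS hL0 hv.1 he2 hx0 hδ hv.2 hr1 hq hq1 hδ1 hAU hP hγ

end P365T1.ISL
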