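import Vale.Agent.P365.ISL.HC77
import Vale.Agent.P365.ISL.H3.PLaws

/-!
# P365-T1, (HC): the smooth law has a density bounded below on every `[-a, a]`, `a < lam`;
the centre hub with the smooth law
-/

set_option linter.all false

namespace P365T1.Link

open P365L P365O P365T1 P365T1.OneVar P365T1.Isl Vale.Agent.P365.J376 P365SH P365T1.ISL
open Matrix Complex MeasureTheory
open scoped ENNReal

theorem densGe_of_shape {ν : Measure ℝ} {ρ ψ : ℝ → ℝ} {L₀ θ : ℝ}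
    (hν : ν = volume.withDensity fun v => ENNReal.ofReal (ρ v)) (S : Shape ρ 0 L₀ θ ψ)
    (hpos : ∃ v, 0 < ρ v) {a : ℝ} (ha : a < L₀) : ∃ κ : ℝ, 0 < κ ∧ DensGe κ a ν := by
  obtain ⟨v₀, hv₀⟩ := hpos
  have hL := S.hL₀
  have h0 : 0 < ψ L₀ := by
    rw [S.eq] at hv₀
    refine hv₀.trans_le (S.mono _ _ ?_ le_rfl)
    have := abs_nonneg (v₀ - 0)
    linarith
  have hpow : ∀ n : ℕ, 0 < ψ (L₀ / 2 ^ n) := by
    intro n
    induction n with
    | zero => simpa using h0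
    | succ n ih =>
      have h1 : L₀ / 2 ^ (n + 1) = L₀ / 2 ^ n / 2 := by
        rw [pow_succ, div_div]
      rw [h1]
      refine (mul_pos S.hθ ih).trans_le (S.half _ (by positivity) ?_)
      exact div_le_self hL.le (one_le_pow₀ (by norm_num))
  obtain ⟨n, hn⟩ : ∃ n : ℕ, L₀ / 2 ^ n ≤ L₀ - a := by
    obtain ⟨n, hn⟩ := exists_pow_lt_of_lt_one (show 0 < (L₀ - a) / L₀ by
      exact div_pos (by linarith) hL) (show (1 / 2 : ℝ) < 1 by norm_num)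
    refine ⟨n, ?_⟩
    rw [one_div, inv_pow, lt_div_iff₀ hL] at hn
    rw [div_eq_mul_inv, mul_comm]
    exact hn.le
  refine ⟨ψ (L₀ / 2 ^ n), hpow n, ?_⟩
  rw [DensGe, hν]
  have e1 : ENNReal.ofReal (ψ (L₀ / 2 ^ n)) • (volume : Measure ℝ).restrict (Set.Icc (-a) a) =
      volume.withDensity ((Set.Icc (-a) a).indicator fun _ =>
        ENNReal.ofReal (ψ (L₀ / 2 ^ n))) := by
    rw [withDensity_indicator measurableSet_Icc, withDensity_const]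
  rw [e1]
  refine withDensity_mono (Filter.Eventually.of_forall fun v => ?_)
  by_cases hv : v ∈ Set.Icc (-a) a
  · rw [Set.indicator_of_mem hv]
    refine ENNReal.ofReal_le_ofReal ?_
    rw [S.eq v, sub_zero]
    have h2 : |v| ≤ a := abs_le.2 hv
    have h3 := abs_nonneg v
    exact S.mono _ _ (by linarith) (by linarith)
  · rw [Set.indicator_of_notMem hv]
    exact bot_le

theorem densGe_nuS {lam l : ℝ} (hl : 0 < l) (h : 2 * l ≤ lam) {a : ℝ} (ha : a < lam) :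
    ∃ κ : ℝ, 0 < κ ∧ DensGe κ a (nuS lam l) := by
  have G := glaw_nuS hl (show l < lam by linarith)
  refine densGe_of_shape G.dens (shape_rhoS hl h) ?_ ha
  by_contra hcon
  push Not at hcon
  haveI : IsProbabilityMeasure (nuS lam l) := isProbabilityMeasure_nuS hl (by linarith)
  have h1 : nuS lam l Set.univ = 0 := by
    rw [G.dens, withDensity_apply _ MeasurableSet.univ, Measure.restrict_univ]
    simp only [ENNReal.ofReal_of_nonpos (hcon _), lintegral_zero]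
  rw [measure_univ] at h1
  exact one_ne_zero h1

/-- **the centre hub with the smooth law `nuS lam l`**: all constants -/
theorem hc_nuS {lam E l : ℝ} (hlam : 0 < lam) (hE : |E| < 4 + lam) (hl : 0 < l)
    (hl2 : 2 * l ≤ lam) :
    ∃ (C κ lam' : ℝ) (ms R0 r0 : ℕ), 1 ≤ C ∧ 0 < κ ∧ κ < 1 ∧ 0 < lam' ∧ lam' < lam ∧
      (∀ r : ℕ, r0 ≤ r → ∃ (Vs : ℤ × ℤ → ℝ) (y : Xr r), CellGood E lam' κ ms R0 r Vs y) ∧
      ∀ {D : V3} {ρ : Measure ℝ} {N : ℕ} [NeZero N] {i r : ℕ} {c : Loc} {y : Xr r}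
        {Vs : ℤ × ℤ → ℝ} {w : ℝ}, CellIn D i r c (y : ℤ × ℤ) Vs w → D.Ok ρ → i ≤ D.I →
        D.m i ∣ N → CellGood E lam' κ ms R0 r Vs y → 0 ≤ w →
        (∀ k, D.mov k → D.ν k = nuS lam l) →
        2 * (w + D.b) * (2 * (r : ℝ) + 1) ^ (ms + 2) ≤ 1 → ∀ {δ : ℝ},
        32 * (2 * (r : ℝ) + 1) ^ ms * κ ^ (r - R0) ≤ δ →
        32 * (2 * (r : ℝ) + 1) ^ (2 * ms + 2) * (w + D.b) ≤ δ → ∀ {ε : ℝ},
        D.b + (∑ j ∈ Finset.Ico (i + 1) (D.I + 1), D.e0 j) + 2 * D.e0 i ≤ ε → ε ≤ 1 / 2 →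
        ∀ {T : ℝ}, 0 ≤ T → Real.exp (-T) ≤ D.t (i + 1) * (D.e0 i * Real.exp (-(D.a i))) →
        ∀ {q : ℝ}, 1 ≤ q → C * (8 * (r : ℝ) + 9) * (1 + T) ≤ q ^ 2 →
        δ * (C * (8 * (r : ℝ) + 9) ^ 4 * q ^ 5) ≤ 1 → ε + 1 / q ≤ 1 / C → ∀ {ηc : ℝ},
        C * (8 * (r : ℝ) + 9) * Real.sqrt (ε + 1 / q) ≤ ηc → ∀ {s : ℝ}, D.t (i + 1) ≤ s →
        s ≤ 1 → D.HC N E i s ηc := by
  obtain ⟨κ, lam', ms, R0, r0, h1, h2, h3, h4, h⟩ := exists_cellGood hlam hE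
  obtain ⟨κy, hκy, hdens⟩ := densGe_nuS hl hl2 (show (lam' + lam) / 2 < lam by linarith)
  haveI : IsProbabilityMeasure (nuS lam l) := isProbabilityMeasure_nuS hl (by linarith)
  obtain ⟨C, hC, hisl⟩ := islFin (ay := (lam' + lam) / 2) (X := lam' + |E|)
    (g := (lam - lam') / 2) (E := E) (glaw_nuS hl (show l < lam by linarith))
    (plaw_nuS hl hl2) hκy (by linarith) (by linarith)
  refine ⟨C, κ, lam', ms, R0, r0, hC, h1, h2, h3, h4, h, ?_⟩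
  intro D ρ N _ i r c y Vs w hcell hOk hi hmN hG hw hlaw hu δ hδ1 hδ2 ε hε hε2 T hT hT2 q hq1 hq2
    hq3 hq4 ηc hη s hs hs1
  exact hc_of_isl hisl hC hcell hOk hi hmN hG hw hlaw hdens le_rfl (by linarith) hu hδ1 hδ2 hε
    hε2 hT hT2 hq1 hq2 hq3 hq4 hη hs hs1

end P365T1.Link
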