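import Vale.Agent.P365.ISL.World

/-!
# P365-T1, insulated site lemma (ISL): masses of the exceptional events.

`massU` : `∫ |th_U| |gam^U|² ≤ (K0 K1)^|U| ∫ |gam|²`;
`massN` : the mass of `{Lam^|U| |gam|² < |th_U| |gam^U|²}`;
`massP` : the mass of `{r1 |th_z| < |th_z^{[z']}|}`;
`bad_le` : all of them together have mass at most a quarter.
-/

set_option linter.all false

namespace P365T1.ISL

open P365L P365O P365T1 P365T1.OneVar Matrix Complex MeasureTheory
open scoped ComplexConjugate ENNReal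

variable {ι : Type*} [Fintype ι] [DecidableEq ι] {A : Matrix ι ι ℝ}

/-- one potential changes: the Green function is a Moebius function -/
theorem Gr_upd (hA : A.IsSymm) {W : ι → ℂ} (hW : ∀ x, (W x).im < 0) {z : ι} {w : ℂ} (hw : w.im < 0)
    (x a : ι) : Gr A (Function.update W z w) x a =
      Gi A W z x a + (gw A W z x * gw A W z a) / (w - sg A W z) := by
  have hW' := update_neg (z := z) hW hw
  rw [Gr_eq_Gi hA hW' z x a, Gi_upd hA hW hw, gw_upd hA hW hw, gw_upd hA hW hw, Gr_zz_upd hA hW hw,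
    div_eq_mul_inv]

/-- the squared far amplitude in the world `F` -/
noncomputable def fa (A : Matrix ι ι ℝ) (E : ℝ) (e : ι → ℝ) (y a : ι) (F : Finset ι) (v : ι → ℝ) :
    ℝ≥0∞ := ENNReal.ofReal (‖Gr A (wF E e F v) y a‖ ^ 2)

theorem measurable_fa (hA : A.IsSymm) {E : ℝ} {e : ι → ℝ} (he : ∀ x, 0 < e x) (y a : ι)
    (F : Finset ι) : Measurable (fa A E e y a F) :=
  ((continuous_Gr_wF hA he F y a).norm.pow 2).measurable.ennreal_ofReal

theorem fa_update_mem {E : ℝ} {e : ι → ℝ} {y a z : ι} {F : Finset ι} (hz : z ∈ F) (v : ι → ℝ)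
    (t : ℝ) : fa A E e y a F (Function.update v z t) = fa A E e y a F v := by
  rw [fa, fa, wF_update_mem hz]

/-! ### scalar inputs -/

/-- `(S1)` -/
def S1 (ν : Measure ℝ) (E e : ℝ) (K : ℝ≥0∞) : Prop :=
  ∀ s : ℂ, 0 ≤ s.im → ∫⁻ t, ENNReal.ofReal ‖(-I - s) / (((t - E : ℝ) : ℂ) - (e : ℂ) * I - s)‖ ∂ν ≤ K

/-- `(S2)` -/
def S2 (ν : Measure ℝ) (E e : ℝ) (K : ℝ≥0∞) : Prop :=
  ∀ s : ℂ, 0 ≤ s.im → ∀ α β : ℂ, ENNReal.ofReal (‖α + β / (-I - s)‖ ^ 2) ≤
    K * ∫⁻ t, ENNReal.ofReal (‖α + β / (((t - E : ℝ) : ℂ) - (e : ℂ) * I - s)‖ ^ 2) ∂ν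

/-- `(S3)` -/
def S3 (ν : Measure ℝ) (E e r1 : ℝ) (K : ℝ≥0∞) : Prop :=
  ∀ s s' : ℂ, 0 ≤ s.im → 0 ≤ s'.im → ∀ α β : ℂ,
    ∫⁻ t in {t : ℝ | r1 * ‖(-I - s) / (((t - E : ℝ) : ℂ) - (e : ℂ) * I - s)‖ <
        ‖(-I - s') / (((t - E : ℝ) : ℂ) - (e : ℂ) * I - s')‖},
      ENNReal.ofReal (‖α + β / (((t - E : ℝ) : ℂ) - (e : ℂ) * I - s)‖ ^ 2) ∂ν ≤
    K * ∫⁻ t, ENNReal.ofReal (‖α + β / (((t - E : ℝ) : ℂ) - (e : ℂ) * I - s)‖ ^ 2) ∂ν

section mass

variable {ν : ι → Measure ℝ} [∀ i, IsProbabilityMeasure (ν i)] {E : ℝ} {e : ι → ℝ} {y a : ι}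
  {S : Finset ι} {K0 K1 : ℝ≥0∞}

/-- from the value at `-i` to the average -/
theorem fa_insert_le (hA : A.IsSymm) (he : ∀ x, 0 < e x) {F : Finset ι} {z : ι} (hz : z ∉ F)
    (h2 : S2 (ν z) E (e z) K0) :
    ∫⁻ v, fa A E e y a (insert z F) v ∂(Measure.pi ν) ≤
      K0 * ∫⁻ v, fa A E e y a F v ∂(Measure.pi ν) := by
  rw [MAff.lintegral_resample ν z (measurable_fa hA he y a F)]
  have hm : Measurable fun v : ι → ℝ => ∫⁻ t, fa A E e y a F (Function.update v z t) ∂(ν z) := by
    have hupd : Measurable fun p : (ι → ℝ) × ℝ => Function.update p.1 z p.2 :=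
      (MAff.measurePreserving_resample ν z).measurable
    exact ((measurable_fa hA he y a F).comp hupd).lintegral_prod_right'
  rw [← lintegral_const_mul _ hm]
  refine lintegral_mono fun v => ?_
  have hW := wF_neg (E := E) he F v
  have hI : ((-I : ℂ)).im < 0 := by simp
  have h := h2 (sg A (wF E e F v) z) (sg_im_nonneg hA hW z) (Gi A (wF E e F v) z y a)
    (gw A (wF E e F v) z y * gw A (wF E e F v) z a)
  have e1 : fa A E e y a (insert z F) v = ENNReal.ofReal (‖Gi A (wF E e F v) z y a +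
      (gw A (wF E e F v) z y * gw A (wF E e F v) z a) / (-I - sg A (wF E e F v) z)‖ ^ 2) := by
    rw [fa, wF_insert, Gr_upd hA hW hI]
  have e2 : ∀ t : ℝ, fa A E e y a F (Function.update v z t) =
      ENNReal.ofReal (‖Gi A (wF E e F v) z y a +
      (gw A (wF E e F v) z y * gw A (wF E e F v) z a) /
        (((t - E : ℝ) : ℂ) - (e z : ℂ) * I - sg A (wF E e F v) z)‖ ^ 2) := by
    intro t
    have hw : (wz E e z t).im < 0 := by
      rw [wz_im]; linarith [he z]
    rw [fa, wF_update_not_mem hz, Gr_upd hA hW hw, wz]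
  simp only [e1, e2]
  exact h

/-- **the moment bound** -/
theorem massU (hA : A.IsSymm) (he : ∀ x, 0 < e x) {U : Finset ι}
    (h1 : ∀ z ∈ U, S1 (ν z) E (e z) K1) (h2 : ∀ z ∈ U, S2 (ν z) E (e z) K0) :
    ∀ F : Finset ι, Disjoint U F →
    ∫⁻ v, ENNReal.ofReal ‖thU A E e F U v‖ * fa A E e y a (U ∪ F) v ∂(Measure.pi ν) ≤
      (K0 * K1) ^ U.card * ∫⁻ v, fa A E e y a F v ∂(Measure.pi ν) := by
  induction U using Finset.induction_on with
  | empty =>
    intro F _
    simp only [thU_empty hA he, norm_one, ENNReal.ofReal_one, one_mul, Finset.empty_union,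
      Finset.card_empty, pow_zero]
    exact le_rfl
  | insert z U hzU ih =>
    intro F hd
    have hzF : z ∉ F := by
      intro h
      exact (Finset.disjoint_left.1 hd) (Finset.mem_insert_self _ _) h
    have hdU : Disjoint U (insert z F) := by
      rw [Finset.disjoint_left]
      intro x hx hx2
      rcases Finset.mem_insert.1 hx2 with rfl | h
      · exact hzU hx
      · exact (Finset.disjoint_left.1 hd) (Finset.mem_insert_of_mem hx) h
    have ih' := ih (fun x hx => h1 x (Finset.mem_insert_of_mem hx))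
      (fun x hx => h2 x (Finset.mem_insert_of_mem hx)) (insert z F) hdU
    have hU : insert z U ∪ F = U ∪ insert z F := by
      ext x; simp only [Finset.mem_union, Finset.mem_insert]; tauto
    have hzm : z ∈ U ∪ insert z F := Finset.mem_union_right _ (Finset.mem_insert_self _ _)
    set G : (ι → ℝ) → ℝ≥0∞ := fun v =>
      ENNReal.ofReal ‖thU A E e (insert z F) U v‖ * fa A E e y a (U ∪ insert z F) v with hG
    have hGm : Measurable G :=
      ((continuous_thU hA he (insert z F) U).norm.measurable.ennreal_ofReal).mul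
        (measurable_fa hA he y a _)
    have hTm : Measurable fun v => ENNReal.ofReal ‖thU A E e F {z} v‖ :=
      (continuous_thU hA he F {z}).norm.measurable.ennreal_ofReal
    have e1 : ∀ v, ENNReal.ofReal ‖thU A E e F (insert z U) v‖ * fa A E e y a (insert z U ∪ F) v =
        ENNReal.ofReal ‖thU A E e F {z} v‖ * G v := by
      intro v
      rw [thU_insert hA he, norm_mul, ENNReal.ofReal_mul (norm_nonneg _), hU, hG]
      simp only
      ring
    simp only [e1]
    have hTG : Measurable fun v => ENNReal.ofReal ‖thU A E e F {z} v‖ * G v := hTm.mul hGm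
    rw [MAff.lintegral_resample ν z hTG]
    have e2 : ∀ v t, G (Function.update v z t) = G v := by
      intro v t
      simp only [hG]
      rw [thU_update_mem (Finset.mem_insert_self _ _), fa_update_mem hzm]
    have e3 : ∀ v : ι → ℝ, ∫⁻ t, ENNReal.ofReal ‖thU A E e F {z} (Function.update v z t)‖ *
        G (Function.update v z t) ∂(ν z) ≤ K1 * G v := by
      intro v
      simp only [e2]
      have hm' : Measurable fun t : ℝ => ENNReal.ofReal ‖thU A E e F {z} (Function.update v z t)‖ :=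
        hTm.comp (measurable_update v)
      rw [lintegral_mul_const _ hm']
      gcongr
      have hW := wF_neg (E := E) he F v
      have h := h1 z (Finset.mem_insert_self _ _) (sg A (wF E e F v) z) (sg_im_nonneg hA hW z)
      refine le_trans (le_of_eq ?_) h
      refine lintegral_congr fun t => ?_
      rw [thU_update hA he hzF, wz]
    have e4 := fa_insert_le (y := y) (a := a) hA he hzF (h2 z (Finset.mem_insert_self _ _))
    calc ∫⁻ v, ∫⁻ t, ENNReal.ofReal ‖thU A E e F {z} (Function.update v z t)‖ *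
          G (Function.update v z t) ∂(ν z) ∂(Measure.pi ν)
        ≤ ∫⁻ v, K1 * G v ∂(Measure.pi ν) := lintegral_mono e3
      _ = K1 * ∫⁻ v, G v ∂(Measure.pi ν) := lintegral_const_mul _ hGm
      _ ≤ K1 * ((K0 * K1) ^ U.card * ∫⁻ v, fa A E e y a (insert z F) v ∂(Measure.pi ν)) := by
          gcongr
      _ ≤ K1 * ((K0 * K1) ^ U.card * (K0 * ∫⁻ v, fa A E e y a F v ∂(Measure.pi ν))) := by
          gcongr
      _ = (K0 * K1) ^ (insert z U).card * ∫⁻ v, fa A E e y a F v ∂(Measure.pi ν) := by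
          rw [Finset.card_insert_of_notMem hzU, pow_succ]
          ring

/-- the exceptional set of `U` -/
def NU (A : Matrix ι ι ℝ) (E : ℝ) (e : ι → ℝ) (y a : ι) (Lam : ℝ) (F U : Finset ι) : Set (ι → ℝ) :=
  {v | Lam ^ U.card * ‖Gr A (wF E e F v) y a‖ ^ 2 <
    ‖thU A E e F U v‖ * ‖Gr A (wF E e (U ∪ F) v) y a‖ ^ 2}

theorem measurableSet_NU (hA : A.IsSymm) (he : ∀ x, 0 < e x) (Lam : ℝ) (F U : Finset ι) :
    MeasurableSet (NU A E e y a Lam F U) :=
  measurableSet_lt ((continuous_Gr_wF hA he F y a).norm.pow 2 |>.measurable.const_mul _)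
    ((continuous_thU hA he F U).norm.measurable.mul
      ((continuous_Gr_wF hA he (U ∪ F) y a).norm.pow 2).measurable)

theorem massN (hA : A.IsSymm) (he : ∀ x, 0 < e x) {U F : Finset ι} (hd : Disjoint U F)
    (h1 : ∀ z ∈ U, S1 (ν z) E (e z) K1) (h2 : ∀ z ∈ U, S2 (ν z) E (e z) K0) {Lam : ℝ}
    (hLam : 0 < Lam) :
    ∫⁻ v in NU A E e y a Lam F U, fa A E e y a F v ∂(Measure.pi ν) ≤
      (K0 * K1 / ENNReal.ofReal Lam) ^ U.card * ∫⁻ v, fa A E e y a F v ∂(Measure.pi ν) := by
  have hL0 : ENNReal.ofReal Lam ≠ 0 := by simpa using hLam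
  have hLt : ENNReal.ofReal Lam ≠ ⊤ := ENNReal.ofReal_ne_top
  have hp0 : (ENNReal.ofReal Lam) ^ U.card ≠ 0 := pow_ne_zero _ hL0
  have hpt : (ENNReal.ofReal Lam) ^ U.card ≠ ⊤ := ENNReal.pow_ne_top hLt
  have key : ENNReal.ofReal Lam ^ U.card * ∫⁻ v in NU A E e y a Lam F U,
      fa A E e y a F v ∂(Measure.pi ν) ≤
      (K0 * K1) ^ U.card * ∫⁻ v, fa A E e y a F v ∂(Measure.pi ν) := by
    refine le_trans ?_ (massU (y := y) (a := a) hA he h1 h2 F hd)
    rw [← lintegral_const_mul _ (measurable_fa hA he y a F)]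
    refine le_trans ?_ (setLIntegral_le_lintegral (NU A E e y a Lam F U) _)
    refine setLIntegral_mono' (measurableSet_NU hA he Lam F U) fun v hv => ?_
    rw [fa, fa, ← ENNReal.ofReal_pow hLam.le, ← ENNReal.ofReal_mul (by positivity),
      ← ENNReal.ofReal_mul (norm_nonneg _)]
    exact ENNReal.ofReal_le_ofReal (le_of_lt hv)
  rw [ENNReal.div_eq_inv_mul, mul_pow, ← ENNReal.inv_pow, mul_assoc]
  rw [← ENNReal.mul_le_iff_le_inv hp0 hpt]
  exact key

/-- the exceptional set of a pair -/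
def PU (A : Matrix ι ι ℝ) (E : ℝ) (e : ι → ℝ) (r1 : ℝ) (F : Finset ι) (z z' : ι) : Set (ι → ℝ) :=
  {v | r1 * ‖thU A E e F {z} v‖ < ‖thU A E e (insert z' F) {z} v‖}

theorem measurableSet_PU (hA : A.IsSymm) (he : ∀ x, 0 < e x) (r1 : ℝ) (F : Finset ι) (z z' : ι) :
    MeasurableSet (PU A E e r1 F z z') :=
  measurableSet_lt ((continuous_thU hA he F {z}).norm.measurable.const_mul _)
    (continuous_thU hA he (insert z' F) {z}).norm.measurable

theorem massP (hA : A.IsSymm) (he : ∀ x, 0 < e x) {F : Finset ι} {z z' : ι} (hz : z ∉ F)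
    (hzz : z ≠ z') {r1 : ℝ} {K : ℝ≥0∞} (h3 : S3 (ν z) E (e z) r1 K) :
    ∫⁻ v in PU A E e r1 F z z', fa A E e y a F v ∂(Measure.pi ν) ≤
      K * ∫⁻ v, fa A E e y a F v ∂(Measure.pi ν) := by
  have hf := measurable_fa (y := y) (a := a) (E := E) hA he F
  have hP := measurableSet_PU (E := E) hA he r1 F z z'
  rw [← lintegral_indicator hP, MAff.lintegral_resample ν z (hf.indicator hP),
    MAff.lintegral_resample ν z hf]
  have hm : Measurable fun v : ι → ℝ => ∫⁻ t, fa A E e y a F (Function.update v z t) ∂(ν z) := by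
    have hupd : Measurable fun p : (ι → ℝ) × ℝ => Function.update p.1 z p.2 :=
      (MAff.measurePreserving_resample ν z).measurable
    exact (hf.comp hupd).lintegral_prod_right'
  rw [← lintegral_const_mul _ hm]
  refine lintegral_mono fun v => ?_
  have hW := wF_neg (E := E) he F v
  have hW' := wF_neg (E := E) he (insert z' F) v
  have hz' : z ∉ insert z' F := by simp [hzz, hz]
  have hJ : MeasurableSet ((fun t : ℝ => Function.update v z t) ⁻¹' PU A E e r1 F z z') :=
    (measurable_update v) hP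
  have h := h3 (sg A (wF E e F v) z) (sg A (wF E e (insert z' F) v) z) (sg_im_nonneg hA hW z)
    (sg_im_nonneg hA hW' z) (Gi A (wF E e F v) z y a)
    (gw A (wF E e F v) z y * gw A (wF E e F v) z a)
  have e2 : ∀ t : ℝ, fa A E e y a F (Function.update v z t) =
      ENNReal.ofReal (‖Gi A (wF E e F v) z y a +
      (gw A (wF E e F v) z y * gw A (wF E e F v) z a) /
        (((t - E : ℝ) : ℂ) - (e z : ℂ) * I - sg A (wF E e F v) z)‖ ^ 2) := by
    intro t
    have hw : (wz E e z t).im < 0 := by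
      rw [wz_im]; linarith [he z]
    rw [fa, wF_update_not_mem hz, Gr_upd hA hW hw, wz]
  have e3 : (fun t : ℝ => Function.update v z t) ⁻¹' PU A E e r1 F z z' =
      {t : ℝ | r1 * ‖(-I - sg A (wF E e F v) z) /
        (((t - E : ℝ) : ℂ) - (e z : ℂ) * I - sg A (wF E e F v) z)‖ <
        ‖(-I - sg A (wF E e (insert z' F) v) z) /
          (((t - E : ℝ) : ℂ) - (e z : ℂ) * I - sg A (wF E e (insert z' F) v) z)‖} := by
    ext t
    simp only [Set.mem_preimage, PU, Set.mem_setOf_eq]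
    rw [thU_update hA he hz, thU_update hA he hz', wz]
  have e4 : (fun t : ℝ => (PU A E e r1 F z z').indicator (fa A E e y a F)
      (Function.update v z t)) = ((fun t : ℝ => Function.update v z t) ⁻¹'
        PU A E e r1 F z z').indicator (fun t => fa A E e y a F (Function.update v z t)) := by
    funext t
    simp only [Set.indicator, Set.mem_preimage]
    rfl
  rw [e4, lintegral_indicator hJ, e3]
  simp only [e2]
  exact h

end mass

end P365T1.ISL
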