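import Vale.Agent.P365.ISL.Line37
import Vale.Agent.P365.ISL.Mass

/-!
# P365 T1, insulated site lemma: the scalar inputs `S1`, `S2`, `S3` of `Mass.lean` for regular laws.
-/

set_option linter.all false

namespace P365T1.ISL37

open Complex MeasureTheory P365T1.Bump P365T1.OneVar
open scoped ENNReal

variable {ν : Measure ℝ} {ρ : ℝ → ℝ} {L δ m κ₀ R η₀ : ℝ}

theorem isl_S1 (G : GLaw ν ρ L δ m κ₀ R η₀) [IsProbabilityMeasure ν] (E : ℝ)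
    {e T : ℝ} (hT : 0 ≤ T) (he : Real.exp (-T) ≤ e) (he1 : e ≤ 1) :
    P365T1.ISL.S1 ν E e (ENNReal.ofReal (K1 L R E * (1 + T))) :=
  fun _ hs => S1 G E hs hT he he1

theorem isl_S2 (G : GLaw ν ρ L δ m κ₀ R η₀) (E : ℝ) {e : ℝ} (he : 0 < e) (he1 : e ≤ 1) :
    P365T1.ISL.S2 ν E e (ENNReal.ofReal (K0 L δ m E)) :=
  fun _ hs α β => S2 G E α β hs he he1

theorem isl_S3 (G : GLaw ν ρ L δ m κ₀ R η₀) [IsProbabilityMeasure ν] (E : ℝ)
    {e r : ℝ} (he : 0 < e) (he1 : e ≤ 1) (hr : 0 < r) :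
    P365T1.ISL.S3 ν E e r (ENNReal.ofReal (K2 L δ m κ₀ R η₀ E / r)) :=
  fun _ _ hs hs' α β => S3 G E α β hs hs' he he1 hr

theorem K1_nonneg (G : GLaw ν ρ L δ m κ₀ R η₀) (E : ℝ) : 0 ≤ K1 L R E := by
  have := G.hL
  have := G.hR
  have := abs_nonneg E
  rw [K1]
  positivity

theorem K0_nonneg (G : GLaw ν ρ L δ m κ₀ R η₀) (E : ℝ) : 0 ≤ K0 L δ m E := by
  have := G.hm
  rw [K0, cI]
  positivity

theorem K2_nonneg (G : GLaw ν ρ L δ m κ₀ R η₀) (E : ℝ) : 0 ≤ K2 L δ m κ₀ R η₀ E := by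
  have h1 := cP_nonneg (G.shift E)
  have := G.hL
  have := abs_nonneg E
  rw [K2, cE]
  positivity

end P365T1.ISL37
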