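import Vale.Agent.P365.ISL.Alg
import Mathlib.Analysis.SpecialFunctions.Pow.Real

/-!
# P365-T1, insulated site lemma (18390), steps (3) and (5): the sink, general constants

One fixed potential.  `S` = ports (a finite set of sites of a finite type `κ`), `m` = Green
function, `p` = its `y` row, `q` = its column of the far site, `γ` = the far amplitude at `y`,
`D = W + i`.
-/

set_option autoImplicit false
set_option linter.all false

namespace P365T1.ISL.SinkG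

open Matrix Finset

universe u

variable {κ : Type u} [Fintype κ] [DecidableEq κ]

/-- `1 - D m` -/
def Th (D : κ → ℂ) (m : Matrix κ κ ℂ) : Matrix κ κ ℂ :=
  Matrix.of fun z z' => (if z = z' then 1 else 0) - D z * m z z'

/-- `1 - D m + γ⁻¹ (D q) pᵀ` -/
noncomputable def Xm (D : κ → ℂ) (m : Matrix κ κ ℂ) (p q : κ → ℂ) (γ : ℂ) : Matrix κ κ ℂ :=
  Matrix.of fun z z' => Th D m z z' + D z * q z * p z' / γ

/-- `γ / (D q) X` -/
noncomputable def Hm (D : κ → ℂ) (m : Matrix κ κ ℂ) (p q : κ → ℂ) (γ : ℂ) : Matrix κ κ ℂ :=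
  Matrix.of fun z z' => γ / (D z * q z) * Xm D m p q γ z z'

theorem pm_col (M : Matrix κ κ ℂ) (a : κ → ℂ) (W : Finset κ) :
    pm W (Matrix.of fun i j => a i * M i j) = (∏ i ∈ W, a i) * pm W M := by
  rw [← pm_diag_mul]
  refine pm_congr fun i _ j _ => ?_
  rw [Matrix.diagonal_mul, Matrix.of_apply]

/-- the facts at one potential.  `μ² = 2 r₁`. -/
structure Fact (S : Finset κ) (D : κ → ℂ) (m : Matrix κ κ ℂ) (p q t : κ → ℂ) (γ h0 : ℂ)
    (d1 cp hb Λ Ct ε μ δ : ℝ) : Prop where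
  D1 : ∀ z ∈ S, 1 / 2 ≤ ‖D z‖
  D2 : ∀ z ∈ S, ‖D z‖ ≤ d1
  symm : ∀ z ∈ S, ∀ z' ∈ S, m z z' = m z' z
  p_le : ∀ z ∈ S, ‖p z‖ ^ 2 ≤ cp ^ 2 * ‖Th D m z z‖
  row : ∀ z ∈ S, ∑ z' ∈ S, t z' * m z' z = (-Complex.I - h0) * p z
  t_le : ∀ z ∈ S, ‖t z‖ ≤ δ
  h0_le : ‖-Complex.I - h0‖ ≤ hb
  m_le : ∀ z ∈ S, ∀ z' ∈ S, z ≠ z' →
    ‖m z z'‖ ^ 2 ≤ μ ^ 2 * (‖Th D m z z‖ * ‖Th D m z' z'‖)
  minors : ∀ W ⊆ S, ‖pm W (Xm D m p q γ)‖ ^ 2 ≤ Λ ^ W.card * ‖pm W (Th D m)‖ ^ (1 + ε)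
  th_le : ∀ z ∈ S, ‖Th D m z z‖ ^ ε ≤ Ct

variable {S : Finset κ} {D : κ → ℂ} {m : Matrix κ κ ℂ} {p q t : κ → ℂ} {γ h0 : ℂ}
  {d1 cp hb Λ Ct ε μ δ : ℝ}

/-- `√|θ_z|` -/
noncomputable def bb (D : κ → ℂ) (m : Matrix κ κ ℂ) (z : κ) : ℝ := Real.sqrt ‖Th D m z z‖

theorem bb_sq (z : κ) : bb D m z ^ 2 = ‖Th D m z z‖ := Real.sq_sqrt (norm_nonneg _)

theorem bb_nonneg (z : κ) : 0 ≤ bb D m z := Real.sqrt_nonneg _

/-- the set of resonant ports -/
noncomputable def Zs (S : Finset κ) (D : κ → ℂ) (m : Matrix κ κ ℂ) (ρ : ℝ) : Finset κ :=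
  S.filter fun z => ρ < bb D m z

theorem mem_Zs {ρ : ℝ} {z : κ} : z ∈ Zs S D m ρ ↔ z ∈ S ∧ ρ < bb D m z := by simp [Zs]

namespace Fact

variable (F : Fact S D m p q t γ h0 d1 cp hb Λ Ct ε μ δ)

include F

theorem norm_p_le (hcp : 0 ≤ cp) {z : κ} (hz : z ∈ S) : ‖p z‖ ≤ cp * bb D m z := by
  have h := F.p_le z hz
  rw [← bb_sq] at h
  have hb := bb_nonneg (D := D) (m := m) z
  exact le_of_sq_le_sq (h.trans (le_of_eq (by ring))) (by positivity)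

theorem norm_m_le (hμ : 0 ≤ μ) {z z' : κ} (hz : z ∈ S) (hz' : z' ∈ S) (h : z ≠ z') :
    ‖m z z'‖ ≤ μ * (bb D m z * bb D m z') := by
  have h1 := F.m_le z hz z' hz' h
  rw [← bb_sq, ← bb_sq] at h1
  have hb := bb_nonneg (D := D) (m := m) z
  have hb' := bb_nonneg (D := D) (m := m) z'
  refine le_of_sq_le_sq (h1.trans (le_of_eq (by ring))) (by positivity)

theorem norm_m_self_le {z : κ} (hz : z ∈ S) : ‖m z z‖ ≤ 2 * (1 + bb D m z ^ 2) := by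
  have h1 : D z * m z z = 1 - Th D m z z := by simp [Th]
  have h2 : ‖D z‖ * ‖m z z‖ ≤ 1 + bb D m z ^ 2 := by
    rw [← norm_mul, h1, bb_sq]
    exact (norm_sub_le _ _).trans (by rw [norm_one])
  have h3 : 1 / 2 * ‖m z z‖ ≤ ‖D z‖ * ‖m z z‖ :=
    mul_le_mul_of_nonneg_right (F.D1 z hz) (norm_nonneg _)
  linarith

theorem Ct_one (hε : 0 ≤ ε) {z : κ} (hz : z ∈ S) (hz1 : 1 ≤ bb D m z) : 1 ≤ Ct :=
  (Real.one_le_rpow (by rw [← bb_sq]; nlinarith) hε).trans (F.th_le z hz)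

/-- `|θ|^{1+ε} ≤ Ct |θ|` -/
theorem rpow_le {z : κ} (hz : z ∈ S) (hz0 : 0 < bb D m z) :
    (bb D m z ^ 2) ^ (1 + ε) ≤ Ct * bb D m z ^ 2 := by
  have h0 : 0 < bb D m z ^ 2 := by positivity
  rw [Real.rpow_add h0, Real.rpow_one, mul_comm]
  have h1 := F.th_le z hz
  rw [← bb_sq] at h1
  exact mul_le_mul_of_nonneg_right h1 h0.le

theorem norm_X_le {lam : ℝ} (hΛ : 0 ≤ Λ) (hlam : 0 ≤ lam) (h2 : Λ * Ct ≤ lam ^ 2) {z : κ}
    (hz : z ∈ S) (hz0 : 0 < bb D m z) : ‖Xm D m p q γ z z‖ ≤ lam * bb D m z := by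
  have h1 := F.minors {z} (Finset.singleton_subset_iff.2 hz)
  rw [pm_singleton, pm_singleton, Finset.card_singleton, pow_one, ← bb_sq] at h1
  have h3 := F.rpow_le hz hz0
  refine le_of_sq_le_sq ?_ (by positivity)
  calc ‖Xm D m p q γ z z‖ ^ 2 ≤ Λ * (bb D m z ^ 2) ^ (1 + ε) := h1
    _ ≤ Λ * (Ct * bb D m z ^ 2) := by gcongr
    _ = (Λ * Ct) * bb D m z ^ 2 := by ring
    _ ≤ lam ^ 2 * bb D m z ^ 2 := by gcongr
    _ = (lam * bb D m z) ^ 2 := by ring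

/-- every resonant port separates `y` from the far vector: the amplitudes do not vanish -/
theorem ne_zero {lam ρ : ℝ} (hΛ : 0 ≤ Λ) (hlam : 0 ≤ lam) (h2 : Λ * Ct ≤ lam ^ 2)
    (hρ : 2 * lam ≤ ρ) (hρ1 : 1 ≤ ρ) {z : κ} (hz : z ∈ Zs S D m ρ) :
    bb D m z ^ 2 / 2 ≤ ‖D z * q z * p z / γ‖ ∧ γ ≠ 0 ∧ q z ≠ 0 ∧ D z ≠ 0 := by
  obtain ⟨hzS, hz⟩ := mem_Zs.1 hz
  have hb : 0 < bb D m z := by linarith
  have h3 := F.norm_X_le hΛ hlam h2 hzS hb
  have h4 : D z * q z * p z / γ = Xm D m p q γ z z - Th D m z z := by simp [Xm]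
  have h5 : bb D m z ^ 2 / 2 ≤ ‖D z * q z * p z / γ‖ := by
    rw [h4, norm_sub_rev]
    have h6 := norm_sub_norm_le (Th D m z z) (Xm D m p q γ z z)
    rw [← bb_sq] at h6
    have h7 : lam * bb D m z ≤ bb D m z ^ 2 / 2 := by nlinarith
    linarith
  have h6 : D z * q z * p z / γ ≠ 0 := by
    intro h0
    rw [h0, norm_zero] at h5
    have : 0 < bb D m z ^ 2 := by positivity
    linarith
  refine ⟨h5, fun h => h6 (by rw [h, div_zero]), fun h => h6 (by rw [h]; simp), fun h => h6 (by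
    rw [h]; simp)⟩

theorem norm_g_le {lam ρ : ℝ} (hcp : 0 ≤ cp) (hΛ : 0 ≤ Λ) (hlam : 0 ≤ lam)
    (h2 : Λ * Ct ≤ lam ^ 2) (hρ : 2 * lam ≤ ρ) (hρ1 : 1 ≤ ρ) {z : κ} (hz : z ∈ Zs S D m ρ) :
    ‖γ / (D z * q z)‖ ≤ 2 * cp / bb D m z := by
  obtain ⟨h5, hγ, hq, hD⟩ := F.ne_zero hΛ hlam h2 hρ hρ1 hz
  obtain ⟨hzS, hz⟩ := mem_Zs.1 hz
  have hb : 0 < bb D m z := by linarith
  have h6 : γ / (D z * q z) * (D z * q z * p z / γ) = p z := by field_simp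
  have h7 : ‖γ / (D z * q z)‖ * ‖D z * q z * p z / γ‖ ≤ cp * bb D m z := by
    rw [← norm_mul, h6]
    exact F.norm_p_le hcp hzS
  have h8 : ‖γ / (D z * q z)‖ * (bb D m z ^ 2 / 2) ≤ cp * bb D m z :=
    (mul_le_mul_of_nonneg_left h5 (norm_nonneg _)).trans h7
  rw [le_div_iff₀ hb]
  have h9 : (‖γ / (D z * q z)‖ * bb D m z) * bb D m z ≤ 2 * cp * bb D m z := by nlinarith
  exact le_of_mul_le_mul_right h9 hb

/-- **(i)** minors of `1 - D m` -/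
theorem norm_pm_Th_le (hμ : 1 ≤ μ) (hd : 1 ≤ d1) {W : Finset κ} (hWS : W ⊆ S)
    (hW : ∀ z ∈ W, 0 < bb D m z) :
    ‖pm W (Th D m)‖ ≤ ((S.card : ℝ) * d1 * μ) ^ W.card * ∏ z ∈ W, bb D m z ^ 2 := by
  have hν : 0 ≤ d1 * μ := by positivity
  have h1 := norm_pm_le (W := W) (X := Th D m)
    (b := fun z => Real.sqrt (d1 * μ) * bb D m z) (fun z hz => ?_) ?_
  · have e1 : ∀ z ∈ W, (Real.sqrt (d1 * μ) * bb D m z) ^ 2 = d1 * μ * bb D m z ^ 2 :=
      fun z _ => by rw [mul_pow, Real.sq_sqrt hν]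
    rw [Finset.prod_congr rfl e1, Finset.prod_mul_distrib, Finset.prod_const] at h1
    refine h1.trans ?_
    have hP : 0 ≤ ∏ z ∈ W, bb D m z ^ 2 := Finset.prod_nonneg fun z _ => sq_nonneg _
    have hc : (W.card : ℝ) ≤ S.card := by exact_mod_cast Finset.card_le_card hWS
    have h9 : (Nat.factorial W.card : ℝ) ≤ (S.card : ℝ) ^ W.card := by
      refine le_trans ?_ (pow_le_pow_left₀ (Nat.cast_nonneg _) hc _)
      exact_mod_cast Nat.factorial_le_pow W.card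
    calc (W.card.factorial : ℝ) * ((d1 * μ) ^ W.card * ∏ z ∈ W, bb D m z ^ 2)
        ≤ (S.card : ℝ) ^ W.card * ((d1 * μ) ^ W.card * ∏ z ∈ W, bb D m z ^ 2) := by gcongr
      _ = _ := by
          rw [mul_assoc (S.card : ℝ), mul_pow (S.card : ℝ)]
          ring
  · have := hW z hz
    positivity
  · intro z hz z' hz'
    have hb := hW z hz
    have hb' := hW z' hz'
    have e2 : Real.sqrt (d1 * μ) * bb D m z * (Real.sqrt (d1 * μ) * bb D m z') =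
        (d1 * μ) * (bb D m z * bb D m z') := by
      calc _ = (Real.sqrt (d1 * μ) * Real.sqrt (d1 * μ)) * (bb D m z * bb D m z') := by ring
        _ = _ := by rw [Real.mul_self_sqrt hν]
    show ‖Th D m z z'‖ ≤ Real.sqrt (d1 * μ) * bb D m z * (Real.sqrt (d1 * μ) * bb D m z')
    rw [e2]
    by_cases h : z = z'
    · subst h
      rw [← bb_sq]
      nlinarith [sq_nonneg (bb D m z), mul_le_mul hd hμ zero_le_one (by linarith)]
    · have h3 : Th D m z z' = -(D z * m z z') := by simp [Th, h]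
      rw [h3, norm_neg, norm_mul]
      calc ‖D z‖ * ‖m z z'‖ ≤ d1 * (μ * (bb D m z * bb D m z')) := by
            gcongr
            · exact F.D2 z (hWS hz)
            · exact F.norm_m_le (by linarith) (hWS hz) (hWS hz') h
        _ = d1 * μ * (bb D m z * bb D m z') := by ring

/-- **(ii)** minors of `H` on the resonant ports -/
theorem norm_pm_H_le {lam ρ : ℝ} (hcp : 0 ≤ cp) (hΛ : 0 ≤ Λ) (hlam : 0 ≤ lam)
    (h2 : Λ * Ct ≤ lam ^ 2) (hμ : 1 ≤ μ) (hd : 1 ≤ d1) (hε : 0 ≤ ε) (hε1 : ε ≤ 1)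
    (hρ : 2 * lam ≤ ρ) (hρ1 : 1 ≤ ρ) {W : Finset κ} (hW : W ⊆ Zs S D m ρ) :
    ‖pm W (Hm D m p q γ)‖ ≤ (2 * cp * (S.card : ℝ) * d1 * μ * lam) ^ W.card := by
  have hb : ∀ z ∈ W, 0 < bb D m z := fun z hz => by
    have := (mem_Zs.1 (hW hz)).2
    linarith
  have hWS : W ⊆ S := fun z hz => (mem_Zs.1 (hW hz)).1
  rcases W.eq_empty_or_nonempty with rfl | hne
  · simp [pm]
  obtain ⟨z0, hz0⟩ := hne
  have hk : (1 : ℝ) ≤ S.card := by
    exact_mod_cast Finset.card_pos.2 ⟨z0, hWS hz0⟩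
  have hCt : 1 ≤ Ct := F.Ct_one hε (hWS hz0) (by
    have := (mem_Zs.1 (hW hz0)).2
    linarith)
  set k : ℝ := (S.card : ℝ) with hkdef
  have h1 : pm W (Hm D m p q γ) = (∏ z ∈ W, γ / (D z * q z)) * pm W (Xm D m p q γ) :=
    pm_col _ _ _
  have hkdm : 1 ≤ k * d1 * μ := by
    have h5 : 1 ≤ k * d1 := by nlinarith
    nlinarith
  have h3 : ‖pm W (Xm D m p q γ)‖ ^ 2 ≤
      Λ ^ W.card * (((k * d1 * μ) ^ 2) ^ W.card * ∏ z ∈ W, (Ct * bb D m z ^ 2)) := by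
    refine (F.minors W hWS).trans ?_
    have h4 : ‖pm W (Th D m)‖ ^ (1 + ε) ≤
        ((k * d1 * μ) ^ W.card * ∏ z ∈ W, bb D m z ^ 2) ^ (1 + ε) :=
      Real.rpow_le_rpow (norm_nonneg _) (F.norm_pm_Th_le hμ hd hWS hb) (by linarith)
    have h5 : ((k * d1 * μ) ^ W.card * ∏ z ∈ W, bb D m z ^ 2) ^ (1 + ε) =
        ((k * d1 * μ) ^ W.card) ^ (1 + ε) * ∏ z ∈ W, (bb D m z ^ 2) ^ (1 + ε) := by
      rw [Real.mul_rpow (by positivity) (Finset.prod_nonneg fun z _ => sq_nonneg _),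
        Real.finsetProd_rpow _ _ (fun z _ => sq_nonneg _)]
    have h6 : ((k * d1 * μ) ^ W.card) ^ (1 + ε) ≤ ((k * d1 * μ) ^ 2) ^ W.card := by
      have h7 : 1 ≤ (k * d1 * μ) ^ W.card := one_le_pow₀ hkdm
      calc ((k * d1 * μ) ^ W.card) ^ (1 + ε) ≤ ((k * d1 * μ) ^ W.card) ^ (2 : ℝ) :=
            Real.rpow_le_rpow_of_exponent_le h7 (by linarith)
        _ = ((k * d1 * μ) ^ 2) ^ W.card := by
            rw [Real.rpow_two, ← pow_mul, ← pow_mul, mul_comm W.card 2]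
    have h8 : ∏ z ∈ W, (bb D m z ^ 2) ^ (1 + ε) ≤ ∏ z ∈ W, (Ct * bb D m z ^ 2) :=
      Finset.prod_le_prod (fun z _ => by positivity) fun z hz => F.rpow_le (hWS hz) (hb z hz)
    have h9 : 0 ≤ ∏ z ∈ W, (bb D m z ^ 2) ^ (1 + ε) :=
      Finset.prod_nonneg fun z _ => by positivity
    rw [h5] at h4
    have h10 : ‖pm W (Th D m)‖ ^ (1 + ε) ≤
        ((k * d1 * μ) ^ 2) ^ W.card * ∏ z ∈ W, (Ct * bb D m z ^ 2) :=
      h4.trans (mul_le_mul h6 h8 h9 (by positivity))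
    gcongr
  have h4 : ‖∏ z ∈ W, γ / (D z * q z)‖ ≤ ∏ z ∈ W, (2 * cp / bb D m z) := by
    rw [norm_prod]
    exact Finset.prod_le_prod (fun z _ => norm_nonneg _) fun z hz =>
      F.norm_g_le hcp hΛ hlam h2 hρ hρ1 (hW hz)
  refine le_of_sq_le_sq ?_ (by positivity)
  rw [h1, norm_mul, mul_pow]
  have h5 : (∏ z ∈ W, (2 * cp / bb D m z)) ^ 2 *
      (Λ ^ W.card * (((k * d1 * μ) ^ 2) ^ W.card * ∏ z ∈ W, (Ct * bb D m z ^ 2))) =
      (4 * cp ^ 2 * (k * d1 * μ) ^ 2 * (Λ * Ct)) ^ W.card := by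
    rw [← Finset.prod_pow]
    have e1 : ∀ x : ℝ, x ^ W.card = ∏ z ∈ W, x := fun x => by rw [Finset.prod_const]
    rw [e1, e1, e1, ← Finset.prod_mul_distrib, ← Finset.prod_mul_distrib,
      ← Finset.prod_mul_distrib]
    refine Finset.prod_congr rfl fun z hz => ?_
    have := hb z hz
    field_simp
    ring
  have hP : 0 ≤ ∏ z ∈ W, (2 * cp / bb D m z) := Finset.prod_nonneg fun z hz => by
    have := hb z hz
    positivity
  calc ‖∏ z ∈ W, γ / (D z * q z)‖ ^ 2 * ‖pm W (Xm D m p q γ)‖ ^ 2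
      ≤ (∏ z ∈ W, (2 * cp / bb D m z)) ^ 2 *
      (Λ ^ W.card * (((k * d1 * μ) ^ 2) ^ W.card * ∏ z ∈ W, (Ct * bb D m z ^ 2))) := by
        gcongr
    _ = (4 * cp ^ 2 * (k * d1 * μ) ^ 2 * (Λ * Ct)) ^ W.card := h5
    _ ≤ (4 * cp ^ 2 * (k * d1 * μ) ^ 2 * lam ^ 2) ^ W.card := by
        have : 0 ≤ Λ * Ct := by positivity
        gcongr
    _ = ((2 * cp * k * d1 * μ * lam) ^ W.card) ^ 2 := by
        rw [← pow_mul, mul_comm W.card 2, pow_mul]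
        congr 1
        ring

end Fact

/-- the Green entries `Gh^{[z]}_{z'y}` when the potential of `z` is frozen at `-i` -/
noncomputable def Gz (D : κ → ℂ) (m : Matrix κ κ ℂ) (p : κ → ℂ) (z z' : κ) : ℂ :=
  p z' + D z * m z' z * p z / Th D m z z

theorem Gz_self {z : κ} (hθ : Th D m z z ≠ 0) : Gz D m p z z = p z / Th D m z z := by
  have h : Th D m z z = 1 - D z * m z z := by simp [Th]
  rw [Gz, eq_div_iff hθ, add_mul, div_mul_cancel₀ _ hθ, h]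
  ring

theorem Gz_eq {z z' : κ} (hsym : m z' z = m z z') (hγ : γ ≠ 0) (hq : q z ≠ 0) (hD : D z ≠ 0)
    (hθ : Th D m z z ≠ 0) (h : z' ≠ z) : Gz D m p z z' = Hm D m p q γ z z' +
      (γ * Xm D m p q γ z z / (q z * Th D m z z)) * m z z' := by
  have h1 : Hm D m p q γ z z' = p z' - γ * m z z' / q z := by
    simp only [Hm, Xm, Th, Matrix.of_apply, if_neg h.symm]
    field_simp
    ring
  have h2 : Xm D m p q γ z z = Th D m z z + D z * q z * p z / γ := rfl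
  rw [h1, h2, Gz, hsym]
  field_simp
  ring

namespace Fact

variable (F : Fact S D m p q t γ h0 d1 cp hb Λ Ct ε μ δ)

include F

/-- **(iv)** the sink: the self-energy of `y` is small when the potential of `z` is frozen -/
theorem sink_sum_le {lam ρ : ℝ} (hd : 0 ≤ d1) (hcp : 0 ≤ cp) (hΛ : 0 ≤ Λ) (hlam : 0 ≤ lam)
    (h2 : Λ * Ct ≤ lam ^ 2)
    (hμ : 0 ≤ μ) (hδ : 0 ≤ δ) (hρ : 2 * lam ≤ ρ) (hρ1 : 1 ≤ ρ) {z : κ} (hz : z ∈ Zs S D m ρ)
    {B : ℝ} (hB : 0 ≤ B) (hs : ∀ z' ∈ Zs S D m ρ, z' ≠ z → ‖Hm D m p q γ z z'‖ ≤ B) :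
    ‖∑ z' ∈ S, t z' * Gz D m p z z'‖ ≤
      (S.card : ℝ) * δ * (B + cp * (1 + d1 * μ) * ρ + 2 * d1 * cp * lam * μ)
      + 2 * d1 * cp ^ 2 * hb * lam / ρ + 8 * d1 * cp * lam * δ + cp * δ := by
  obtain ⟨-, hγ, hq, hD⟩ := F.ne_zero hΛ hlam h2 hρ hρ1 hz
  obtain ⟨hzS, hzρ⟩ := mem_Zs.1 hz
  have hhb : 0 ≤ hb := (norm_nonneg _).trans F.h0_le
  set b := bb D m z with hbdef
  have hb0 : 0 < b := by linarith
  have hb1 : 1 ≤ b := by linarith
  have hθn : ‖Th D m z z‖ = b ^ 2 := (bb_sq z).symm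
  have hθ : Th D m z z ≠ 0 := by
    rw [← norm_pos_iff, hθn]
    positivity
  set k : ℝ := (S.card : ℝ) with hk
  have hk0 : 0 ≤ k := Nat.cast_nonneg _
  set N : Finset κ := S.filter (fun z' => ¬ ρ < bb D m z') with hN
  set Z' : Finset κ := (Zs S D m ρ).erase z with hZ'
  have split : ∀ f : κ → ℂ, ∑ z' ∈ S, f z' = ∑ z' ∈ Z', f z' + f z + ∑ z' ∈ N, f z' := by
    intro f
    rw [hZ', Finset.sum_erase_add _ _ hz, Zs, hN, Finset.sum_filter_add_sum_filter_not]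
  set c : ℂ := γ * Xm D m p q γ z z / (q z * Th D m z z) with hc
  have hcn : ‖c‖ ≤ 2 * d1 * cp * lam / b ^ 2 := by
    have h3 : c = D z * (γ / (D z * q z)) * Xm D m p q γ z z / Th D m z z := by
      rw [hc]
      field_simp
    rw [h3, norm_div, norm_mul, norm_mul, hθn]
    have h4 := F.norm_g_le hcp hΛ hlam h2 hρ hρ1 hz
    have h5 := F.norm_X_le hΛ hlam h2 hzS hb0
    calc ‖D z‖ * ‖γ / (D z * q z)‖ * ‖Xm D m p q γ z z‖ / b ^ 2
        ≤ d1 * (2 * cp / b) * (lam * b) / b ^ 2 := by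
          gcongr
          exact F.D2 z hzS
      _ = 2 * d1 * cp * lam / b ^ 2 := by
          field_simp
  have hmem : ∀ z' ∈ Z', z' ∈ Zs S D m ρ ∧ z' ≠ z ∧ z' ∈ S := fun z' hz' => by
    rw [hZ', Finset.mem_erase] at hz'
    exact ⟨hz'.2, hz'.1, (mem_Zs.1 hz'.2).1⟩
  -- the sum over the other resonant ports
  have e1 : ∑ z' ∈ Z', t z' * Gz D m p z z' = ∑ z' ∈ Z', t z' * Hm D m p q γ z z' +
      c * ∑ z' ∈ Z', t z' * m z' z := by
    rw [Finset.mul_sum, ← Finset.sum_add_distrib]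
    refine Finset.sum_congr rfl fun z' hz' => ?_
    obtain ⟨-, h3, h4⟩ := hmem z' hz'
    rw [Gz_eq (F.symm z' h4 z hzS) hγ hq hD hθ h3, F.symm z' h4 z hzS]
    ring
  have e2 : ∑ z' ∈ Z', t z' * m z' z = (-Complex.I - h0) * p z - t z * m z z -
      ∑ z' ∈ N, t z' * m z' z := by
    have h3 := split fun z' => t z' * m z' z
    rw [F.row z hzS] at h3
    rw [h3]
    ring
  have hcard : ∀ (s : Finset κ) (f : κ → ℂ) (M : ℝ), s ⊆ S → 0 ≤ M → (∀ z' ∈ s, ‖f z'‖ ≤ M) →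
      ‖∑ z' ∈ s, t z' * f z'‖ ≤ k * (δ * M) := by
    intro s f M hs hM h
    refine (norm_sum_le _ _).trans ?_
    calc ∑ z' ∈ s, ‖t z' * f z'‖ ≤ ∑ z' ∈ s, δ * M := by
          refine Finset.sum_le_sum fun z' hz' => ?_
          rw [norm_mul]
          exact mul_le_mul (F.t_le z' (hs hz')) (h z' hz') (norm_nonneg _) hδ
      _ = (s.card : ℝ) * (δ * M) := by rw [Finset.sum_const, nsmul_eq_mul]
      _ ≤ k * (δ * M) := by
          have : (s.card : ℝ) ≤ k := by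
            rw [hk]
            exact_mod_cast Finset.card_le_card hs
          gcongr
  have hZS : Z' ⊆ S := fun z' hz' => (hmem z' hz').2.2
  have hNS : N ⊆ S := Finset.filter_subset _ _
  have hNb : ∀ z' ∈ N, bb D m z' ≤ ρ ∧ z' ≠ z := by
    intro z' hz'
    rw [hN, Finset.mem_filter] at hz'
    refine ⟨not_lt.1 hz'.2, ?_⟩
    rintro rfl
    exact hz'.2 hzρ
  have T1 : ‖∑ z' ∈ Z', t z' * Hm D m p q γ z z'‖ ≤ k * (δ * B) :=
    hcard _ _ _ hZS hB fun z' hz' => hs z' (hmem z' hz').1 (hmem z' hz').2.1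
  have T2a : ‖(-Complex.I - h0) * p z‖ ≤ hb * (cp * b) := by
    rw [norm_mul]
    exact mul_le_mul F.h0_le (F.norm_p_le hcp hzS) (norm_nonneg _) hhb
  have T2b : ‖t z * m z z‖ ≤ δ * (2 * (1 + b ^ 2)) := by
    rw [norm_mul]
    exact mul_le_mul (F.t_le z hzS) (F.norm_m_self_le hzS) (norm_nonneg _) hδ
  have T2c : ‖∑ z' ∈ N, t z' * m z' z‖ ≤ k * (δ * (μ * (ρ * b))) := by
    refine hcard _ _ _ hNS (by positivity) fun z' hz' => ?_
    obtain ⟨h3, h4⟩ := hNb z' hz'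
    refine (F.norm_m_le hμ (hNS hz') hzS h4).trans ?_
    gcongr
  have T2 : ‖c * ∑ z' ∈ Z', t z' * m z' z‖ ≤
      2 * d1 * cp ^ 2 * hb * lam / ρ + 8 * d1 * cp * lam * δ +
        k * δ * (2 * d1 * cp * lam * μ) := by
    rw [norm_mul, e2]
    have h3 : ‖(-Complex.I - h0) * p z - t z * m z z - ∑ z' ∈ N, t z' * m z' z‖ ≤
        hb * (cp * b) + δ * (2 * (1 + b ^ 2)) + k * (δ * (μ * (ρ * b))) :=
      (norm_sub_le _ _).trans (add_le_add ((norm_sub_le _ _).trans (add_le_add T2a T2b)) T2c)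
    have h4 : 2 * d1 * cp * lam / b ^ 2 *
        (hb * (cp * b) + δ * (2 * (1 + b ^ 2)) + k * (δ * (μ * (ρ * b)))) =
        2 * d1 * cp ^ 2 * hb * lam / b + 4 * d1 * cp * lam * δ * (1 / b ^ 2 + 1) +
          k * δ * (2 * d1 * cp * lam * μ) * (ρ / b) := by
      field_simp
      ring
    have h5 : 2 * d1 * cp ^ 2 * hb * lam / b ≤ 2 * d1 * cp ^ 2 * hb * lam / ρ := by gcongr
    have h6 : (1 : ℝ) / b ^ 2 ≤ 1 := by
      rw [div_le_one (by positivity)]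
      nlinarith
    have h7 : ρ / b ≤ 1 := by
      rw [div_le_one hb0]
      linarith
    calc ‖c‖ * ‖(-Complex.I - h0) * p z - t z * m z z - ∑ z' ∈ N, t z' * m z' z‖
        ≤ 2 * d1 * cp * lam / b ^ 2 *
          (hb * (cp * b) + δ * (2 * (1 + b ^ 2)) + k * (δ * (μ * (ρ * b)))) := by
          gcongr
      _ = 2 * d1 * cp ^ 2 * hb * lam / b + 4 * d1 * cp * lam * δ * (1 / b ^ 2 + 1) +
          k * δ * (2 * d1 * cp * lam * μ) * (ρ / b) := h4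
      _ ≤ 2 * d1 * cp ^ 2 * hb * lam / ρ + 4 * d1 * cp * lam * δ * (1 + 1) +
          k * δ * (2 * d1 * cp * lam * μ) * 1 := by gcongr
      _ = _ := by ring
  have T3 : ‖t z * Gz D m p z z‖ ≤ cp * δ := by
    rw [Gz_self hθ, norm_mul, norm_div, hθn]
    calc ‖t z‖ * (‖p z‖ / b ^ 2) ≤ δ * (cp * b / b ^ 2) := by
          gcongr
          · exact F.t_le z hzS
          · exact F.norm_p_le hcp hzS
      _ = δ * (cp / b) := by
          congr 1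
          field_simp
      _ ≤ δ * cp := by
          gcongr
          rw [div_le_iff₀ hb0]
          nlinarith
      _ = cp * δ := mul_comm _ _
  have T4 : ‖∑ z' ∈ N, t z' * Gz D m p z z'‖ ≤ k * (δ * (cp * (1 + d1 * μ) * ρ)) := by
    refine hcard _ _ _ hNS (by positivity) fun z' hz' => ?_
    obtain ⟨h3, h4⟩ := hNb z' hz'
    have hb' := bb_nonneg (D := D) (m := m) z'
    rw [Gz]
    refine (norm_add_le _ _).trans ?_
    rw [norm_div, norm_mul, norm_mul, hθn]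
    calc ‖p z'‖ + ‖D z‖ * ‖m z' z‖ * ‖p z‖ / b ^ 2
        ≤ cp * bb D m z' + d1 * (μ * (bb D m z' * b)) * (cp * b) / b ^ 2 := by
          gcongr
          · exact F.norm_p_le hcp (hNS hz')
          · exact F.D2 z hzS
          · exact F.norm_m_le hμ (hNS hz') hzS h4
          · exact F.norm_p_le hcp hzS
      _ = cp * (1 + d1 * μ) * bb D m z' := by
          field_simp
      _ ≤ cp * (1 + d1 * μ) * ρ := by gcongr
  rw [split, e1]
  calc ‖∑ z' ∈ Z', t z' * Hm D m p q γ z z' + c * ∑ z' ∈ Z', t z' * m z' z +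
        t z * Gz D m p z z + ∑ z' ∈ N, t z' * Gz D m p z z'‖
      ≤ k * (δ * B) + (2 * d1 * cp ^ 2 * hb * lam / ρ + 8 * d1 * cp * lam * δ +
        k * δ * (2 * d1 * cp * lam * μ)) + cp * δ + k * (δ * (cp * (1 + d1 * μ) * ρ)) := by
        refine (norm_add_le _ _).trans (add_le_add ((norm_add_le _ _).trans (add_le_add
          ((norm_add_le _ _).trans (add_le_add T1 T2)) T3)) T4)
    _ = _ := by ring

/-- **(v)** no resonant port: the total amplitude at the ports is small -/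
theorem empty_sum_le {ρ : ℝ} (hcp : 0 ≤ cp) (hδ : 0 ≤ δ) (hZ : Zs S D m ρ = ∅) :
    ‖∑ z' ∈ S, t z' * p z'‖ ≤ (S.card : ℝ) * δ * (cp * ρ) := by
  refine (norm_sum_le _ _).trans ?_
  calc ∑ z' ∈ S, ‖t z' * p z'‖ ≤ ∑ _z' ∈ S, δ * (cp * ρ) := by
        refine Finset.sum_le_sum fun z' hz' => ?_
        rw [norm_mul]
        have h1 : bb D m z' ≤ ρ := by
          by_contra h
          have h3 : z' ∈ Zs S D m ρ := mem_Zs.2 ⟨hz', not_le.1 h⟩
          rw [hZ] at h3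
          exact absurd h3 (Finset.notMem_empty _)
        refine mul_le_mul (F.t_le z' hz') ((F.norm_p_le hcp hz').trans ?_) (norm_nonneg _) hδ
        gcongr
    _ = _ := by
        rw [Finset.sum_const, nsmul_eq_mul]
        ring

end Fact

/-- the statement of the cycle lemma in the form which is used -/
def SinkLemma (C : ℝ) : Prop :=
  ∀ (κ : Type u) [Fintype κ] [DecidableEq κ] (H : Matrix κ κ ℂ) (Z : Finset κ) (r : ℝ), 0 < r →
    Z.Nonempty → (∀ W ⊆ Z, ‖pm W H‖ ≤ r ^ W.card) →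
    ∃ z ∈ Z, ∀ z' ∈ Z, z' ≠ z → ‖H z z'‖ ≤ C * (Z.card : ℝ) * r

/-- **the sink step**: if the total amplitude at the ports is not small, some resonant port `z` has
a small self-energy sum when its potential is frozen at `-i` -/
theorem exists_sink {C : ℝ} (hS : SinkLemma.{u} C) (F : Fact S D m p q t γ h0 d1 cp hb Λ Ct ε μ δ)
    {lam ρ : ℝ} (hC : 0 ≤ C) (hd : 1 ≤ d1) (hcp : 0 < cp) (hΛ : 0 ≤ Λ) (hlam : 0 < lam)
    (h2 : Λ * Ct ≤ lam ^ 2)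
    (hμ : 1 ≤ μ) (hε : 0 ≤ ε) (hε1 : ε ≤ 1) (hδ : 0 ≤ δ) (hρ : 2 * lam ≤ ρ) (hρ1 : 1 ≤ ρ)
    (hbig : (S.card : ℝ) * δ * (cp * ρ) < ‖∑ z' ∈ S, t z' * p z'‖) :
    ∃ z ∈ S, ρ ^ 2 < ‖Th D m z z‖ ∧ ‖∑ z' ∈ S, t z' * Gz D m p z z'‖ ≤ (S.card : ℝ) * δ *
      (2 * C * cp * (S.card : ℝ) ^ 2 * d1 * μ * lam + cp * (1 + d1 * μ) * ρ +
        2 * d1 * cp * lam * μ)
      + 2 * d1 * cp ^ 2 * hb * lam / ρ + 8 * d1 * cp * lam * δ + cp * δ := by
  have hne : (Zs S D m ρ).Nonempty := by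
    rw [Finset.nonempty_iff_ne_empty]
    intro h
    exact absurd (F.empty_sum_le hcp.le hδ h) (not_le.2 hbig)
  obtain ⟨z0, hz0⟩ := hne
  have hk : 0 < (S.card : ℝ) := by
    exact_mod_cast Finset.card_pos.2 ⟨z0, (mem_Zs.1 hz0).1⟩
  obtain ⟨z, hz, hsink⟩ := hS κ (Hm D m p q γ) (Zs S D m ρ)
    (2 * cp * (S.card : ℝ) * d1 * μ * lam)
    (by positivity) ⟨z0, hz0⟩ fun W hW =>
      F.norm_pm_H_le hcp.le hΛ hlam.le h2 hμ hd hε hε1 hρ hρ1 hW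
  have hcard : ((Zs S D m ρ).card : ℝ) ≤ S.card := by
    exact_mod_cast Finset.card_le_card (Finset.filter_subset _ _)
  refine ⟨z, (mem_Zs.1 hz).1, ?_, ?_⟩
  · have h3 := (mem_Zs.1 hz).2
    rw [← bb_sq]
    gcongr
  · refine (F.sink_sum_le (by linarith) hcp.le hΛ hlam.le h2 (by linarith) hδ hρ hρ1 hz
      (B := C * (S.card : ℝ) * (2 * cp * (S.card : ℝ) * d1 * μ * lam)) (by positivity)
      fun z' hz' hne => (hsink z' hz' hne).trans ?_).trans (le_of_eq ?_)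
    · gcongr
    · ring

end P365T1.ISL.SinkG
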