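import Vale.Agent.P365.ISL.World
import Vale.Agent.P365.ISL.SinkG320

/-!
# P365-T1, insulated site lemma: the pointwise lemma in world form

`sink_or_small`: off the exceptional sets (A), (P') either the self-energy of `y` (in the world
`{y}`) is close to `h0`, or some resonant port `z` makes it so when its potential is frozen.
-/

set_option autoImplicit false
set_option linter.all false

namespace P365T1.ISL

open P365L P365O P365T1 P365T1.OneVar Matrix Complex MeasureTheory SinkG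
open scoped ComplexConjugate ENNReal

universe u

variable {ι : Type u} [Fintype ι] [DecidableEq ι] {A : Matrix ι ι ℝ}

section bridge

variable {E : ℝ} {e : ι → ℝ} {v : ι → ℝ} {y : ι}

/-- `D_x = W_x + i` in the world `{y}` -/
noncomputable def Dw (E : ℝ) (e : ι → ℝ) (y : ι) (v : ι → ℝ) : ι → ℂ :=
  fun x => wF E e {y} v x + I

theorem Kmat_wF_union (U : Finset ι) :
    Kmat A (wF E e (U ∪ {y}) v) = MD (Kmat A (wF E e {y} v)) (Dw E e y v) U := by
  ext i j
  by_cases hij : i = j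
  · subst hij
    by_cases hi : i ∈ U
    · have h1 : i ∈ U ∪ {y} := Finset.mem_union_left _ hi
      simp only [Kmat, MD, Matrix.sub_apply, Matrix.add_apply, Matrix.diagonal_apply_eq, hi,
        if_true, wF_mem h1, Dw]
      ring
    · by_cases hy : i = y
      · subst hy
        have h1 : i ∈ U ∪ {i} := Finset.mem_union_right _ (Finset.mem_singleton_self _)
        simp only [Kmat, MD, Matrix.sub_apply, Matrix.add_apply, Matrix.diagonal_apply_eq, hi,
          if_false, wF_mem h1, wF_mem (Finset.mem_singleton_self i), sub_zero]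
      · have h1 : i ∉ U ∪ {y} := by simp [hi, hy]
        have h2 : i ∉ ({y} : Finset ι) := by simp [hy]
        simp only [Kmat, MD, Matrix.sub_apply, Matrix.add_apply, Matrix.diagonal_apply_eq, hi,
          if_false, wF_not_mem h1, wF_not_mem h2, sub_zero]
  · simp [Kmat, MD, hij]

theorem Gr_wF_union (U : Finset ι) :
    Gr A (wF E e (U ∪ {y}) v) = (MD (Kmat A (wF E e {y} v)) (Dw E e y v) U)⁻¹ := by
  rw [Gr, Kmat_wF_union]

theorem Th_eq (D : ι → ℂ) (m : Matrix ι ι ℂ) : Th D m = 1 - Matrix.diagonal D * m := by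
  ext i j
  rw [Th, Matrix.of_apply, Matrix.sub_apply, Matrix.diagonal_mul, Matrix.one_apply]

theorem thU_eq_pm (hA : A.IsSymm) (he : ∀ x, 0 < e x) (U : Finset ι) :
    thU A E e {y} U v = pm U (Th (Dw E e y v) (Gr A (wF E e {y} v))) := by
  have h0 := det_ne_zero hA (wF_neg (E := E) he {y} v)
  rw [Th_eq, thU, Kmat_wF_union, det_MD_div h0]
  rfl

theorem thU_single_eq (hA : A.IsSymm) (he : ∀ x, 0 < e x) (z : ι) :
    thU A E e {y} {z} v = Th (Dw E e y v) (Gr A (wF E e {y} v)) z z := by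
  rw [thU_eq_pm hA he, pm_singleton]

theorem mulVec_single_col (M : Matrix ι ι ℂ) (a x : ι) :
    (M *ᵥ (Pi.single a 1 : ι → ℂ)) x = M x a := by
  rw [Matrix.mulVec_single_one]
  rfl

/-- `γ^{[U]} θ_U = γ Ξ_U` in world form -/
theorem gamma_world (hA : A.IsSymm) (he : ∀ x, 0 < e x) {U : Finset ι} (hy : y ∉ U) (a : ι)
    (hγ : Gr A (wF E e {y} v) y a ≠ 0) :
    Gr A (wF E e (U ∪ {y}) v) y a * thU A E e {y} U v = Gr A (wF E e {y} v) y a *
      pm U (Xm (Dw E e y v) (Gr A (wF E e {y} v)) (fun z => Gr A (wF E e {y} v) z y)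
        (fun z => Gr A (wF E e {y} v) z a) (Gr A (wF E e {y} v) y a)) := by
  have h0 := det_ne_zero hA (wF_neg (E := E) he {y} v)
  have hU : (MD (Kmat A (wF E e {y} v)) (Dw E e y v) U).det ≠ 0 := by
    rw [← Kmat_wF_union]
    exact det_ne_zero hA (wF_neg he _ v)
  have hg : ((Kmat A (wF E e {y} v))⁻¹ *ᵥ (Pi.single a 1 : ι → ℂ)) y ≠ 0 := by
    rw [mulVec_single_col]
    exact hγ
  have h1 := gamma_theta h0 (Dw E e y v) (Pi.single a 1 : ι → ℂ) hy hg hU
  rw [mulVec_single_col, mulVec_single_col] at h1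
  rw [Gr_wF_union, thU_eq_pm hA he, Th_eq]
  refine h1.trans ?_
  congr 1
  refine pm_congr fun i _ j _ => ?_
  have hsy : (Kmat A (wF E e {y} v))⁻¹ y j = (Kmat A (wF E e {y} v))⁻¹ j y :=
    Gr_symm (W := wF E e {y} v) hA y j
  simp only [Matrix.sub_apply, Matrix.diagonal_mul, Kq, Xm, Th, Matrix.of_apply,
    mulVec_single_col, Matrix.one_apply, Gr]
  rw [hsy]
  ring

/-- the Green entries in the world `{z, y}` -/
theorem Gr_world_insert (hA : A.IsSymm) (he : ∀ x, 0 < e x) {z : ι} (z' : ι)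
    (hθ : Th (Dw E e y v) (Gr A (wF E e {y} v)) z z ≠ 0) :
    Gr A (wF E e (insert z {y}) v) z' y =
      Gz (Dw E e y v) (Gr A (wF E e {y} v)) (fun z => Gr A (wF E e {y} v) z y) z z' := by
  have h0 := det_ne_zero hA (wF_neg (E := E) he {y} v)
  have h1 : (insert z {y} : Finset ι) = {z} ∪ {y} := rfl
  have h2 : Th (Dw E e y v) (Gr A (wF E e {y} v)) z z =
      1 - Dw E e y v z * (Kmat A (wF E e {y} v))⁻¹ z z := by
    simp only [Th, Matrix.of_apply, if_true]
    rfl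
  rw [h2] at hθ
  rw [h1, Gr_wF_union, inv_MD_singleton h0 _ hθ, Gz, h2]
  show Gr A (wF E e {y} v) z' y + Gr A (wF E e {y} v) z' z * Dw E e y v z *
    Gr A (wF E e {y} v) z y / _ = _
  congr 2
  ring

end bridge

/-! ### the facts at one potential -/

section facts

variable {E : ℝ} {e : ι → ℝ} {v : ι → ℝ} {y : ι}

theorem norm_I_sub_sg (hA : A.IsSymm) {W : ι → ℂ} (hW : ∀ x, (W x).im < 0) (x : ι) :
    1 ≤ ‖-I - sg A W x‖ := by
  have h1 := sg_im_nonneg hA hW x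
  have h2 := Complex.abs_im_le_norm (-I - sg A W x)
  have h3 : (-I - sg A W x).im = -(1 + (sg A W x).im) := by
    simp only [Complex.sub_im, Complex.neg_im, Complex.I_im]
    ring
  rw [h3, abs_neg, abs_of_nonneg (by linarith)] at h2
  linarith

theorem Dw_eq {z : ι} (hz : z ≠ y) : Dw E e y v z = ((v z - E : ℝ) : ℂ) + ((1 - e z : ℝ) : ℂ) * I := by
  rw [Dw, wF_not_mem (by simpa using hz), WV]
  push_cast
  ring

theorem Dw_ge {z : ι} (hz : z ≠ y) (h : e z ≤ 1 / 2) : 1 / 2 ≤ ‖Dw E e y v z‖ := by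
  have h2 := Complex.abs_im_le_norm (Dw E e y v z)
  have h3 : (Dw E e y v z).im = 1 - e z := by
    rw [Dw_eq hz]
    simp
  rw [h3, abs_of_nonneg (by linarith)] at h2
  linarith

theorem Dw_le {z : ι} (hz : z ≠ y) (he0 : 0 < e z) (h : e z ≤ 1 / 2) {L : ℝ} (hL : |v z - E| ≤ L) :
    ‖Dw E e y v z‖ ≤ L + 1 := by
  rw [Dw_eq hz]
  refine (norm_add_le _ _).trans ?_
  rw [norm_mul, Complex.norm_I, mul_one, Complex.norm_real, Complex.norm_real, Real.norm_eq_abs,
    Real.norm_eq_abs, abs_of_nonneg (by linarith : 0 ≤ 1 - e z)]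
  linarith

/-- `1 ≤ (d₁ + 1) |θ_z|` -/
theorem one_le_thU (hA : A.IsSymm) (he : ∀ x, 0 < e x) {z : ι} (hz : z ≠ y) {d1 : ℝ}
    (hd : ‖Dw E e y v z‖ ≤ d1) :
    1 ≤ (d1 + 1) * ‖Th (Dw E e y v) (Gr A (wF E e {y} v)) z z‖ := by
  have hz' : z ∉ ({y} : Finset ι) := by simpa using hz
  have hW := wF_neg (E := E) he {y} v
  rw [← thU_single_eq hA he, thU_single' hA he hz', norm_div]
  set s := sg A (wF E e {y} v) z with hs
  have h1 : 1 ≤ ‖-I - s‖ := norm_I_sub_sg hA hW z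
  have h2 : wz E e z (v z) - s = Dw E e y v z + (-I - s) := by
    rw [Dw, ← wF_self hz']
    ring
  have h3 : 0 < ‖wz E e z (v z) - s‖ := by
    rw [norm_pos_iff]
    intro h
    have h4 := congrArg Complex.im h
    rw [Complex.sub_im, wz_im, Complex.zero_im] at h4
    have h5 := sg_im_nonneg hA hW z
    linarith [he z]
  have h4 : ‖wz E e z (v z) - s‖ ≤ (d1 + 1) * ‖-I - s‖ := by
    rw [h2]
    refine (norm_add_le _ _).trans ?_
    have hd0 : 0 ≤ d1 := (norm_nonneg _).trans hd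
    nlinarith
  rw [← mul_div_assoc, le_div_iff₀ h3]
  linarith

theorem norm_p_sq_le (hA : A.IsSymm) (he : ∀ x, 0 < e x) (z : ι) :
    ‖Gr A (wF E e {y} v) z y‖ ^ 2 ≤ ‖Gr A (wF E e {y} v) z z‖ := by
  have hW := wF_neg (E := E) he {y} v
  have h1 := Gr_flux hA hW z
  have h2 : (-(wF E e {y} v y).im) * ‖Gr A (wF E e {y} v) y z‖ ^ 2 ≤
      (Gr A (wF E e {y} v) z z).im := by
    rw [h1]
    exact Finset.single_le_sum (f := fun c => (-(wF E e {y} v c).im) *
      ‖Gr A (wF E e {y} v) c z‖ ^ 2)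
      (fun c _ => mul_nonneg (by linarith [hW c]) (sq_nonneg _)) (Finset.mem_univ y)
  rw [wF_mem (Finset.mem_singleton_self y)] at h2
  have h3 := (Complex.abs_im_le_norm (Gr A (wF E e {y} v) z z))
  have h4 := le_abs_self (Gr A (wF E e {y} v) z z).im
  rw [Gr_symm hA z y]
  simp only [Complex.neg_im, Complex.I_im, neg_neg, one_mul] at h2
  linarith

/-- from `(s - h0) / (-i - s)` small to `s - h0` small -/
theorem norm_sub_le_of {s h0 : ℂ} {ε hb : ℝ} (hs : 1 ≤ ‖-I - s‖) (hε : ε ≤ 1 / 2)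
    (hhb : ‖-I - h0‖ ≤ hb) (h : ‖(s - h0) / (-I - s)‖ ≤ ε) : ‖s - h0‖ ≤ 2 * hb * ε := by
  have h0' : 0 < ‖-I - s‖ := by linarith
  have hε0 : 0 ≤ ε := (norm_nonneg _).trans h
  rw [norm_div, div_le_iff₀ h0'] at h
  have h1 : ‖-I - s‖ ≤ ‖-I - h0‖ + ‖s - h0‖ := by
    have : -I - s = (-I - h0) - (s - h0) := by ring
    rw [this]
    exact norm_sub_le _ _
  have h2 : ‖s - h0‖ ≤ ε * (hb + ‖s - h0‖) := h.trans (by gcongr; linarith)
  nlinarith [norm_nonneg (s - h0)]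

/-- the sum over the ports in terms of the self-energy -/
theorem row_sum (hA : A.IsSymm) {W : ι → ℂ} (hW : ∀ x, (W x).im < 0) (hWy : W y = -I)
    {S : Finset ι} {t : ι → ℂ} {h0 : ℂ}
    (hrow : (-I - h0) * Gr A W y y - ∑ z ∈ S, t z * Gr A W z y = 1) :
    ∑ z ∈ S, t z * Gr A W z y = (sg A W y - h0) / (-I - sg A W y) := by
  have h1 := norm_I_sub_sg hA hW y
  have h2 : -I - sg A W y ≠ 0 := by
    rw [← norm_pos_iff]
    linarith
  have h3 : Gr A W y y = (-I - sg A W y)⁻¹ := by rw [Gr_self_eq hA hW, hWy]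
  rw [h3] at hrow
  rw [eq_div_iff h2]
  field_simp at hrow
  linear_combination -hrow

end facts

/-- `η` of the sink step -/
noncomputable def etaS (k δ d1 cp hb μ lam ρ C : ℝ) : ℝ :=
  k * δ * (2 * C * cp * k ^ 2 * d1 * μ * lam + cp * (1 + d1 * μ) * ρ + 2 * d1 * cp * lam * μ)
      + 2 * d1 * cp ^ 2 * hb * lam / ρ + 8 * d1 * cp * lam * δ + cp * δ

/-- **sink or small**, world form.  `R₁ = ρ²`, `Λ = lam²`, `μ² = 8 r₁`, `cp² = 2 (L + 3)`,
`d₁ = L + 1`. -/
theorem sink_or_small {C : ℝ} (hC : 0 ≤ C) (hSL : SinkLemma.{u} C) (hA : A.IsSymm) {E : ℝ}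
    {e : ι → ℝ} (he : ∀ x, 0 < e x) {y a : ι} {S : Finset ι} (hyS : y ∉ S) {v : ι → ℝ}
    {L : ℝ} (hL : ∀ z ∈ S, |v z - E| ≤ L) (he2 : ∀ z ∈ S, e z ≤ 1 / 2)
    {t : ι → ℂ} {h0 : ℂ} {δ hb : ℝ} (hδ : 0 ≤ δ) (ht : ∀ z ∈ S, ‖t z‖ ≤ δ)
    (hh0 : ‖-I - h0‖ ≤ hb)
    (hrow : ∀ F : Finset ι, y ∈ F → F ⊆ insert y S → ∀ x ∈ insert y S,
      (-I - h0) * Gr A (wF E e F v) y x - ∑ z ∈ S, t z * Gr A (wF E e F v) z x =
        if x = y then 1 else 0)
    (hγ : Gr A (wF E e {y} v) y a ≠ 0) {lam r1 ρ : ℝ} (hlam : 0 < lam) (hr1 : 1 ≤ r1)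
    (hρ1 : 1 ≤ ρ) (hρ : 2 * lam ≤ ρ)
    (hAU : ∀ U ⊆ S, ‖thU A E e {y} U v‖ * ‖Gr A (wF E e (U ∪ {y}) v) y a‖ ^ 2 ≤
      (lam ^ 2) ^ U.card * ‖Gr A (wF E e {y} v) y a‖ ^ 2)
    (hP : ∀ z ∈ S, ∀ z' ∈ S, z ≠ z' →
      ‖thU A E e (insert z' {y}) {z} v‖ ≤ r1 * ‖thU A E e {y} {z} v‖)
    {η0 η1 : ℝ} (hη0 : (S.card : ℝ) * δ * (Real.sqrt (2 * (L + 3)) * ρ) ≤ 1 / 2)
    (hη0' : 2 * hb * ((S.card : ℝ) * δ * (Real.sqrt (2 * (L + 3)) * ρ)) ≤ η0)
    (hη1 : etaS S.card δ (L + 1) (Real.sqrt (2 * (L + 3))) hb (Real.sqrt (8 * r1)) lam ρ C ≤ 1 / 2)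
    (hη1' : 2 * hb * etaS S.card δ (L + 1) (Real.sqrt (2 * (L + 3))) hb (Real.sqrt (8 * r1)) lam
      ρ C ≤ η1) :
    ‖sg A (wF E e {y} v) y - h0‖ ≤ η0 ∨ ∃ z ∈ S, ρ ^ 2 < ‖thU A E e {y} {z} v‖ ∧
      ‖sg A (wF E e (insert z {y}) v) y - h0‖ ≤ η1 := by
  rcases S.eq_empty_or_nonempty with rfl | hne
  · -- no ports: the self-energy is `h0`
    left
    have h1 := hrow {y} (Finset.mem_singleton_self y) (by simp) y (Finset.mem_insert_self _ _)
    rw [if_pos rfl] at h1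
    have h2 := row_sum hA (wF_neg (E := E) he {y} v) (wF_mem (Finset.mem_singleton_self y)) h1
    rw [Finset.sum_empty] at h2
    have h3 : sg A (wF E e {y} v) y - h0 = 0 := by
      rcases div_eq_zero_iff.1 h2.symm with h | h
      · exact h
      · have := norm_I_sub_sg hA (wF_neg (E := E) he {y} v) y
        rw [h, norm_zero] at this
        linarith
    rw [h3, norm_zero]
    refine le_trans ?_ hη0'
    have : 0 ≤ hb := (norm_nonneg _).trans hh0
    simp
  obtain ⟨z0, hz0⟩ := hne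
  have hL0 : 0 ≤ L := (abs_nonneg _).trans (hL z0 hz0)
  set W0 := wF E e {y} v with hW0
  have hW : ∀ x, (W0 x).im < 0 := wF_neg he {y} v
  set m := Gr A W0 with hm
  set D := Dw E e y v with hD
  set cp := Real.sqrt (2 * (L + 3)) with hcp
  set μ := Real.sqrt (8 * r1) with hμ
  have hcp2 : cp ^ 2 = 2 * (L + 3) := Real.sq_sqrt (by linarith)
  have hμ2 : μ ^ 2 = 8 * r1 := Real.sq_sqrt (by linarith)
  have hcp0 : 0 < cp := Real.sqrt_pos.2 (by linarith)
  have hμ1 : 1 ≤ μ := by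
    rw [hμ, show (1 : ℝ) = Real.sqrt 1 by rw [Real.sqrt_one]]
    exact Real.sqrt_le_sqrt (by linarith)
  have hne : ∀ z ∈ S, z ≠ y := fun z hz h => hyS (h ▸ hz)
  have hD1 : ∀ z ∈ S, 1 / 2 ≤ ‖D z‖ := fun z hz => Dw_ge (hne z hz) (he2 z hz)
  have hD2 : ∀ z ∈ S, ‖D z‖ ≤ L + 1 := fun z hz =>
    Dw_le (hne z hz) (he z) (he2 z hz) (hL z hz)
  have hth1 : ∀ z ∈ S, 1 ≤ (L + 2) * ‖Th D m z z‖ := fun z hz => by
    have h := one_le_thU hA he (hne z hz) (hD2 z hz)
    calc (1 : ℝ) ≤ (L + 1 + 1) * ‖Th D m z z‖ := h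
      _ = _ := by ring
  have hth0 : ∀ z ∈ S, Th D m z z ≠ 0 := fun z hz h => by
    have h1 := hth1 z hz
    rw [h, norm_zero, mul_zero] at h1
    linarith
  have hpair : ∀ z ∈ S, ∀ z' ∈ S, z ≠ z' →
      ‖m z z'‖ ^ 2 ≤ μ ^ 2 * (‖Th D m z z‖ * ‖Th D m z' z'‖) := by
    intro z hz z' hz' hzz
    have h1 : thU A E e {y} {z', z} v = thU A E e {y} {z'} v * thU A E e (insert z' {y}) {z} v :=
      thU_insert hA he z'
    have h2 : thU A E e {y} {z', z} v =
        Th D m z' z' * Th D m z z - D z' * D z * (m z' z * m z z') := by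
      rw [thU_eq_pm hA he, Th_eq, pm_one_sub_pair _ _ (Ne.symm hzz)]
      simp only [Th_eq, Matrix.sub_apply, Matrix.diagonal_mul, Matrix.one_apply_eq]
      rfl
    have hsym : m z' z = m z z' := Gr_symm hA z' z
    have h3 := hP z hz z' hz' hzz
    rw [thU_single_eq hA he] at h3
    have h4 : D z' * D z * m z z' ^ 2 = Th D m z' z' * Th D m z z -
        Th D m z' z' * thU A E e (insert z' {y}) {z} v := by
      rw [thU_single_eq hA he z'] at h1
      rw [h1, hsym] at h2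
      linear_combination h2
    have h5 : ‖D z'‖ * ‖D z‖ * ‖m z z'‖ ^ 2 ≤ 2 * r1 * (‖Th D m z z‖ * ‖Th D m z' z'‖) := by
      rw [← norm_mul, ← norm_pow, ← norm_mul, h4]
      refine (norm_sub_le _ _).trans ?_
      rw [norm_mul, norm_mul]
      have h6 : 0 ≤ ‖Th D m z' z'‖ * ‖Th D m z z‖ := by positivity
      have h7 : ‖Th D m z' z'‖ * ‖thU A E e (insert z' {y}) {z} v‖ ≤
          ‖Th D m z' z'‖ * (r1 * ‖Th D m z z‖) := by gcongr
      nlinarith
    have h6 : 1 / 2 * (1 / 2) * ‖m z z'‖ ^ 2 ≤ ‖D z'‖ * ‖D z‖ * ‖m z z'‖ ^ 2 := by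
      have := hD1 z hz
      have := hD1 z' hz'
      gcongr
    rw [hμ2]
    linarith
  have hF : Fact S D m (fun z => m z y) (fun z => m z a) t (m y a) h0 (L + 1) cp hb (lam ^ 2) 1 0
      μ δ := by
    refine ⟨hD1, hD2, fun z _ z' _ => Gr_symm hA z z', ?_, ?_, ht, hh0, hpair, ?_, ?_⟩
    · intro z hz
      have h1 : ‖m z y‖ ^ 2 ≤ ‖m z z‖ := norm_p_sq_le hA he z
      have h2 : D z * m z z = 1 - Th D m z z := by simp [Th]
      have h3 : ‖D z‖ * ‖m z z‖ ≤ 1 + ‖Th D m z z‖ := by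
        rw [← norm_mul, h2]
        exact (norm_sub_le _ _).trans (by rw [norm_one])
      have h4 : 1 / 2 * ‖m z z‖ ≤ ‖D z‖ * ‖m z z‖ :=
        mul_le_mul_of_nonneg_right (hD1 z hz) (norm_nonneg _)
      have h5 := hth1 z hz
      rw [hcp2]
      show ‖m z y‖ ^ 2 ≤ _
      nlinarith [norm_nonneg (Th D m z z)]
    · intro z hz
      have h1 := hrow {y} (Finset.mem_singleton_self y)
        (Finset.singleton_subset_iff.2 (Finset.mem_insert_self _ _)) z
        (Finset.mem_insert_of_mem hz)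
      rw [if_neg (hne z hz)] at h1
      have h2 : m y z = m z y := Gr_symm hA y z
      show ∑ z' ∈ S, t z' * m z' z = (-I - h0) * m z y
      rw [← h2]
      linear_combination -h1
    · intro U hU
      have hyU : y ∉ U := fun h => hyS (hU h)
      have h1 := gamma_world (v := v) hA he hyU a hγ
      have h2 := hAU U hU
      rw [thU_eq_pm hA he] at h1 h2
      have hg : 0 < ‖m y a‖ := norm_pos_iff.2 hγ
      have h3 := congrArg norm h1
      rw [norm_mul, norm_mul] at h3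
      rw [add_zero, Real.rpow_one]
      set x := ‖pm U (Xm D m (fun z => m z y) (fun z => m z a) (m y a))‖ with hx
      set θ := ‖pm U (Th D m)‖ with hθ
      set g := ‖Gr A (wF E e (U ∪ {y}) v) y a‖ with hgdef
      have h3' : g * θ = ‖m y a‖ * x := h3
      have h2' : θ * g ^ 2 ≤ (lam ^ 2) ^ U.card * ‖m y a‖ ^ 2 := h2
      have h4 : ‖m y a‖ ^ 2 * x ^ 2 ≤ ‖m y a‖ ^ 2 * ((lam ^ 2) ^ U.card * θ) := by
        have hθ0 : 0 ≤ θ := norm_nonneg _
        calc ‖m y a‖ ^ 2 * x ^ 2 = (‖m y a‖ * x) ^ 2 := by ring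
          _ = θ * (θ * g ^ 2) := by rw [← h3']; ring
          _ ≤ θ * ((lam ^ 2) ^ U.card * ‖m y a‖ ^ 2) := by gcongr
          _ = _ := by ring
      exact le_of_mul_le_mul_left h4 (by positivity)
    · intro z _
      rw [Real.rpow_zero]
  have hrow1 := hrow {y} (Finset.mem_singleton_self y)
    (Finset.singleton_subset_iff.2 (Finset.mem_insert_self _ _)) y (Finset.mem_insert_self _ _)
  rw [if_pos rfl] at hrow1
  have hsum := row_sum hA hW (wF_mem (Finset.mem_singleton_self y)) hrow1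
  by_cases hbig : (S.card : ℝ) * δ * (cp * ρ) < ‖∑ z' ∈ S, t z' * m z' y‖
  · right
    obtain ⟨z, hz, h1, h2⟩ := SinkG.exists_sink hSL hF hC (by linarith) hcp0 (by positivity) hlam
      (by rw [mul_one]) hμ1 le_rfl zero_le_one hδ hρ hρ1 hbig
    refine ⟨z, hz, ?_, ?_⟩
    · rw [thU_single_eq hA he]
      exact h1
    · have h3 := hrow (insert z {y}) (by simp)
        (by
          intro x hx
          rcases Finset.mem_insert.1 hx with h | h
          · exact Finset.mem_insert_of_mem (h ▸ hz)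
          · rw [Finset.mem_singleton.1 h]
            exact Finset.mem_insert_self _ _) y (Finset.mem_insert_self _ _)
      rw [if_pos rfl] at h3
      have h4 := row_sum hA (wF_neg (E := E) he (insert z {y}) v)
        (wF_mem (by simp : y ∈ (insert z {y} : Finset ι))) h3
      have h5 : ∑ z' ∈ S, t z' * Gr A (wF E e (insert z {y}) v) z' y =
          ∑ z' ∈ S, t z' * Gz D m (fun z => m z y) z z' :=
        Finset.sum_congr rfl fun z' _ => by rw [Gr_world_insert hA he z' (hth0 z hz)]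
      rw [h5] at h4
      rw [h4] at h2
      exact (norm_sub_le_of (norm_I_sub_sg hA (wF_neg (E := E) he _ v) y) hη1 hh0 h2).trans hη1'
  · left
    rw [not_lt] at hbig
    have h2 : ‖(sg A W0 y - h0) / (-I - sg A W0 y)‖ ≤ (S.card : ℝ) * δ * (cp * ρ) := by
      rw [← hsum]
      exact hbig
    exact (norm_sub_le_of (norm_I_sub_sg hA hW y) hη0 hh0 h2).trans hη0'

end P365T1.ISL
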