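import Vale.Agent.P365.ISL.Small701
import Vale.Agent.P365.ISL.Scal37
import Vale.Agent.P365.ISL.SinkW320
import Vale.Agent.P365.ISL.Cycle
import Vale.Agent.P365.ISL.Cover320

/-!
# P365-T1: the insulated site lemma, parameters.

`Lam = q²`, `R1 = q⁶`, `r1 = 8 k² (K2 + 1)`, `k = |S| + 1`.
-/

set_option linter.all false

namespace P365T1.ISL

open P365L P365O P365T1 P365T1.OneVar P365T1.ISL37 Matrix Complex MeasureTheory Function
open scoped ComplexConjugate ENNReal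

universe u

/-- the cycle lemma in the form of the sink step -/
theorem sinkLemma701 : SinkG.SinkLemma.{u} 2000 := by
  intro κ _ _ H Z r hr hZ hW
  exact cycle_sink_on H Z hZ r hr fun W hWZ => hW W hWZ

/-- constants of the sink step -/
noncomputable def cpc (L : ℝ) : ℝ := Real.sqrt (2 * (L + 3))
noncomputable def M1c (K2 : ℝ) : ℝ := 8 * Real.sqrt (K2 + 1)
noncomputable def B1c (L K2 : ℝ) : ℝ :=
  2 * 2000 * cpc L * (L + 1) * M1c K2 + cpc L * (1 + (L + 1) * M1c K2) +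
    2 * (L + 1) * cpc L * M1c K2 + 8 * (L + 1) * cpc L + cpc L
noncomputable def B2c (L hb : ℝ) : ℝ := 2 * (L + 1) * cpc L ^ 2 * hb

theorem cpc_nonneg (L : ℝ) : 0 ≤ cpc L := Real.sqrt_nonneg _
theorem M1c_nonneg (K2 : ℝ) : 0 ≤ M1c K2 := by
  have := Real.sqrt_nonneg (K2 + 1)
  rw [M1c]; positivity
theorem B1c_nonneg {L : ℝ} (hL : 0 ≤ L) (K2 : ℝ) : 0 ≤ B1c L K2 := by
  have := cpc_nonneg L
  have := M1c_nonneg K2
  rw [B1c]; positivity
theorem B2c_nonneg {L hb : ℝ} (hL : 0 ≤ L) (hb0 : 0 ≤ hb) : 0 ≤ B2c L hb := by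
  have := cpc_nonneg L
  rw [B2c]; positivity

theorem etaS_le701 {L K2 hb k kk q dl : ℝ} (hL : 0 ≤ L) (hb0 : 0 ≤ hb) (hk0 : 0 ≤ k)
    (hkk : k ≤ kk) (hkk1 : 1 ≤ kk) (hK2 : 0 ≤ K2) (hq : 1 ≤ q) (hdl : 0 ≤ dl)
    (hs : dl * (kk ^ 4 * q ^ 5 * B1c L K2) ≤ 1) :
    etaS k dl (L + 1) (cpc L) hb (Real.sqrt (8 * (8 * kk ^ 2 * (K2 + 1)))) q (q ^ 3) 2000 ≤
      (1 + B2c L hb) / q ^ 2 := by
  have hc := cpc_nonneg L
  have hM := M1c_nonneg K2
  have hμ : Real.sqrt (8 * (8 * kk ^ 2 * (K2 + 1))) = M1c K2 * kk := by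
    rw [M1c, show 8 * (8 * kk ^ 2 * (K2 + 1)) = (8 * kk) ^ 2 * (K2 + 1) by ring,
      Real.sqrt_mul (sq_nonneg _), Real.sqrt_sq (by positivity)]
    ring
  rw [etaS, hμ]
  set c := cpc L with hcdef
  set M := M1c K2 with hMdef
  have hq0 : 0 < q := by linarith
  have hd1 : 0 ≤ L + 1 := by linarith
  have hq2 : q ≤ q ^ 3 := by nlinarith [mul_nonneg hq0.le hq0.le, sq_nonneg (q - 1)]
  have hq3 : 1 ≤ q ^ 3 := one_le_pow₀ hq
  have hkk2 : 1 ≤ kk ^ 2 := one_le_pow₀ hkk1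
  have hkk4 : 1 ≤ kk ^ 4 := one_le_pow₀ hkk1
  have hkk3 : kk ^ 3 ≤ kk ^ 4 := pow_le_pow_right₀ hkk1 (by norm_num)
  have hkk1' : kk ≤ kk ^ 4 := by
    calc kk = kk ^ 1 := (pow_one _).symm
      _ ≤ kk ^ 4 := pow_le_pow_right₀ hkk1 (by norm_num)
  have hkk2' : kk ^ 2 ≤ kk ^ 4 := pow_le_pow_right₀ hkk1 (by norm_num)
  have hkk0 : 0 ≤ kk := by linarith
  -- the second part
  have h2 : 2 * (L + 1) * c ^ 2 * hb * q / q ^ 3 = B2c L hb / q ^ 2 := by
    rw [B2c, ← hcdef]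
    field_simp
  -- the first part
  have hA : k * dl * (2 * 2000 * c * k ^ 2 * (L + 1) * (M * kk) * q) ≤
      dl * (kk ^ 4 * q ^ 3 * (2 * 2000 * c * (L + 1) * M)) := by
    have e1 : k * k ^ 2 * kk ≤ kk ^ 4 := by
      have : k * k ^ 2 = k ^ 3 := by ring
      rw [this]
      calc k ^ 3 * kk ≤ kk ^ 3 * kk := by gcongr
        _ = kk ^ 4 := by ring
    have e2 : k * k ^ 2 * kk * q ≤ kk ^ 4 * q ^ 3 := by gcongr
    have e3 : 0 ≤ dl * (2 * 2000 * c * (L + 1) * M) := by positivity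
    have e4 := mul_le_mul_of_nonneg_left e2 e3
    linarith
  have hB : k * dl * (c * (1 + (L + 1) * (M * kk)) * q ^ 3) ≤
      dl * (kk ^ 4 * q ^ 3 * (c * (1 + (L + 1) * M))) := by
    have e1 : k * (1 + (L + 1) * (M * kk)) ≤ kk ^ 4 * (1 + (L + 1) * M) := by
      have a1 : k * (1 + (L + 1) * (M * kk)) ≤ kk * (1 + (L + 1) * (M * kk)) := by gcongr
      have a2 : kk * (1 + (L + 1) * (M * kk)) = kk + kk ^ 2 * ((L + 1) * M) := by ring
      have a3 : kk ^ 2 * ((L + 1) * M) ≤ kk ^ 4 * ((L + 1) * M) := by gcongr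
      linarith
    have e3 : 0 ≤ dl * (c * q ^ 3) := by positivity
    have e4 := mul_le_mul_of_nonneg_left e1 e3
    linarith
  have hC : k * dl * (2 * (L + 1) * c * q * (M * kk)) ≤
      dl * (kk ^ 4 * q ^ 3 * (2 * (L + 1) * c * M)) := by
    have e1 : k * kk * q ≤ kk ^ 4 * q ^ 3 := by
      calc k * kk * q ≤ kk * kk * q := by gcongr
        _ = kk ^ 2 * q := by ring
        _ ≤ kk ^ 4 * q ^ 3 := by gcongr
    have e3 : 0 ≤ dl * (2 * (L + 1) * c * M) := by positivity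
    have e4 := mul_le_mul_of_nonneg_left e1 e3
    linarith
  have hD : 8 * (L + 1) * c * q * dl ≤ dl * (kk ^ 4 * q ^ 3 * (8 * (L + 1) * c)) := by
    have e1 : 1 * q ≤ kk ^ 4 * q ^ 3 := by gcongr
    have e3 : 0 ≤ dl * (8 * (L + 1) * c) := by positivity
    have e4 := mul_le_mul_of_nonneg_left e1 e3
    linarith
  have hE : c * dl ≤ dl * (kk ^ 4 * q ^ 3 * c) := by
    have e1 : 1 * 1 ≤ kk ^ 4 * q ^ 3 := by gcongr
    have e3 : 0 ≤ dl * c := by positivity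
    have e4 := mul_le_mul_of_nonneg_left e1 e3
    linarith
  have h1 : k * dl * (2 * 2000 * c * k ^ 2 * (L + 1) * (M * kk) * q +
      c * (1 + (L + 1) * (M * kk)) * q ^ 3 + 2 * (L + 1) * c * q * (M * kk)) +
      8 * (L + 1) * c * q * dl + c * dl ≤ dl * (kk ^ 4 * q ^ 3 * B1c L K2) := by
    have e1 : dl * (kk ^ 4 * q ^ 3 * B1c L K2) =
        dl * (kk ^ 4 * q ^ 3 * (2 * 2000 * c * (L + 1) * M)) +
        dl * (kk ^ 4 * q ^ 3 * (c * (1 + (L + 1) * M))) +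
        dl * (kk ^ 4 * q ^ 3 * (2 * (L + 1) * c * M)) +
        dl * (kk ^ 4 * q ^ 3 * (8 * (L + 1) * c)) + dl * (kk ^ 4 * q ^ 3 * c) := by
      rw [B1c, ← hcdef, ← hMdef]
      ring
    have e2 : k * dl * (2 * 2000 * c * k ^ 2 * (L + 1) * (M * kk) * q +
        c * (1 + (L + 1) * (M * kk)) * q ^ 3 + 2 * (L + 1) * c * q * (M * kk)) +
        8 * (L + 1) * c * q * dl + c * dl =
        k * dl * (2 * 2000 * c * k ^ 2 * (L + 1) * (M * kk) * q) +
        k * dl * (c * (1 + (L + 1) * (M * kk)) * q ^ 3) +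
        k * dl * (2 * (L + 1) * c * q * (M * kk)) + 8 * (L + 1) * c * q * dl + c * dl := by
      ring
    rw [e1, e2]
    exact add_le_add (add_le_add (add_le_add (add_le_add hA hB) hC) hD) hE
  have h3 : dl * (kk ^ 4 * q ^ 3 * B1c L K2) ≤ 1 / q ^ 2 := by
    rw [le_div_iff₀ (by positivity)]
    calc dl * (kk ^ 4 * q ^ 3 * B1c L K2) * q ^ 2 = dl * (kk ^ 4 * q ^ 5 * B1c L K2) := by ring
      _ ≤ 1 := hs
  rw [add_div, ← h2]
  linarith

variable {ι : Type*} [Fintype ι] [DecidableEq ι] {A : Matrix ι ι ℝ}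

/-- the line gain at the port `z` (`hline`) -/
def LineGain (A : Matrix ι ι ℝ) (ν : ι → Measure ℝ) (E : ℝ) (e : ι → ℝ) (y a z : ι) (R1 η1 : ℝ)
    (x0 : ℂ) (cb : ℝ≥0∞) : Prop :=
  ∀ c : ι → ℝ, ‖sg A (wF E e (insert z {y}) c) y - x0‖ ≤ η1 →
    ∫⁻ t, {v | R1 < ‖thU A E e {y} {z} v‖}.indicator (fa A E e y a {y}) (update c z t) ∂(ν z) ≤
      cb * ∫⁻ t, ∫⁻ u, fa A E e y a ∅ (update (update c z t) y u) ∂(ν y) ∂(ν z)

theorem GLaw_ae701 {ν : Measure ℝ} {ρ : ℝ → ℝ} {L δ m κ R η : ℝ} (G : GLaw ν ρ L δ m κ R η) :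
    ν {t | ¬ |t| ≤ L} = 0 := by
  have hm : MeasurableSet {t : ℝ | ¬ |t| ≤ L} :=
    (measurableSet_le (continuous_abs.measurable) measurable_const).compl
  rw [G.dens, withDensity_apply _ hm]
  have h : ∀ t ∈ {t : ℝ | ¬ |t| ≤ L}, ENNReal.ofReal (ρ t) = 0 := by
    intro t ht
    rw [G.supp t (not_le.1 ht), ENNReal.ofReal_zero]
  rw [setLIntegral_congr_fun hm h]
  simp

theorem ae_pi_of_ae701 {ν : ι → Measure ℝ} [∀ i, IsProbabilityMeasure (ν i)] {z : ι} {P : ℝ → Prop}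
    (h : ∀ᵐ t ∂(ν z), P t) : ∀ᵐ v ∂(Measure.pi ν), P (v z) := by
  have hmp := measurePreserving_eval ν z
  exact hmp.quasiMeasurePreserving.ae h

/-- **the insulated site lemma with its parameters**, the line gain as a hypothesis -/
theorem isl_param {ν : ι → Measure ℝ} [∀ i, IsProbabilityMeasure (ν i)] (hA : A.IsSymm) {E : ℝ}
    {e : ι → ℝ} (he : ∀ x, 0 < e x) {y a : ι} {S : Finset ι} (hyS : y ∉ S) (hSne : S.Nonempty)
    {ρ : ι → ℝ → ℝ} {Lp δp mp κp Rp ηp : ℝ}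
    (hG : ∀ z ∈ S, GLaw (ν z) (ρ z) Lp δp mp κp Rp ηp)
    {κy ay : ℝ} (hκy : 0 < κy) (hy : DensGe κy ay (ν y))
    {T : ℝ} (hT : 0 ≤ T) (heT : ∀ z ∈ S, Real.exp (-T) ≤ e z) (he2 : ∀ z ∈ S, e z ≤ 1 / 2)
    {x0 dl q hb : ℝ} (hdl : 0 ≤ dl) (hhb : |x0| + 2 ≤ hb)
    (hrow : ∀ᵐ v ∂(Measure.pi ν), Row A E e y S (x0 : ℂ) dl v)
    {K2 : ℝ} (hK2 : K2 = ISL37.K2 Lp δp mp κp Rp ηp E)
    {kk : ℝ} (hkk : kk = (S.card : ℝ) + 1) (hq1 : 2 ≤ q)
    (hq : 16 * (kk * (K0 Lp δp mp E * (K1 Lp Rp E * (1 + T)))) ≤ q ^ 2)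
    (hq2 : 2 * (1 + B2c (Lp + |E|) hb) ≤ q ^ 2)
    (hs : dl * (kk ^ 4 * q ^ 5 * B1c (Lp + |E|) K2) ≤ 1)
    (hs2 : dl * (kk * q ^ 4 * (2 * hb * cpc (Lp + |E|) + 1)) ≤ 1)
    (hs3 : dl * (kk * q ^ 3 * cpc (Lp + |E|)) ≤ 1 / 2) (hs4 : dl ≤ 1 / q ^ 2)
    (ha : |E + x0| + 2 / q + e y ≤ ay) {cb : ℝ≥0∞}
    (hline : ∀ z ∈ S, LineGain A ν E e y a z (q ^ 6) ((2 * hb * (1 + B2c (Lp + |E|) hb) + 1) / q ^ 2)
      (x0 : ℂ) cb) :
    ∫⁻ v, fa A E e y a {y} v ∂(Measure.pi ν) ≤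
      2 * ((ENNReal.ofReal (2 * (e y + 1 / q) / κy) + (S.card : ℝ≥0∞) * cb) *
        ∫⁻ v, fa A E e y a ∅ v ∂(Measure.pi ν)) := by
  obtain ⟨z0, hz0⟩ := hSne
  have hLp : 0 ≤ Lp := (hG z0 hz0).hL
  set L := Lp + |E| with hL
  have hL0 : 0 ≤ L := by positivity
  have hK2n : 0 ≤ K2 := by rw [hK2]; exact K2_nonneg (hG z0 hz0) E
  have hK0n : 0 ≤ K0 Lp δp mp E := K0_nonneg (hG z0 hz0) E
  have hK1n : 0 ≤ K1 Lp Rp E := K1_nonneg (hG z0 hz0) E
  have hq0 : 0 < q := by linarith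
  have hkk1 : 1 ≤ kk := by rw [hkk]; linarith [Nat.cast_nonneg (α := ℝ) S.card]
  have hkk0 : 0 < kk := by linarith
  have hk : (S.card : ℝ) ≤ kk := by rw [hkk]; linarith
  have hb0 : 0 ≤ hb := le_trans (by positivity) hhb
  have hB2 := B2c_nonneg (L := L) hL0 hb0
  have hc0 := cpc_nonneg L
  set r1 : ℝ := 8 * kk ^ 2 * (K2 + 1) with hr1
  have hr1pos : 1 ≤ r1 := by
    rw [hr1]
    have : 1 ≤ kk ^ 2 := one_le_pow₀ hkk1
    nlinarith
  refine isl_core (E := E) (k0 := K0 Lp δp mp E) (k1 := K1 Lp Rp E * (1 + T)) (k3 := K2 / r1)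
    (Lam := q ^ 2) (r1 := r1) (R1 := q ^ 6) (η0 := 1 / q)
    (η1 := (2 * hb * (1 + B2c L hb) + 1) / q ^ 2) (x0 := (x0 : ℂ))
    hA he hyS hK0n (by positivity) (by positivity) (by positivity) ?_ ?_ ?_ ?_ ?_ ?_ ?_ ?_
  · intro z hz
    exact isl_S1 (hG z hz) E hT (heT z hz) (by linarith [he2 z hz])
  · intro z hz
    exact isl_S2 (hG z hz) E (he z) (by linarith [he2 z hz])
  · intro z hz
    rw [hK2]
    exact isl_S3 (hG z hz) E (he z) (by linarith [he2 z hz]) (by linarith)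
  · refine le_trans ?_ hq
    gcongr
  · rw [hr1]
    have h1 : (S.card : ℝ) ^ 2 ≤ kk ^ 2 := by gcongr
    have h2 : 8 * ((S.card : ℝ) ^ 2 * (K2 / (8 * kk ^ 2 * (K2 + 1)))) =
        ((S.card : ℝ) ^ 2 / kk ^ 2) * (K2 / (K2 + 1)) := by
      field_simp
    rw [h2]
    have h3 : (S.card : ℝ) ^ 2 / kk ^ 2 ≤ 1 := by
      rw [div_le_one (by positivity)]
      exact h1
    have h4 : K2 / (K2 + 1) ≤ 1 := by
      rw [div_le_one (by positivity)]
      linarith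
    exact mul_le_one₀ h3 (by positivity) h4
  · -- the cover
    have hae : ∀ᵐ v ∂(Measure.pi ν), ∀ z ∈ S, |v z| ≤ Lp := by
      rw [MeasureTheory.ae_all_iff]
      intro z
      rw [Filter.eventually_imp_distrib_left]
      intro hz
      exact ae_pi_of_ae701 (P := fun t => |t| ≤ Lp) (GLaw_ae701 (hG z hz))
    filter_upwards [hrow, hae] with v hv hvL hAU hP hγ
    obtain ⟨t, h0, ht, hh0, hr⟩ := hv
    have hdl1 : dl ≤ 1 := by
      refine hs4.trans ?_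
      rw [div_le_one (by positivity)]
      exact one_le_pow₀ (by linarith)
    have hh0' : ‖-I - h0‖ ≤ hb := by
      have e1 : -I - h0 = -I - (h0 - x0) - x0 := by ring
      have e2 : ‖-I - h0‖ ≤ 1 + dl + |x0| := by
        rw [e1]
        refine (norm_sub_le _ _).trans ?_
        refine add_le_add ((norm_sub_le _ _).trans ?_) ?_
        · rw [norm_neg, norm_I]
          exact add_le_add le_rfl hh0
        · rw [Complex.norm_real, Real.norm_eq_abs]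
      linarith
    have hLz : ∀ z ∈ S, |v z - E| ≤ L := by
      intro z hz
      rw [hL]
      exact (abs_sub _ _).trans (add_le_add (hvL z hz) le_rfl)
    have hS320 := sink_or_small (C := 2000) (by norm_num) sinkLemma701 hA he hyS hLz he2 hdl ht hh0' hr
      hγ (lam := q) (r1 := r1) (ρ := q ^ 3) hq0 hr1pos (one_le_pow₀ (by linarith))
      (by nlinarith [sq_nonneg (q - 1), mul_pos hq0 hq0]) (by
        intro U hU
        exact hAU U hU) hP (η0 := 1 / q - dl)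
      (η1 := 2 * hb * (1 + B2c L hb) / q ^ 2) ?_ ?_ ?_ ?_
    · rcases hS320 with h | ⟨z, hz, hz1, hz2⟩
      · left
        calc ‖sg A (wF E e {y} v) y - x0‖ = ‖(sg A (wF E e {y} v) y - h0) + (h0 - x0)‖ := by
              rw [sub_add_sub_cancel]
          _ ≤ (1 / q - dl) + dl := (norm_add_le _ _).trans (add_le_add h hh0)
          _ = 1 / q := by ring
      · right
        refine ⟨z, hz, ?_, ?_⟩
        · rw [show q ^ 6 = (q ^ 3) ^ 2 by ring]
          exact hz1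
        · calc ‖sg A (wF E e (insert z {y}) v) y - x0‖ =
              ‖(sg A (wF E e (insert z {y}) v) y - h0) + (h0 - x0)‖ := by
                rw [sub_add_sub_cancel]
            _ ≤ 2 * hb * (1 + B2c L hb) / q ^ 2 + 1 / q ^ 2 :=
                (norm_add_le _ _).trans (add_le_add hz2 (hh0.trans hs4))
            _ = (2 * hb * (1 + B2c L hb) + 1) / q ^ 2 := by ring
    · -- (1)
      have e1 : (S.card : ℝ) * dl * (Real.sqrt (2 * (L + 3)) * q ^ 3) ≤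
          dl * (kk * q ^ 3 * cpc L) := by
        have : (S.card : ℝ) * dl * (cpc L * q ^ 3) ≤ kk * dl * (cpc L * q ^ 3) := by gcongr
        calc (S.card : ℝ) * dl * (Real.sqrt (2 * (L + 3)) * q ^ 3) =
              (S.card : ℝ) * dl * (cpc L * q ^ 3) := rfl
          _ ≤ _ := this
          _ = _ := by ring
      linarith
    · -- (2)
      have e1 : 2 * hb * ((S.card : ℝ) * dl * (Real.sqrt (2 * (L + 3)) * q ^ 3)) ≤
          2 * hb * (kk * dl * (cpc L * q ^ 3)) := by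
        have : (S.card : ℝ) * dl * (cpc L * q ^ 3) ≤ kk * dl * (cpc L * q ^ 3) := by gcongr
        exact mul_le_mul_of_nonneg_left this (by positivity)
      refine e1.trans ?_
      rw [le_sub_iff_add_le, le_div_iff₀ hq0]
      have e2 : dl * q ≤ dl * (kk * q ^ 4) := by
        have : 1 * q ≤ kk * q ^ 4 := by
          have h1 : q ≤ q ^ 4 := by
            calc q = q ^ 1 := (pow_one _).symm
              _ ≤ q ^ 4 := pow_le_pow_right₀ (by linarith) (by norm_num)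
          gcongr
        rw [one_mul] at this
        exact mul_le_mul_of_nonneg_left this hdl
      calc (2 * hb * (kk * dl * (cpc L * q ^ 3)) + dl) * q =
            dl * (kk * q ^ 4 * (2 * hb * cpc L)) + dl * q := by ring
        _ ≤ dl * (kk * q ^ 4 * (2 * hb * cpc L)) + dl * (kk * q ^ 4) := by linarith
        _ = dl * (kk * q ^ 4 * (2 * hb * cpc L + 1)) := by ring
        _ ≤ 1 := hs2
    · -- (3)
      have e1 := etaS_le701 (L := L) (K2 := K2) (hb := hb) (k := S.card) (kk := kk) (q := q) (dl := dl)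
        hL0 hb0 (Nat.cast_nonneg _) hk hkk1 hK2n (by linarith) hdl hs
      refine (le_trans e1 ?_)
      rw [div_le_iff₀ (by positivity)]
      linarith
    · -- (4)
      have e1 := etaS_le701 (L := L) (K2 := K2) (hb := hb) (k := S.card) (kk := kk) (q := q) (dl := dl)
        hL0 hb0 (Nat.cast_nonneg _) hk hkk1 hK2n (by linarith) hdl hs
      calc _ ≤ 2 * hb * ((1 + B2c L hb) / q ^ 2) :=
            mul_le_mul_of_nonneg_left e1 (by positivity)
        _ = _ := by ring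
  · -- the small case
    refine hsmall_of_dens hκy hy (he y) ?_
    have : 2 * (1 / q) = 2 / q := by ring
    rw [this]
    exact ha
  · intro z hz c hc
    exact hline z hz c hc

end P365T1.ISL
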