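import Vale.Agent.P365.T1.Defs
import Vale.Agent.P365.C937.Wave
import Vale.Agent.P365.SH.Box

/-!
# P365-T1: boxes of `ℤ²` inside the torus, blocks and local coordinates
-/

set_option linter.all false

namespace P365T1.Link

open P365L P365O P365T1 Vale.Agent.P365.C937

variable {N : ℕ} [NeZero N]

/-- translate of `x` by an integer vector -/
def em (x : Tor N) (a : ℤ × ℤ) : Tor N := (x.1 + (a.1 : ZMod N), x.2 + (a.2 : ZMod N))

omit [NeZero N] in
theorem em_zero (x : Tor N) : em x (0, 0) = x := by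
  simp [em]

omit [NeZero N] in
theorem cast_inj {a b : ℤ} (h : |a - b| < N) (he : (a : ZMod N) = (b : ZMod N)) : a = b := by
  have h1 : (N : ℤ) ∣ b - a := (ZMod.intCast_eq_intCast_iff_dvd_sub a b N).1 he
  have h2 : |b - a| < N := by rwa [abs_sub_comm]
  have h3 := Int.eq_zero_of_abs_lt_dvd h1 h2
  omega

omit [NeZero N] in
theorem em_inj {x : Tor N} {a b : ℤ × ℤ} (h1 : |a.1 - b.1| < N) (h2 : |a.2 - b.2| < N)
    (h : em x a = em x b) : a = b := by
  have h3 := congrArg Prod.fst h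
  have h4 := congrArg Prod.snd h
  simp only [em, add_right_inj] at h3 h4
  exact Prod.ext (cast_inj h1 h3) (cast_inj h2 h4)

omit [NeZero N] in
theorem em_sub (x : Tor N) (a b : ℤ × ℤ) :
    em x b - em x a = (((b.1 - a.1 : ℤ) : ZMod N), ((b.2 - a.2 : ℤ) : ZMod N)) := by
  simp only [em, Prod.mk_sub_mk]
  push_cast
  refine Prod.ext ?_ ?_ <;> simp only <;> ring

omit [NeZero N] in
theorem mem_nbs_cast {d : ℤ × ℤ} (h1 : |d.1| + 1 < N) (h2 : |d.2| + 1 < N) :
    (((d.1 : ℤ) : ZMod N), ((d.2 : ℤ) : ZMod N)) ∈ nbs N ↔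
      d.1.natAbs + d.2.natAbs = 1 := by
  have a1 := abs_lt.1 (show |d.1| < (N : ℤ) - 1 by linarith)
  have a2 := abs_lt.1 (show |d.2| < (N : ℤ) - 1 by linarith)
  have hz1 : ∀ c : ℤ, |c| ≤ 1 → ((d.1 : ZMod N) = (c : ZMod N) ↔ d.1 = c) := by
    intro c hc
    refine ⟨fun h => cast_inj ?_ h, fun h => by rw [h]⟩
    have := abs_le.1 hc
    rw [abs_lt]; constructor <;> linarith
  have hz2 : ∀ c : ℤ, |c| ≤ 1 → ((d.2 : ZMod N) = (c : ZMod N) ↔ d.2 = c) := by
    intro c hc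
    refine ⟨fun h => cast_inj ?_ h, fun h => by rw [h]⟩
    have := abs_le.1 hc
    rw [abs_lt]; constructor <;> linarith
  have e0 := hz1 0 (by norm_num)
  have e1 := hz1 1 (by norm_num)
  have e2 := hz1 (-1) (by norm_num)
  have f0 := hz2 0 (by norm_num)
  have f1 := hz2 1 (by norm_num)
  have f2 := hz2 (-1) (by norm_num)
  simp only [Int.cast_zero, Int.cast_one, Int.cast_neg] at e0 e1 e2 f0 f1 f2
  simp only [nbs, Finset.mem_insert, Finset.mem_singleton, Prod.mk.injEq]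
  rw [e0, e1, e2, f0, f1, f2]
  omega

omit [NeZero N] in
theorem AT_em {x : Tor N} {a b : ℤ × ℤ} (h1 : |b.1 - a.1| + 1 < N) (h2 : |b.2 - a.2| + 1 < N) :
    AT N (em x a) (em x b) = adjw a b := by
  unfold AT adjw
  rw [em_sub]
  have h := mem_nbs_cast (d := (b.1 - a.1, b.2 - a.2)) h1 h2
  have h3 : (b.1 - a.1).natAbs + (b.2 - a.2).natAbs = (a.1 - b.1).natAbs + (a.2 - b.2).natAbs := by
    rw [← Int.natAbs_neg (b.1 - a.1), ← Int.natAbs_neg (b.2 - a.2), neg_sub, neg_sub]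
  simp only at h
  rw [h3] at h
  by_cases hc : (a.1 - b.1).natAbs + (a.2 - b.2).natAbs = 1
  · rw [if_pos (h.2 hc), if_pos hc]
  · rw [if_neg (fun h' => hc (h.1 h')), if_neg hc]

omit [NeZero N] in
/-- the neighbours of `em x a` -/
theorem AT_em_ne {x z : Tor N} {a : ℤ × ℤ} (h : AT N (em x a) z ≠ 0) :
    ∃ b ∈ nb4 a, z = em x b := by
  have h1 : z - em x a ∈ nbs N := by
    by_contra hc
    exact h (by rw [AT, if_neg hc])
  have hz : z = em x a + (z - em x a) := by abel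
  simp only [nbs, Finset.mem_insert, Finset.mem_singleton] at h1
  rcases h1 with h1 | h1 | h1 | h1
  · refine ⟨(a.1 + 1, a.2), by simp [nb4], ?_⟩
    rw [hz, h1]
    simp only [em, Prod.mk_add_mk, add_zero]
    push_cast
    refine Prod.ext ?_ rfl
    simp only; ring
  · refine ⟨(a.1 - 1, a.2), by simp [nb4], ?_⟩
    rw [hz, h1]
    simp only [em, Prod.mk_add_mk, add_zero]
    push_cast
    refine Prod.ext ?_ rfl
    simp only; ring
  · refine ⟨(a.1, a.2 + 1), by simp [nb4], ?_⟩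
    rw [hz, h1]
    simp only [em, Prod.mk_add_mk, add_zero]
    push_cast
    refine Prod.ext rfl ?_
    simp only; ring
  · refine ⟨(a.1, a.2 - 1), by simp [nb4], ?_⟩
    rw [hz, h1]
    simp only [em, Prod.mk_add_mk, add_zero]
    push_cast
    refine Prod.ext rfl ?_
    simp only; ring

/-- one coordinate: moving inside a block -/
theorem val_add_int {m : ℕ} (hm : 0 < m) (hN : m ∣ N) (x : ZMod N) {d : ℤ}
    (h0 : 0 ≤ ((x.val % m : ℕ) : ℤ) + d) (h1 : ((x.val % m : ℕ) : ℤ) + d < m) :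
    (x + (d : ZMod N)).val / m = x.val / m ∧
      (((x + (d : ZMod N)).val % m : ℕ) : ℤ) = ((x.val % m : ℕ) : ℤ) + d := by
  obtain ⟨k, hk⟩ := hN
  have hx : x.val < N := ZMod.val_lt x
  have hdm := Nat.div_add_mod x.val m
  set q := x.val / m with hq
  set p := x.val % m with hp
  have hqk : q < k := by
    have hx' : x.val < m * k := by omega
    rw [hq]
    exact Nat.div_lt_of_lt_mul hx'
  have hle : m * q + m ≤ N := by
    rw [hk]
    calc m * q + m = m * (q + 1) := by ring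
      _ ≤ m * k := Nat.mul_le_mul_left m hqk
  obtain ⟨t, ht⟩ : ∃ t : ℕ, (t : ℤ) = (p : ℤ) + d := ⟨((p : ℤ) + d).toNat, Int.toNat_of_nonneg h0⟩
  have htm : t < m := by
    have : (t : ℤ) < m := by rw [ht]; exact h1
    exact_mod_cast this
  have hxd : x + (d : ZMod N) = ((m * q + t : ℕ) : ZMod N) := by
    have h2 : x = ((x.val : ℕ) : ZMod N) := (ZMod.natCast_zmod_val x).symm
    have h3 : ((m * q + t : ℕ) : ZMod N) = (((m * q + t : ℕ) : ℤ) : ZMod N) := by push_cast; rfl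
    rw [h2, h3]
    have h4 : ((m * q + t : ℕ) : ℤ) = (x.val : ℤ) + d := by
      push_cast
      rw [ht, ← hdm]
      push_cast
      ring
    rw [h4]
    push_cast
    simp
  have hval : (x + (d : ZMod N)).val = m * q + t := by
    rw [hxd, ZMod.val_natCast, Nat.mod_eq_of_lt]
    omega
  rw [hval]
  constructor
  · rw [Nat.mul_add_div hm, Nat.div_eq_of_lt htm, add_zero]
  · rw [Nat.mul_add_mod, Nat.mod_eq_of_lt htm, ht]

/-- moving inside a block of the torus -/
theorem bi_lc_em {m : ℕ} (hm : 0 < m) (hN : m ∣ N) (x : Tor N) {d : ℤ × ℤ}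
    (h1 : 0 ≤ ((lc m x).1 : ℤ) + d.1) (h2 : ((lc m x).1 : ℤ) + d.1 < m)
    (h3 : 0 ≤ ((lc m x).2 : ℤ) + d.2) (h4 : ((lc m x).2 : ℤ) + d.2 < m) :
    bi m (em x d) = bi m x ∧ (((lc m (em x d)).1 : ℕ) : ℤ) = ((lc m x).1 : ℤ) + d.1 ∧
      (((lc m (em x d)).2 : ℕ) : ℤ) = ((lc m x).2 : ℤ) + d.2 := by
  have a1 := val_add_int hm hN x.1 h1 h2
  have a2 := val_add_int hm hN x.2 h3 h4
  refine ⟨Prod.ext a1.1 a2.1, a1.2, a2.2⟩

end P365T1.Link
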