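import Vale.Agent.P365.J376.V3
import Vale.Agent.P365.ISL.TorBox77
import Vale.Agent.P365.ISL.Row77

/-!
# P365-T1, (HC): the cell of a matched block inside the torus
-/

set_option linter.all false

namespace P365T1.Link

open P365L P365O P365T1 Vale.Agent.P365.C937 Vale.Agent.P365.J376 P365SH P365T1.H417 P365T1.ISL
open Matrix Complex MeasureTheory
open scoped ENNReal

/-- local coordinates of the site `a` of a box centred at `c` -/
def loc (c : Loc) (a : ℤ × ℤ) : Loc := (((c.1 : ℤ) + a.1).toNat, ((c.2 : ℤ) + a.2).toNat)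

/-- the cell of family `i`: box of radius `r` centred at `c` in the block, centre `y0`, frozen
potential `Vs`, windows of half width `w` -/
structure CellIn (D : V3) (i r : ℕ) (c : Loc) (y0 : ℤ × ℤ) (Vs : ℤ × ℤ → ℝ) (w : ℝ) : Prop where
  c1 : r + 1 ≤ c.1
  c1' : c.1 + r + 1 < D.m i
  c2 : r + 1 ≤ c.2
  c2' : c.2 + r + 1 < D.m i
  y1 : |y0.1| < r
  y2 : |y0.2| < r
  y_eq : D.y i = loc c y0
  win_mov : ∀ a ∈ Xr r, a ≠ y0 → ¬ D.mov (D.pat i (loc c a))
  win : ∀ a ∈ Xr r, a ≠ y0 → ∀ᵐ t ∂(D.ν (D.pat i (loc c a))), |t - Vs a| ≤ w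
  port : ∀ a ∈ Xr (r + 1), a ∉ Xr r → D.mov (D.pat i (loc c a))

/-- site of the torus with box coordinate `a` (`x` = centre `y0`) -/
def ph {N : ℕ} (x : Tor N) (y0 a : ℤ × ℤ) : Tor N := em x (a.1 - y0.1, a.2 - y0.2)

/-- interior of the cell without its centre -/
noncomputable def LcT {N : ℕ} (x : Tor N) (y0 : ℤ × ℤ) (r : ℕ) : Finset (Tor N) :=
  ((Xr r).erase y0).image (ph x y0)

/-- ports: the ring around the box -/
noncomputable def ST {N : ℕ} (x : Tor N) (y0 : ℤ × ℤ) (r : ℕ) : Finset (Tor N) :=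
  (Xr (r + 1) \ Xr r).image (ph x y0)

section geo

variable {N : ℕ} {x : Tor N} {y0 : ℤ × ℤ} {r : ℕ}

theorem ph_self : ph x y0 y0 = x := by
  unfold ph
  rw [sub_self, sub_self, em_zero]

theorem Xr_mono {r s : ℕ} (h : r ≤ s) {a : ℤ × ℤ} (ha : a ∈ Xr r) : a ∈ Xr s := by
  rw [mem_Xr] at ha ⊢
  omega

theorem ph_inj (hN : 2 * r + 2 < N) {a b : ℤ × ℤ} (ha : a ∈ Xr (r + 1)) (hb : b ∈ Xr (r + 1))
    (h : ph x y0 a = ph x y0 b) : a = b := by
  rw [mem_Xr] at ha hb
  push_cast at ha hb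
  have h1 := em_inj (x := x) (a := (a.1 - y0.1, a.2 - y0.2)) (b := (b.1 - y0.1, b.2 - y0.2))
    (by rw [abs_lt]; constructor <;> push_cast <;> omega)
    (by rw [abs_lt]; constructor <;> push_cast <;> omega) h
  have h2 := congrArg Prod.fst h1
  have h3 := congrArg Prod.snd h1
  simp only at h2 h3
  exact Prod.ext (by omega) (by omega)

theorem AT_ph (hN : 2 * r + 2 < N) {a b : ℤ × ℤ} (ha : a ∈ Xr r) (hb : b ∈ Xr r) :
    AT N (ph x y0 a) (ph x y0 b) = adjw a b := by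
  rw [mem_Xr] at ha hb
  have h1 : |(b.1 - y0.1) - (a.1 - y0.1)| + 1 < (N : ℤ) := by
    have : |(b.1 - y0.1) - (a.1 - y0.1)| < (N : ℤ) - 1 := by
      rw [abs_lt]; constructor <;> omega
    linarith
  have h2 : |(b.2 - y0.2) - (a.2 - y0.2)| + 1 < (N : ℤ) := by
    have : |(b.2 - y0.2) - (a.2 - y0.2)| < (N : ℤ) - 1 := by
      rw [abs_lt]; constructor <;> omega
    linarith
  have h := AT_em (x := x) (a := (a.1 - y0.1, a.2 - y0.2)) (b := (b.1 - y0.1, b.2 - y0.2)) h1 h2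
  rw [ph, ph, h, adjw, adjw]
  simp only [sub_sub_sub_cancel_right]

theorem AT_ph_ne {a : ℤ × ℤ} {z : Tor N} (h : AT N (ph x y0 a) z ≠ 0) :
    ∃ b ∈ nb4 a, z = ph x y0 b := by
  obtain ⟨b, hb, hz⟩ := AT_em_ne h
  refine ⟨(b.1 + y0.1, b.2 + y0.2), ?_, ?_⟩
  · simp only [nb4, Finset.mem_insert, Finset.mem_singleton] at hb ⊢
    rcases hb with rfl | rfl | rfl | rfl
    · left; exact Prod.ext (by simp only; ring) (by simp only; ring)
    · right; left; exact Prod.ext (by simp only; ring) (by simp only; ring)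
    · right; right; left; exact Prod.ext (by simp only; ring) (by simp only; ring)
    · right; right; right; exact Prod.ext (by simp only; ring) (by simp only; ring)
  · rw [hz, ph]
    simp only [add_sub_cancel_right]

theorem nb4_Xr {a b : ℤ × ℤ} (ha : a ∈ Xr r) (hb : b ∈ nb4 a) : b ∈ Xr (r + 1) := by
  rw [mem_Xr] at ha ⊢
  simp only [nb4, Finset.mem_insert, Finset.mem_singleton] at hb
  push_cast
  rcases hb with rfl | rfl | rfl | rfl <;> simp only <;> omega

theorem cbox (hN : 2 * r + 2 < N) (h1 : |y0.1| < r) (h2 : |y0.2| < r) :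
    CBox (AT N) x (LcT x y0 r) (ST x y0 r) := by
  have hy : y0 ∈ Xr r := by
    rw [mem_Xr]
    have := abs_lt.1 h1
    have := abs_lt.1 h2
    omega
  constructor
  · intro h
    obtain ⟨a, ha, hax⟩ := Finset.mem_image.1 h
    obtain ⟨hay, haX⟩ := Finset.mem_erase.1 ha
    refine hay (ph_inj (x := x) (y0 := y0) (r := r) (by omega) (Xr_mono (by omega) haX)
      (Xr_mono (by omega) hy) ?_)
    rw [hax, ph_self]
  · intro h
    obtain ⟨a, ha, hax⟩ := Finset.mem_image.1 h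
    obtain ⟨haX, har⟩ := Finset.mem_sdiff.1 ha
    refine har ?_
    rw [ph_inj (x := x) (y0 := y0) (r := r) (by omega) haX (Xr_mono (by omega) hy)
      (by rw [hax, ph_self])]
    exact hy
  · rw [Finset.disjoint_left]
    intro z hz hz'
    obtain ⟨a, ha, hax⟩ := Finset.mem_image.1 hz
    obtain ⟨b, hb, hbx⟩ := Finset.mem_image.1 hz'
    obtain ⟨hay, haX⟩ := Finset.mem_erase.1 ha
    obtain ⟨hbX, hbr⟩ := Finset.mem_sdiff.1 hb
    refine hbr ?_
    rw [ph_inj (x := x) (y0 := y0) (r := r) (by omega) hbX (Xr_mono (by omega) haX)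
      (by rw [hax, hbx])]
    exact haX
  · intro k hk
    by_contra hne
    have h3 : AT N (ph x y0 y0) k ≠ 0 := by rwa [ph_self]
    obtain ⟨b, hb, hkb⟩ := AT_ph_ne h3
    refine hk (Finset.mem_image.2 ⟨b, Finset.mem_erase.2 ⟨?_, ?_⟩, hkb.symm⟩)
    · rintro rfl
      have h4 := adjw_nb4 hb
      rw [adjw] at h4
      simp at h4
    · have := abs_lt.1 h1
      have := abs_lt.1 h2
      rw [mem_Xr]
      simp only [nb4, Finset.mem_insert, Finset.mem_singleton] at hb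
      rcases hb with rfl | rfl | rfl | rfl <;> simp only <;> omega
  · intro n hn k hk hky hkS
    by_contra hne
    obtain ⟨a, ha, hax⟩ := Finset.mem_image.1 hn
    obtain ⟨hay, haX⟩ := Finset.mem_erase.1 ha
    rw [← hax] at hne
    obtain ⟨b, hb, hkb⟩ := AT_ph_ne hne
    have hbX := nb4_Xr haX hb
    by_cases hbr : b ∈ Xr r
    · by_cases hby : b = y0
      · exact hky (by rw [hkb, hby, ph_self])
      · exact hk (Finset.mem_image.2 ⟨b, Finset.mem_erase.2 ⟨hby, hbr⟩, hkb.symm⟩)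
    · exact hkS (Finset.mem_image.2 ⟨b, Finset.mem_sdiff.2 ⟨hbX, hbr⟩, hkb.symm⟩)

theorem card_Xr' (r : ℕ) : (Xr r).card = (2 * r + 1) ^ 2 := by
  have : (box1 r).card = 2 * r + 1 := by rw [box1, Int.card_Icc]; omega
  rw [Xr, Finset.card_product, this]; ring

theorem card_ST_le : (ST x y0 r).card ≤ 8 * r + 8 := by
  refine Finset.card_image_le.trans ?_
  rw [Finset.card_sdiff_of_subset (fun a ha => Xr_mono (by omega) ha), card_Xr', card_Xr']
  have : (2 * (r + 1) + 1) ^ 2 = (2 * r + 1) ^ 2 + (8 * r + 8) := by ring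
  omega

theorem card_LcT_le : (LcT x y0 r).card ≤ (2 * r + 1) ^ 2 := by
  refine Finset.card_image_le.trans ?_
  rw [← card_Xr']
  exact Finset.card_le_card (Finset.erase_subset _ _)

end geo

section lab

variable {D : V3} {ρ : Measure ℝ} {N : ℕ} [NeZero N] {i r : ℕ} {c : Loc} {y0 : ℤ × ℤ}
  {Vs : ℤ × ℤ → ℝ} {w : ℝ}

/-- labels of a matched block on its cell -/
theorem CellIn.lab (hC : CellIn D i r c y0 Vs w) (hmN : D.m i ∣ N) {l : Tor N → D.Λ} {x : Tor N}
    (hx : D.cen i l x) {a : ℤ × ℤ} (ha : a ∈ Xr (r + 1)) :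
    l (ph x y0 a) = D.pat i (loc c a) := by
  obtain ⟨hM, hlc⟩ := hx
  have c1 := hC.c1
  have c1' := hC.c1'
  have c2 := hC.c2
  have c2' := hC.c2'
  have y1 := abs_lt.1 hC.y1
  have y2 := abs_lt.1 hC.y2
  rw [mem_Xr] at ha
  push_cast at ha
  rw [hC.y_eq] at hlc
  have e1 : ((lc (D.m i) x).1 : ℤ) = c.1 + y0.1 := by
    rw [hlc, loc]
    simp only
    rw [Int.toNat_of_nonneg (by omega)]
  have e2 : ((lc (D.m i) x).2 : ℤ) = c.2 + y0.2 := by
    rw [hlc, loc]
    simp only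
    rw [Int.toNat_of_nonneg (by omega)]
  have h := bi_lc_em (m := D.m i) (by omega) hmN x (d := (a.1 - y0.1, a.2 - y0.2))
    (by rw [e1]; simp only; omega) (by rw [e1]; simp only; omega)
    (by rw [e2]; simp only; omega) (by rw [e2]; simp only; omega)
  obtain ⟨h1, h2, h3⟩ := h
  rw [ph, hM _ h1]
  congr 1
  refine Prod.ext ?_ ?_
  · simp only [loc]
    rw [e1] at h2
    simp only at h2
    omega
  · simp only [loc]
    rw [e2] at h3
    simp only at h3
    omega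

theorem CellIn.N_gt (hC : CellIn D i r c y0 Vs w) (hmN : D.m i ∣ N) : 2 * r + 2 < N := by
  have h := Nat.le_of_dvd (Nat.pos_of_ne_zero (NeZero.ne N)) hmN
  have c1 := hC.c1
  have c1' := hC.c1'
  omega

/-- the profile is `b` on the interior of the cell -/
theorem CellIn.prof_Lc (hC : CellIn D i r c y0 Vs w) (h : D.Ok ρ) (hi : i ≤ D.I)
    (hmN : D.m i ∣ N) {l : Tor N → D.Λ} {x : Tor N} (hx : D.cen i l x) (s : ℝ) {z : Tor N}
    (hz : z ∈ LcT x y0 r) : D.prof (i + 1) s l z = D.b := by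
  obtain ⟨a, ha, rfl⟩ := Finset.mem_image.1 hz
  obtain ⟨hay, haX⟩ := Finset.mem_erase.1 ha
  have hl := hC.lab hmN hx (Xr_mono (show r ≤ r + 1 by omega) haX)
  have hm : ¬ D.mov (l (ph x y0 a)) := by
    rw [hl]
    exact hC.win_mov a haX hay
  unfold V3.prof V3.us
  rw [h.Ws_of_not_mov (by omega) hm, Finset.sum_eq_zero, add_zero, mul_zero, add_zero]
  intro j hj
  rw [Finset.mem_Ico] at hj
  rw [h.wf_of_not_mov (by omega) hm, mul_zero]

/-- ports are movable -/
theorem CellIn.mov_ST (hC : CellIn D i r c y0 Vs w) (hmN : D.m i ∣ N) {l : Tor N → D.Λ}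
    {x : Tor N} (hx : D.cen i l x) {z : Tor N} (hz : z ∈ ST x y0 r) : D.mov (l z) := by
  obtain ⟨a, ha, rfl⟩ := Finset.mem_image.1 hz
  obtain ⟨haX, har⟩ := Finset.mem_sdiff.1 ha
  rw [hC.lab hmN hx haX]
  exact hC.port a haX har

/-- upper bound of the profile -/
theorem prof_le (h : D.Ok ρ) (hi : i ≤ D.I) {ε : ℝ}
    (hε : D.b + (∑ j ∈ Finset.Ico (i + 1) (D.I + 1), D.e0 j) + 2 * D.e0 i ≤ ε) {s : ℝ}
    (hs : 0 ≤ s) (hs1 : s ≤ 1) (l : Tor N → D.Λ) (z : Tor N) : D.prof (i + 1) s l z ≤ ε := by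
  have h1 : D.us (i + 1) l z ≤ D.b + ∑ j ∈ Finset.Ico (i + 1) (D.I + 1), D.e0 j := by
    unfold V3.us
    refine add_le_add le_rfl (Finset.sum_le_sum fun j hj => ?_)
    rw [Finset.mem_Ico] at hj
    have h2 := h.wf_le (show j ≤ D.I by omega) l z
    have h3 := (h.e0_pos j (by omega)).le
    nlinarith
  have h2 : D.Ws (i + 1) l z ≤ 2 * D.e0 i := by
    have he := h.e0_pos i hi
    by_cases hm : D.mov (l z)
    · by_cases hc : D.cen i l z
      · exact (h.Ws_cen hi hc).2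
      · refine (h.Ws_bulk hi hm hc).2.trans ?_
        have h4 : Real.exp (-(D.a i)) ≤ 1 := Real.exp_le_one_iff.2 (by linarith [h.a_nonneg i hi])
        nlinarith
    · rw [h.Ws_of_not_mov (by omega) hm]
      positivity
  have h3 := h.Ws_nonneg (show i + 1 ≤ D.I + 1 by omega) l z
  unfold V3.prof
  nlinarith

/-- lower bound of the profile at the movable sites -/
theorem prof_ge_mov (h : D.Ok ρ) (hi : i ≤ D.I) {s : ℝ} (hs : D.t (i + 1) ≤ s)
    {l : Tor N → D.Λ} {z : Tor N} (hm : D.mov (l z)) :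
    D.t (i + 1) * (D.e0 i * Real.exp (-(D.a i))) ≤ D.prof (i + 1) s l z := by
  have h0 := h.t_pos (i + 1) (by omega)
  have he := h.e0_pos i hi
  have h4 : Real.exp (-(D.a i)) ≤ 1 := Real.exp_le_one_iff.2 (by linarith [h.a_nonneg i hi])
  have h5 := Real.exp_pos (-(D.a i))
  have h2 : D.e0 i * Real.exp (-(D.a i)) ≤ D.Ws (i + 1) l z := by
    by_cases hc : D.cen i l z
    · refine le_trans ?_ (h.Ws_cen hi hc).1
      nlinarith
    · exact (h.Ws_bulk hi hm hc).1
  have h3 := h.us_ge (i + 1) l z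
  have h6 := h.b_pos
  have h7 : 0 < D.e0 i * Real.exp (-(D.a i)) := mul_pos he h5
  unfold V3.prof
  have h8 : D.t (i + 1) * (D.e0 i * Real.exp (-(D.a i))) ≤ s * D.Ws (i + 1) l z :=
    mul_le_mul hs h2 h7.le (h0.le.trans hs)
  linarith

/-- almost every potential is in the windows of the cell -/
theorem CellIn.ae_win (hC : CellIn D i r c y0 Vs w) (h : D.Ok ρ) (hmN : D.m i ∣ N)
    {l : Tor N → D.Λ} {x : Tor N} (hx : D.cen i l x) :
    ∀ᵐ v ∂(Measure.pi fun z => D.ν (l z)), ∀ a ∈ Xr r, a ≠ y0 →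
      |v (ph x y0 a) - Vs a| ≤ w := by
  haveI := h.prob
  have h1 : ∀ a : ℤ × ℤ, ∀ᵐ v ∂(Measure.pi fun z => D.ν (l z)), a ∈ Xr r → a ≠ y0 →
      |v (ph x y0 a) - Vs a| ≤ w := by
    intro a
    by_cases ha : a ∈ Xr r ∧ a ≠ y0
    · have h2 := hC.win a ha.1 ha.2
      rw [← hC.lab hmN hx (Xr_mono (show r ≤ r + 1 by omega) ha.1)] at h2
      have h3 : MeasurePreserving (Function.eval (ph x y0 a)) (Measure.pi fun z => D.ν (l z))
          (D.ν (l (ph x y0 a))) := measurePreserving_eval _ _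
      have h4 := h3.quasiMeasurePreserving.ae h2
      filter_upwards [h4] with v hv _ _
      exact hv
    · refine Filter.Eventually.of_forall fun v h2 h3 => absurd ⟨h2, h3⟩ ha
  exact ae_all_iff.2 h1

end lab

end P365T1.Link
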