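import Mathlib

/-!
# P365 T1, insulated site lemma, step (6): transport of mass along one real line

`Side ρ κ η₀`: from every point `v` the density stays `≥ κ ρ(v)` on one side up to distance `η₀`.
-/

set_option linter.all false

namespace P365T1

namespace ISL963

open MeasureTheory Set
open scoped ENNReal

/-- one-sided lower regularity of a density -/
def Side (ρ : ℝ → ℝ) (κ η₀ : ℝ) : Prop :=
  ∀ v, ∃ σ : ℝ, (σ = 1 ∨ σ = -1) ∧ ∀ t, 0 ≤ t → t ≤ η₀ → κ * ρ v ≤ ρ (v + σ * t)

/-- translation-reflection of a lower integral over an interval -/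
theorem lint_shift {σ : ℝ} (hσ : σ = 1 ∨ σ = -1) (V a b : ℝ) (F : ℝ → ℝ≥0∞) :
    ∫⁻ t in Icc a b, F (V + σ * t) =
      ∫⁻ x, (if a ≤ σ * (x - V) ∧ σ * (x - V) ≤ b then F x else 0) := by
  have h1 : ∫⁻ t in Icc a b, F (V + σ * t) =
      ∫⁻ t, (if a ≤ t ∧ t ≤ b then F (V + σ * t) else 0) := by
    rw [← lintegral_indicator measurableSet_Icc]
    refine lintegral_congr fun t => ?_
    by_cases h : a ≤ t ∧ t ≤ b
    · rw [indicator_of_mem (show t ∈ Icc a b from h), if_pos h]
    · rw [indicator_of_notMem (show t ∉ Icc a b from h), if_neg h]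
  rw [h1]
  rcases hσ with rfl | rfl
  · have h2 := lintegral_add_left_eq_self (μ := (volume : Measure ℝ))
      (fun x => if a ≤ 1 * (x - V) ∧ 1 * (x - V) ≤ b then F x else 0) V
    rw [← h2]
    refine lintegral_congr fun t => ?_
    have e : (1 : ℝ) * (V + t - V) = t := by ring
    simp only [e, one_mul]
  · have h2 := lintegral_sub_left_eq_self (μ := (volume : Measure ℝ))
      (fun x => if a ≤ -1 * (x - V) ∧ -1 * (x - V) ≤ b then F x else 0) V
    rw [← h2]
    refine lintegral_congr fun t => ?_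
    have e : (-1 : ℝ) * (V - t - V) = t := by ring
    have e2 : V + -1 * t = V - t := by ring
    simp only [e, e2]

/-- kernel of the Tonelli argument -/
noncomputable def ker (S : Set ℝ) (d : ℝ → ℝ) (K σ : ℝ) (F : ℝ → ℝ≥0∞) (V x : ℝ) : ℝ≥0∞ :=
  S.indicator (fun V => ENNReal.ofReal (1 / d V) *
    (if K * d V ≤ σ * (x - V) ∧ σ * (x - V) ≤ 2 * K * d V then F x else 0)) V

theorem measurable_ker {S : Set ℝ} (hS : MeasurableSet S) {d : ℝ → ℝ} (hd : Measurable d)
    {K σ : ℝ} {F : ℝ → ℝ≥0∞} (hF : Measurable F) :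
    Measurable (Function.uncurry (ker S d K σ F)) := by
  have e : Function.uncurry (ker S d K σ F) =
      (Prod.fst ⁻¹' S : Set (ℝ × ℝ)).indicator (fun p : ℝ × ℝ =>
        ENNReal.ofReal (1 / d p.1) *
        (if K * d p.1 ≤ σ * (p.2 - p.1) ∧ σ * (p.2 - p.1) ≤ 2 * K * d p.1 then F p.2 else 0)) := by
    funext p
    rcases p with ⟨V, x⟩
    by_cases hV : V ∈ S
    · simp only [Function.uncurry, ker, indicator_of_mem hV]
      rw [indicator_of_mem (show ((V, x) : ℝ × ℝ) ∈ Prod.fst ⁻¹' S from hV)]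
    · simp only [Function.uncurry, ker, indicator_of_notMem hV]
      rw [indicator_of_notMem (show ((V, x) : ℝ × ℝ) ∉ Prod.fst ⁻¹' S from hV)]
  rw [e]
  have hd1 : Measurable fun p : ℝ × ℝ => d p.1 := hd.comp measurable_fst
  have hx : Measurable fun p : ℝ × ℝ => σ * (p.2 - p.1) :=
    (measurable_snd.sub measurable_fst).const_mul σ
  refine Measurable.indicator ?_ (measurable_fst hS)
  refine Measurable.mul ?_ ?_
  · exact ENNReal.measurable_ofReal.comp (measurable_const.div hd1)
  · refine Measurable.ite ?_ (hF.comp measurable_snd) measurable_const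
    exact MeasurableSet.inter (measurableSet_le (hd1.const_mul K) hx)
      (measurableSet_le hx (hd1.const_mul (2 * K)))

theorem lint_ker {S : Set ℝ} {d : ℝ → ℝ} {K σ : ℝ} (hσ : σ = 1 ∨ σ = -1) {F : ℝ → ℝ≥0∞}
    {V : ℝ} (hV : V ∈ S) :
    ∫⁻ x, ker S d K σ F V x =
      ENNReal.ofReal (1 / d V) * ∫⁻ t in Icc (K * d V) (2 * K * d V), F (V + σ * t) := by
  simp only [ker, indicator_of_mem hV]
  rw [lint_shift hσ, lintegral_const_mul']
  exact ENNReal.ofReal_ne_top

/-- Tonelli: at every point `x` the centres `V` which see `x` at scale `K d(V)` have total weight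
`∫ dV / d(V) ≤ 6` -/
theorem tonelli {S : Set ℝ} (hS : MeasurableSet S) {d : ℝ → ℝ} (hd : Measurable d) {x0 K σ : ℝ}
    (hσ : σ = 1 ∨ σ = -1) (hK : 4 ≤ K) (hd0 : ∀ V ∈ S, 0 < d V) (hdx : ∀ V ∈ S, |V - x0| ≤ d V)
    {F : ℝ → ℝ≥0∞} (hF : Measurable F) :
    ∫⁻ V, ∫⁻ x, ker S d K σ F V x ≤ 6 * ∫⁻ x, F x := by
  have hσ1 : |σ| = 1 := by rcases hσ with rfl | rfl <;> simp
  calc ∫⁻ V, ∫⁻ x, ker S d K σ F V x
      = ∫⁻ x, ∫⁻ V, ker S d K σ F V x :=
        lintegral_lintegral_swap (measurable_ker hS hd hF).aemeasurable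
    _ ≤ ∫⁻ x, 6 * F x := by
        refine lintegral_mono fun x => ?_
        set D : ℝ := |x - x0| with hD
        have hD0 : 0 ≤ D := abs_nonneg _
        have key : ∀ V, ker S d K σ F V x ≤
            (Icc (x0 - D / (K - 1)) (x0 + D / (K - 1))).indicator
              (fun _ => ENNReal.ofReal ((2 * K + 1) / D) * F x) V := by
          intro V
          unfold ker
          by_cases hV : V ∈ S
          · rw [indicator_of_mem hV]
            by_cases hc : K * d V ≤ σ * (x - V) ∧ σ * (x - V) ≤ 2 * K * d V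
            · rw [if_pos hc]
              have h0 := hd0 V hV
              have h1 := hdx V hV
              have h2 : |x - V| = σ * (x - V) := by
                have : |σ * (x - V)| = |x - V| := by rw [abs_mul, hσ1, one_mul]
                rw [← this, abs_of_nonneg (le_trans (by positivity) hc.1)]
              have h3 : |x - V| ≤ D + d V := by
                have : x - V = (x - x0) - (V - x0) := by ring
                rw [this]
                exact (abs_sub _ _).trans (by linarith)
              have h4 : D ≤ |x - V| + d V := by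
                have : x - x0 = (x - V) + (V - x0) := by ring
                rw [hD, this]
                exact (abs_add_le _ _).trans (by linarith)
              have h5 : (K - 1) * d V ≤ D := by nlinarith [hc.1]
              have h6 : D ≤ (2 * K + 1) * d V := by nlinarith [hc.2]
              have hDp : 0 < D := lt_of_lt_of_le (by nlinarith) h5
              have hm : V ∈ Icc (x0 - D / (K - 1)) (x0 + D / (K - 1)) := by
                have h7 : d V ≤ D / (K - 1) := by
                  rw [le_div_iff₀ (by linarith)]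
                  linarith
                have h8 := abs_le.1 (h1.trans h7)
                constructor <;> linarith [h8.1, h8.2]
              rw [indicator_of_mem hm]
              gcongr ?_ * _
              refine ENNReal.ofReal_le_ofReal ?_
              rw [div_le_div_iff₀ h0 hDp]
              linarith
            · rw [if_neg hc, mul_zero]
              exact zero_le
          · rw [indicator_of_notMem hV]
            exact zero_le
        refine (lintegral_mono key).trans ?_
        rw [lintegral_indicator measurableSet_Icc, setLIntegral_const, Real.volume_Icc]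
        have e : x0 + D / (K - 1) - (x0 - D / (K - 1)) = 2 * (D / (K - 1)) := by ring
        rw [e, mul_comm (ENNReal.ofReal ((2 * K + 1) / D)) (F x), mul_assoc, mul_comm (6 : ℝ≥0∞)]
        gcongr
        rw [← ENNReal.ofReal_mul (by positivity)]
        have h6 : (6 : ℝ≥0∞) = ENNReal.ofReal 6 := by norm_num
        rw [h6]
        refine ENNReal.ofReal_le_ofReal ?_
        rcases eq_or_lt_of_le hD0 with h | h
        · rw [← h]; norm_num
        · have hK1 : 0 < K - 1 := by linarith
          have : (2 * K + 1) / D * (2 * (D / (K - 1))) = 2 * (2 * K + 1) / (K - 1) := by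
            field_simp
          rw [this, div_le_iff₀ hK1]
          linarith
    _ = 6 * ∫⁻ x, F x := lintegral_const_mul _ hF

/-- **transport**: if `f(V) ≤ (c / d(V)) ∫_{K d}^{2 K d} g(V + σ t) dt` for both signs, then
`∫_S f dν ≤ (12 c / κ) ∫ g dν` -/
theorem transport {ν : Measure ℝ} {ρ : ℝ → ℝ} {κ η₀ : ℝ} (hκ : 0 < κ)
    (hρ : Measurable ρ) (hρ0 : ∀ v, 0 ≤ ρ v)
    (dens : ν = volume.withDensity fun v => ENNReal.ofReal (ρ v)) (hside : Side ρ κ η₀)
    {S : Set ℝ} (hS : MeasurableSet S) {d : ℝ → ℝ} (hd : Measurable d) {x0 K : ℝ}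
    (hK : 4 ≤ K) (hd0 : ∀ V ∈ S, 0 < d V) (hdx : ∀ V ∈ S, |V - x0| ≤ d V)
    (hdη : ∀ V ∈ S, 2 * K * d V ≤ η₀) {f g : ℝ → ℝ≥0∞} (hf : Measurable f) (hg : Measurable g)
    {c : ℝ} (hc : 0 ≤ c)
    (H : ∀ V ∈ S, ∀ σ : ℝ, (σ = 1 ∨ σ = -1) →
      f V ≤ ENNReal.ofReal (c / d V) * ∫⁻ t in Icc (K * d V) (2 * K * d V), g (V + σ * t)) :
    ∫⁻ V in S, f V ∂ν ≤ ENNReal.ofReal (12 * c / κ) * ∫⁻ V, g V ∂ν := by
  have hρE : Measurable fun v => ENNReal.ofReal (ρ v) := hρ.ennreal_ofReal
  set F : ℝ → ℝ≥0∞ := fun x => ENNReal.ofReal (ρ x) * g x with hFdef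
  have hF : Measurable F := hρE.mul hg
  have hI : ∫⁻ V, g V ∂ν = ∫⁻ x, F x := by
    rw [dens, lintegral_withDensity_eq_lintegral_mul _ hρE hg]
    rfl
  have hI2 : ∫⁻ V in S, f V ∂ν = ∫⁻ V in S, ENNReal.ofReal (ρ V) * f V := by
    rw [dens, restrict_withDensity hS, lintegral_withDensity_eq_lintegral_mul _ hρE hf]
    rfl
  rw [hI, hI2]
  have key : ∀ V ∈ S, ENNReal.ofReal (ρ V) * f V ≤ ENNReal.ofReal (c / κ) *
      ((∫⁻ x, ker S d K 1 F V x) + ∫⁻ x, ker S d K (-1) F V x) := by
    intro V hV
    have h0 := hd0 V hV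
    have one : ∀ σ : ℝ, (σ = 1 ∨ σ = -1) → (∀ t, 0 ≤ t → t ≤ η₀ → κ * ρ V ≤ ρ (V + σ * t)) →
        ENNReal.ofReal (ρ V) * f V ≤ ENNReal.ofReal (c / κ) *
      (ENNReal.ofReal (1 / d V) * ∫⁻ t in Icc (K * d V) (2 * K * d V), F (V + σ * t)) := by
      intro σ hσ hs
      calc ENNReal.ofReal (ρ V) * f V ≤ ENNReal.ofReal (ρ V) * (ENNReal.ofReal (c / d V) *
            ∫⁻ t in Icc (K * d V) (2 * K * d V), g (V + σ * t)) := by gcongr; exact H V hV σ hσ
        _ = ENNReal.ofReal (c / d V) *
            ∫⁻ t in Icc (K * d V) (2 * K * d V), ENNReal.ofReal (ρ V) * g (V + σ * t) := by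
            rw [lintegral_const_mul' _ _ ENNReal.ofReal_ne_top]
            ring
        _ ≤ ENNReal.ofReal (c / d V) *
            ∫⁻ t in Icc (K * d V) (2 * K * d V), ENNReal.ofReal (1 / κ) * F (V + σ * t) := by
            refine mul_le_mul' le_rfl ?_
            refine setLIntegral_mono' measurableSet_Icc fun t ht => ?_
            have ht0 : (0 : ℝ) ≤ t := le_trans (by positivity) ht.1
            have h1 := hs t ht0 (ht.2.trans (hdη V hV))
            have h2 : ENNReal.ofReal (ρ V) ≤ ENNReal.ofReal (1 / κ) *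
                ENNReal.ofReal (ρ (V + σ * t)) := by
              rw [← ENNReal.ofReal_mul (by positivity)]
              refine ENNReal.ofReal_le_ofReal ?_
              rw [one_div, ← div_eq_inv_mul, le_div_iff₀ hκ]
              linarith
            calc ENNReal.ofReal (ρ V) * g (V + σ * t) ≤ (ENNReal.ofReal (1 / κ) *
                ENNReal.ofReal (ρ (V + σ * t))) * g (V + σ * t) := by gcongr
              _ = ENNReal.ofReal (1 / κ) * F (V + σ * t) := by rw [hFdef, mul_assoc]
        _ = ENNReal.ofReal (c / κ) *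
            (ENNReal.ofReal (1 / d V) * ∫⁻ t in Icc (K * d V) (2 * K * d V), F (V + σ * t)) := by
            rw [lintegral_const_mul' _ _ ENNReal.ofReal_ne_top, ← mul_assoc, ← mul_assoc,
              ← ENNReal.ofReal_mul (by positivity), ← ENNReal.ofReal_mul (by positivity)]
            congr 2
            field_simp
    obtain ⟨σ, hσ, hs⟩ := hside V
    have h1 := one σ hσ hs
    rw [← lint_ker hσ hV] at h1
    rcases hσ with rfl | rfl
    · refine h1.trans ?_
      gcongr
      exact le_self_add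
    · refine h1.trans ?_
      gcongr
      exact le_add_self
  have hm1 : ∀ σ, Measurable fun V => ∫⁻ x, ker S d K σ F V x := fun σ =>
    (measurable_ker hS hd hF).lintegral_prod_right'
  calc ∫⁻ V in S, ENNReal.ofReal (ρ V) * f V
      ≤ ∫⁻ V in S, ENNReal.ofReal (c / κ) *
      ((∫⁻ x, ker S d K 1 F V x) + ∫⁻ x, ker S d K (-1) F V x) := setLIntegral_mono' hS key
    _ ≤ ∫⁻ V, ENNReal.ofReal (c / κ) *
      ((∫⁻ x, ker S d K 1 F V x) + ∫⁻ x, ker S d K (-1) F V x) := setLIntegral_le_lintegral _ _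
    _ = ENNReal.ofReal (c / κ) *
      ((∫⁻ V, ∫⁻ x, ker S d K 1 F V x) + ∫⁻ V, ∫⁻ x, ker S d K (-1) F V x) := by
        rw [lintegral_const_mul' _ _ ENNReal.ofReal_ne_top, lintegral_add_left (hm1 1)]
    _ ≤ ENNReal.ofReal (c / κ) * (6 * (∫⁻ x, F x) + 6 * ∫⁻ x, F x) := by
        gcongr
        · exact tonelli hS hd (Or.inl rfl) hK hd0 hdx hF
        · exact tonelli hS hd (Or.inr rfl) hK hd0 hdx hF
    _ = ENNReal.ofReal (12 * c / κ) * ∫⁻ x, F x := by
        have e : ENNReal.ofReal (12 * c / κ) = ENNReal.ofReal (c / κ) * 12 := by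
          have : (12 : ℝ≥0∞) = ENNReal.ofReal 12 := by norm_num
          rw [this, ← ENNReal.ofReal_mul (by positivity)]
          congr 1
          ring
        rw [e]
        ring

end ISL963

end P365T1
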