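import Vale.Agent.P365.ISL.Final701
import Vale.Agent.P365.ISL.Line755
import Vale.Agent.P365.C937.IslD

/-!
# P365-T1: THE INSULATED SITE LEMMA.
-/

set_option linter.all false

namespace P365T1.ISL

open P365L P365O P365T1 P365T1.OneVar P365T1.ISL37 P365T1.ISL755 Matrix Complex MeasureTheory Function
open scoped ComplexConjugate ENNReal

/-- the line gain in clean form -/
def GainClean (μp : Measure ℝ) (κy ay X g E : ℝ) : Prop :=
  ∃ Cg c0 : ℝ, 0 < Cg ∧ 0 < c0 ∧ ∀ νy : Measure ℝ, DensGe κy ay νy →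
    ∀ x0 ez ey q η1 R1 : ℝ, |x0| ≤ X → |E + x0| + g ≤ ay → 0 < ez → ez ≤ 1 / 2 → 0 < ey →
      0 ≤ η1 → ey + η1 ≤ q → q ≤ c0 → 1 / q ≤ R1 → 2 ≤ R1 →
      AbsLine μp νy E ez ey x0 η1 R1 (ENNReal.ofReal (Cg * Real.sqrt q))

theorem num_a {B q : ℝ} (hq : 0 < q) (h : B ≤ q) : B / q ^ 2 ≤ 1 / q := by
  rw [div_le_div_iff₀ (by positivity) hq]
  nlinarith

theorem num_b {e q : ℝ} (hq : 0 < q) (he : 0 < e) : 1 / (e + 1 / q) ≤ q := by
  have hQ : 0 < e + 1 / q := by positivity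
  rw [div_le_iff₀ hQ]
  have h1 : q * (1 / q) = 1 := by field_simp
  have h2 : 0 < q * e := by positivity
  rw [mul_add, h1]
  linarith

theorem num_c {e q C g : ℝ} (hC : 0 < C) (he : 0 < e) (hg : 0 < g)
    (hey : e + 1 / q ≤ 1 / C) (c6 : 2 / g ≤ C) : 2 / q + e ≤ g := by
  have h1 : 2 / q + e ≤ 2 / C := by
    have h2 := mul_le_mul_of_nonneg_left hey (show (0 : ℝ) ≤ 2 by norm_num)
    have h3 : 2 * (e + 1 / q) = 2 / q + 2 * e := by ring
    have h4 : 2 * (1 / C) = 2 / C := by ring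
    linarith
  have h2 : 2 / C ≤ g := by
    rw [div_le_iff₀ hC]
    have := mul_le_mul_of_nonneg_left c6 hg.le
    rw [mul_div_cancel₀ _ hg.ne'] at this
    linarith
  linarith

theorem num_d {Q κ Cg C k kk : ℝ} (hQ : 0 < Q) (hQ1 : Q ≤ 1) (hκ : 0 < κ) (hCg : 0 < Cg)
    (hk : 0 ≤ k) (hkk : k ≤ kk) (hkk1 : 1 ≤ kk) (c9 : 2 * (2 / κ + Cg) ≤ C) :
    2 * (2 * Q / κ + k * (Cg * Real.sqrt Q)) ≤ C * (kk * Real.sqrt Q) := by
  have hsq : Q ≤ Real.sqrt Q := by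
    refine Real.le_sqrt_of_sq_le ?_
    nlinarith
  have hs0 := Real.sqrt_nonneg Q
  have e2 : 2 * Q / κ ≤ (2 / κ) * (kk * Real.sqrt Q) := by
    have h1 : Q ≤ kk * Real.sqrt Q := by nlinarith
    calc 2 * Q / κ = (2 / κ) * Q := by ring
      _ ≤ (2 / κ) * (kk * Real.sqrt Q) := mul_le_mul_of_nonneg_left h1 (by positivity)
  have e3 : k * (Cg * Real.sqrt Q) ≤ Cg * (kk * Real.sqrt Q) := by
    have h1 : k * (Cg * Real.sqrt Q) ≤ kk * (Cg * Real.sqrt Q) :=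
      mul_le_mul_of_nonneg_right hkk (by positivity)
    linarith
  have h5 : 0 ≤ kk * Real.sqrt Q := by positivity
  calc 2 * (2 * Q / κ + k * (Cg * Real.sqrt Q)) ≤
      2 * ((2 / κ) * (kk * Real.sqrt Q) + Cg * (kk * Real.sqrt Q)) := by linarith
    _ = (2 * (2 / κ + Cg)) * (kk * Real.sqrt Q) := by ring
    _ ≤ C * (kk * Real.sqrt Q) := mul_le_mul_of_nonneg_right c9 h5

theorem num_e {X Y : ℝ} (hX : 0 ≤ X) (hY : 0 ≤ Y) (n : ℕ) :
    2 * (ENNReal.ofReal X + (n : ℝ≥0∞) * ENNReal.ofReal Y) =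
      ENNReal.ofReal (2 * (X + (n : ℝ) * Y)) := by
  have h1 : (n : ℝ≥0∞) * ENNReal.ofReal Y = ENNReal.ofReal ((n : ℝ) * Y) := by
    rw [ENNReal.ofReal_mul (Nat.cast_nonneg n), ENNReal.ofReal_natCast]
  rw [h1, ← ENNReal.ofReal_add hX (by positivity), ENNReal.ofReal_mul (by norm_num : (0 : ℝ) ≤ 2)]
  norm_num

/-- the insulated site lemma, entrywise, from the clean line gain -/
theorem isl_entry_of {μp : Measure ℝ} [IsProbabilityMeasure μp] {ρ : ℝ → ℝ}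
    {Lp δp mp κp Rp ηp : ℝ} (G : GLaw μp ρ Lp δp mp κp Rp ηp) {κy ay X g E : ℝ} (hκy : 0 < κy)
    (hg : 0 < g) (hgain : GainClean μp κy ay X g E) :
    ∃ C : ℝ, 1 ≤ C ∧ ∀ (ι : Type) [Fintype ι] [DecidableEq ι] (A : Matrix ι ι ℝ), A.IsSymm →
      ∀ (ν : ι → Measure ℝ) [∀ i, IsProbabilityMeasure (ν i)] (e : ι → ℝ), (∀ x, 0 < e x) →
      ∀ (y : ι) (S : Finset ι), y ∉ S → S.Nonempty → (∀ z ∈ S, ν z = μp) → DensGe κy ay (ν y) →
      ∀ T x0 dl q : ℝ, 0 ≤ T → (∀ z ∈ S, Real.exp (-T) ≤ e z) → (∀ z ∈ S, e z ≤ 1 / 2) →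
      0 ≤ dl → |x0| ≤ X → |E + x0| + g ≤ ay →
      (∀ᵐ v ∂(Measure.pi ν), Row A E e y S (x0 : ℂ) dl v) →
      1 ≤ q → C * (((S.card : ℝ) + 1) * (1 + T)) ≤ q ^ 2 →
      dl * (C * (((S.card : ℝ) + 1) ^ 4 * q ^ 5)) ≤ 1 → e y + 1 / q ≤ 1 / C →
      ∀ a : ι, ∫⁻ v, fa A E e y a {y} v ∂(Measure.pi ν) ≤
        ENNReal.ofReal (C * (((S.card : ℝ) + 1) * Real.sqrt (e y + 1 / q))) *
          ∫⁻ v, fa A E e y a ∅ v ∂(Measure.pi ν) := by
  obtain ⟨Cg, c0, hCg, hc0, hgain⟩ := hgain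
  have hLp : 0 ≤ Lp := G.hL
  have hK0 := K0_nonneg G E
  have hK1 := K1_nonneg G E
  have hK2 := K2_nonneg G E
  set L := Lp + |E| with hL
  have hL0 : 0 ≤ L := by positivity
  set hb : ℝ := |X| + 2 with hhb
  have hb0 : 0 ≤ hb := by positivity
  have hB1 := B1c_nonneg (L := L) hL0 (K2 Lp δp mp κp Rp ηp E)
  have hB2 := B2c_nonneg (L := L) (hb := hb) hL0 hb0
  have hcp := cpc_nonneg L
  set B3 : ℝ := 2 * hb * (1 + B2c L hb) + 1 with hB3
  have hB3n : 0 ≤ B3 := by positivity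
  set C : ℝ := 2 + 16 * (K0 Lp δp mp E * K1 Lp Rp E) + 2 * (1 + B2c L hb) +
    B1c L (K2 Lp δp mp κp Rp ηp E) + (2 * hb * cpc L + 1) + 2 * cpc L + 2 / g + B3 + 1 / c0 +
    2 * (2 / κy + Cg) with hC
  have hC1 : 2 ≤ C := by rw [hC]; have : 0 ≤ 2 / g := by positivity
                         have : 0 ≤ 1 / c0 := by positivity
                         have : 0 ≤ 2 / κy := by positivity
                         have : 0 ≤ K0 Lp δp mp E * K1 Lp Rp E := by positivity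
                         have : 0 ≤ hb * cpc L := by positivity
                         linarith
  have a1 : 0 ≤ 2 / g := by positivity
  have a2 : 0 ≤ 1 / c0 := by positivity
  have a3 : 0 ≤ 2 / κy := by positivity
  have a4 : 0 ≤ K0 Lp δp mp E * K1 Lp Rp E := by positivity
  have a5 : 0 ≤ hb * cpc L := by positivity
  have c1 : 16 * (K0 Lp δp mp E * K1 Lp Rp E) ≤ C := by rw [hC]; linarith
  have c2 : 2 * (1 + B2c L hb) ≤ C := by rw [hC]; linarith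
  have c3 : B1c L (K2 Lp δp mp κp Rp ηp E) ≤ C := by rw [hC]; linarith
  have c4 : 2 * hb * cpc L + 1 ≤ C := by rw [hC]; linarith
  have c5 : 2 * cpc L ≤ C := by rw [hC]; linarith
  have c6 : 2 / g ≤ C := by rw [hC]; linarith
  have c7 : B3 ≤ C := by rw [hC]; linarith
  have c8 : 1 / c0 ≤ C := by rw [hC]; linarith
  have c9 : 2 * (2 / κy + Cg) ≤ C := by rw [hC]; linarith
  clear_value C
  have hC0 : 0 < C := by linarith
  refine ⟨C, by linarith, ?_⟩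
  intro ι _ _ A hA ν _ e he y S hyS hSne hνS hνy T x0 dl q hT heT he2 hdl hx0 hay hrow hq1 hqT hdq
    hey a
  have hkk0 : 0 ≤ (S.card : ℝ) := Nat.cast_nonneg _
  set kk : ℝ := (S.card : ℝ) + 1 with hkk
  have hkk1 : 1 ≤ kk := by rw [hkk]; linarith
  have hq0 : 0 < q := by linarith
  have heyp := he y
  have hqC : C ≤ q := by
    have h1 : 1 / q ≤ 1 / C := by linarith
    exact (one_div_le_one_div hq0 hC0).1 h1
  have hqq : q ≤ q ^ 2 := by nlinarith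
  have hQ : 0 < e y + 1 / q := by positivity
  have hQ1 : e y + 1 / q ≤ 1 := hey.trans (by rw [div_le_one hC0]; linarith)
  -- powers
  have p1 : 1 ≤ kk ^ 4 := one_le_pow₀ hkk1
  have p2 : kk ≤ kk ^ 4 := by
    calc kk = kk ^ 1 := (pow_one _).symm
      _ ≤ kk ^ 4 := pow_le_pow_right₀ hkk1 (by norm_num)
  have p3 : q ^ 4 ≤ q ^ 5 := pow_le_pow_right₀ hq1 (by norm_num)
  have p4 : q ^ 3 ≤ q ^ 5 := pow_le_pow_right₀ hq1 (by norm_num)
  have p5 : q ^ 2 ≤ q ^ 5 := pow_le_pow_right₀ hq1 (by norm_num)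
  have mono : ∀ {u w : ℝ}, 0 ≤ u → u ≤ C → 0 ≤ w → w ≤ kk ^ 4 * q ^ 5 → dl * (w * u) ≤ 1 := by
    intro u w hu huC hw hw2
    refine le_trans ?_ hdq
    refine mul_le_mul_of_nonneg_left ?_ hdl
    calc w * u ≤ (kk ^ 4 * q ^ 5) * C := mul_le_mul hw2 huC hu (by positivity)
      _ = C * (kk ^ 4 * q ^ 5) := by ring
  have hGS : ∀ z ∈ S, GLaw (ν z) ρ Lp δp mp κp Rp ηp := by
    intro z hz
    rw [hνS z hz]
    exact G
  have hline : ∀ z ∈ S, LineGain A ν E e y a z (q ^ 6) ((2 * hb * (1 + B2c L hb) + 1) / q ^ 2)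
      (x0 : ℂ) (ENNReal.ofReal (Cg * Real.sqrt (e y + 1 / q))) := by
    intro z hz c hc
    have hyz : y ≠ z := by
      rintro rfl
      exact hyS hz
    refine hline_of ν hA he hyz ?_ c hc
    rw [hνS z hz]
    refine hgain (ν y) hνy x0 (e z) (e y) (e y + 1 / q) _ _ hx0 hay (he z) (he2 z hz) (he y)
      (by positivity) ?_ ?_ ?_ ?_
    · -- η1 ≤ 1/q
      rw [← hB3]
      exact add_le_add le_rfl (num_a hq0 (c7.trans hqC))
    · refine hey.trans ?_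
      rw [div_le_iff₀ hC0]
      have := mul_le_mul_of_nonneg_left c8 hc0.le
      rw [mul_one_div_cancel hc0.ne'] at this
      exact this
    · -- 1/q' ≤ q^6
      refine (num_b hq0 heyp).trans ?_
      calc q = q ^ 1 := (pow_one _).symm
        _ ≤ q ^ 6 := pow_le_pow_right₀ hq1 (by norm_num)
    · calc (2 : ℝ) ≤ q := hC1.trans hqC
        _ = q ^ 1 := (pow_one _).symm
        _ ≤ q ^ 6 := pow_le_pow_right₀ hq1 (by norm_num)
  have key := isl_param (a := a) (x0 := x0) (hb := hb) hA he hyS hSne hGS hκy hνy hT heT he2 hdl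
    (by
      rw [hhb]
      have := le_abs_self X
      linarith) hrow (K2 := K2 Lp δp mp κp Rp ηp E) rfl (kk := kk) hkk (by linarith)
    (q := q) (by
      calc 16 * (kk * (K0 Lp δp mp E * (K1 Lp Rp E * (1 + T)))) =
          (16 * (K0 Lp δp mp E * K1 Lp Rp E)) * (kk * (1 + T)) := by ring
        _ ≤ C * (kk * (1 + T)) := by gcongr
        _ ≤ q ^ 2 := hqT)
    (by linarith)
    (mono hB1 c3 (by positivity) le_rfl)
    (mono (by positivity) c4 (by positivity) (mul_le_mul p2 p3 (by positivity) (by positivity)))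
    (by
      have := mono (u := 2 * cpc L) (w := kk * q ^ 3) (by positivity) c5 (by positivity)
        (mul_le_mul p2 p4 (by positivity) (by positivity))
      linarith)
    (by
      rw [le_div_iff₀ (by positivity)]
      have := mono (u := 1) (w := q ^ 2) (by norm_num) (by linarith) (by positivity) (by
        calc q ^ 2 = 1 * q ^ 2 := (one_mul _).symm
          _ ≤ kk ^ 4 * q ^ 5 := mul_le_mul p1 p5 (by positivity) (by positivity))
      linarith)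
    (by
      have h1 := num_c hC0 heyp hg hey c6
      rw [add_assoc]
      exact (add_le_add le_rfl h1).trans hay) hline
  refine key.trans ?_
  rw [← mul_assoc]
  gcongr
  -- the constant
  set Q := e y + 1 / q with hQdef
  rw [num_e (by positivity) (by positivity)]
  exact ENNReal.ofReal_le_ofReal (num_d hQ hQ1 hκy hCg hkk0 (by rw [hkk]; linarith) hkk1 c9)

/-- **the insulated site lemma** in the form of the hub inequality, from the clean line gain -/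
theorem isl_Yf_of {μp : Measure ℝ} [IsProbabilityMeasure μp] {ρ : ℝ → ℝ}
    {Lp δp mp κp Rp ηp : ℝ} (G : GLaw μp ρ Lp δp mp κp Rp ηp) {κy ay X g E : ℝ} (hκy : 0 < κy)
    (hg : 0 < g) (hgain : GainClean μp κy ay X g E) :
    ∃ C : ℝ, 1 ≤ C ∧ ∀ (ι : Type) [Fintype ι] [DecidableEq ι] (A : Matrix ι ι ℝ), A.IsSymm →
      ∀ (ν : ι → Measure ℝ) [∀ i, IsProbabilityMeasure (ν i)] (e : ι → ℝ), (∀ x, 0 < e x) →
      ∀ (y : ι) (S : Finset ι), y ∉ S → S.Nonempty → (∀ z ∈ S, ν z = μp) → DensGe κy ay (ν y) →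
      ∀ T x0 dl q : ℝ, 0 ≤ T → (∀ z ∈ S, Real.exp (-T) ≤ e z) → (∀ z ∈ S, e z ≤ 1 / 2) →
      0 ≤ dl → |x0| ≤ X → |E + x0| + g ≤ ay →
      (∀ᵐ v ∂(Measure.pi ν), Row A E e y S (x0 : ℂ) dl v) →
      1 ≤ q → C * (((S.card : ℝ) + 1) * (1 + T)) ≤ q ^ 2 →
      dl * (C * (((S.card : ℝ) + 1) ^ 4 * q ^ 5)) ≤ 1 → e y + 1 / q ≤ 1 / C →
      ∀ f : ι → ℝ, ∫⁻ v, ENNReal.ofReal (Yf A (WV E e v) f y) ∂(Measure.pi ν) ≤
        ENNReal.ofReal (C * (((S.card : ℝ) + 1) * Real.sqrt (e y + 1 / q))) *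
          ∫⁻ v, ENNReal.ofReal (Mf A (WV E e v) f y) ∂(Measure.pi ν) := by
  obtain ⟨C, hC, h⟩ := isl_entry_of G hκy hg hgain
  refine ⟨2 * C, by linarith, ?_⟩
  intro ι _ _ A hA ν _ e he y S hyS hSne hνS hνy T x0 dl q hT heT he2 hdl hx0 hay hrow hq1 hqT hdq
    hey f
  have hC0 : 0 < C := by linarith
  have hkk0 : 0 ≤ (S.card : ℝ) := Nat.cast_nonneg _
  have hq0 : 0 < q := by linarith
  have h1 := h ι A hA ν e he y S hyS hSne hνS hνy T x0 dl q hT heT he2 hdl hx0 hay hrow hq1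
    (le_trans (by
      have : 0 ≤ C * (((S.card : ℝ) + 1) * (1 + T)) := by positivity
      linarith) hqT)
    (le_trans (by
      have : 0 ≤ dl * (C * (((S.card : ℝ) + 1) ^ 4 * q ^ 5)) := by positivity
      linarith) hdq)
    (hey.trans (one_div_le_one_div_of_le hC0 (by linarith)))
  have h2 := Yf_le_of_fa (ν := ν) hA he f (fun a _ => h1 a)
  refine h2.trans (le_of_eq ?_)
  rw [show (2 : ℝ≥0∞) = ENNReal.ofReal 2 by norm_num, ← ENNReal.ofReal_mul (by norm_num)]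
  congr 2
  ring

theorem gainClean_of {μp : Measure ℝ} [IsFiniteMeasure μp] {ρ : ℝ → ℝ} {L R κ η₀ δ m : ℝ}
    (P : P365T1.Isl.PLaw μp ρ L R κ η₀ δ m) {κy ay X g E : ℝ} (hκy : 0 < κy) (hE : |E| ≤ X)
    (hg : 0 < g) : GainClean μp κy ay X g E := by
  have hX : 0 ≤ X := (abs_nonneg E).trans hE
  obtain ⟨Cg, c₀, h1, h2, h3⟩ := P365T1.Isl.gain_clean (ay := ay) P.hL P.hR P.hκ P.hη P.hδ P.hm
    hκy hX hg
  refine ⟨Cg, c₀, h1, h2, ?_⟩
  intro νy hνy x0 ez ey q η1 R1 hx0 hay hez hez2 hey hη1 hq hqc hR1 hR12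
  exact h3 μp νy ρ P hνy E ez ey x0 η1 R1 q hE hx0 hay hez hez2 hey hη1 hq hqc hR1 hR12

/-- **THE INSULATED SITE LEMMA** -/
theorem isl {μp : Measure ℝ} [IsProbabilityMeasure μp] {ρ ρ' : ℝ → ℝ}
    {Lp δp mp κp Rp ηp : ℝ} (G : GLaw μp ρ Lp δp mp κp Rp ηp)
    {L R κ η₀ δ m : ℝ} (P : P365T1.Isl.PLaw μp ρ' L R κ η₀ δ m)
    {κy ay X g E : ℝ} (hκy : 0 < κy) (hE : |E| ≤ X) (hg : 0 < g) :
    ∃ C : ℝ, 1 ≤ C ∧ ∀ (ι : Type) [Fintype ι] [DecidableEq ι] (A : Matrix ι ι ℝ), A.IsSymm →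
      ∀ (ν : ι → Measure ℝ) [∀ i, IsProbabilityMeasure (ν i)] (e : ι → ℝ), (∀ x, 0 < e x) →
      ∀ (y : ι) (S : Finset ι), y ∉ S → S.Nonempty → (∀ z ∈ S, ν z = μp) → DensGe κy ay (ν y) →
      ∀ T x0 dl q : ℝ, 0 ≤ T → (∀ z ∈ S, Real.exp (-T) ≤ e z) → (∀ z ∈ S, e z ≤ 1 / 2) →
      0 ≤ dl → |x0| ≤ X → |E + x0| + g ≤ ay →
      (∀ᵐ v ∂(Measure.pi ν), Row A E e y S (x0 : ℂ) dl v) →
      1 ≤ q → C * (((S.card : ℝ) + 1) * (1 + T)) ≤ q ^ 2 →
      dl * (C * (((S.card : ℝ) + 1) ^ 4 * q ^ 5)) ≤ 1 → e y + 1 / q ≤ 1 / C →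
      ∀ f : ι → ℝ, ∫⁻ v, ENNReal.ofReal (Yf A (WV E e v) f y) ∂(Measure.pi ν) ≤
        ENNReal.ofReal (C * (((S.card : ℝ) + 1) * Real.sqrt (e y + 1 / q))) *
          ∫⁻ v, ENNReal.ofReal (Mf A (WV E e v) f y) ∂(Measure.pi ν) :=
  isl_Yf_of G hκy hg (gainClean_of P hκy hE hg)

end P365T1.ISL
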