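import Vale.Agent.P365.ISL.RowT77
import Vale.Agent.P365.ISL.Isl

/-!
# P365-T1: the centre hub `V3.HC` from the insulated site lemma
-/

set_option linter.all false

namespace P365T1.Link

open P365L P365O P365T1 Vale.Agent.P365.C937 Vale.Agent.P365.J376 P365SH P365T1.H417 P365T1.ISL
open Matrix Complex MeasureTheory
open scoped ENNReal

/-- the insulated site lemma for the port law `μ` (701's final statement) -/
def IslFin (μ : Measure ℝ) (E X g κy ay C : ℝ) : Prop :=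
  ∀ (ι : Type) [Fintype ι] [DecidableEq ι] (A : Matrix ι ι ℝ) (ν : ι → Measure ℝ)
    [∀ i, IsProbabilityMeasure (ν i)] (e : ι → ℝ) (y : ι) (S : Finset ι) (x0 T δ q : ℝ),
    A.IsSymm → (∀ x, 0 < e x) → y ∉ S → S.Nonempty → (∀ z ∈ S, ν z = μ) →
    DensGe κy ay (ν y) → 0 ≤ T → (∀ z ∈ S, Real.exp (-T) ≤ e z) → (∀ z ∈ S, e z ≤ 1 / 2) →
    |x0| ≤ X → |E + x0| + g ≤ ay → 0 ≤ δ →
    (∀ᵐ v ∂(Measure.pi ν), Row A E e y S x0 δ v) →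
    C * ((S.card : ℝ) + 1) * (1 + T) ≤ q ^ 2 → δ * (C * ((S.card : ℝ) + 1) ^ 4 * q ^ 5) ≤ 1 →
    e y + 1 / q ≤ 1 / C → 1 ≤ q → ∀ f : ι → ℝ,
    ∫⁻ v, ENNReal.ofReal (Yf A (WV E e v) f y) ∂(Measure.pi ν) ≤
      ENNReal.ofReal (C * ((S.card : ℝ) + 1) * Real.sqrt (e y + 1 / q)) *
        ∫⁻ v, ENNReal.ofReal (Mf A (WV E e v) f y) ∂(Measure.pi ν)

/-- 701's theorem in this form -/
theorem islFin {μp : Measure ℝ} [IsProbabilityMeasure μp] {ρ ρ' : ℝ → ℝ}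
    {Lp δp mp κp Rp ηp : ℝ} (G : P365T1.OneVar.GLaw μp ρ Lp δp mp κp Rp ηp)
    {L R κ η₀ δ m : ℝ} (P : P365T1.Isl.PLaw μp ρ' L R κ η₀ δ m)
    {κy ay X g E : ℝ} (hκy : 0 < κy) (hE : |E| ≤ X) (hg : 0 < g) :
    ∃ C : ℝ, 1 ≤ C ∧ IslFin μp E X g κy ay C := by
  obtain ⟨C, hC, h⟩ := isl (ay := ay) G P hκy hE hg
  refine ⟨C, hC, ?_⟩
  intro ι _ _ A ν _ e y S x0 T dl q hA he hyS hSne hνS hνy hT heT he2 hx0 hay hdl hrow h1 h2 h3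
    hq f
  have h4 := h ι A hA ν e he y S hyS hSne hνS hνy T x0 dl q hT heT he2 hdl hx0 hay hrow hq
    (by rw [← mul_assoc]; exact h1)
    (by
      have : C * (((S.card : ℝ) + 1) ^ 4 * q ^ 5) = C * ((S.card : ℝ) + 1) ^ 4 * q ^ 5 := by ring
      rw [this]; exact h2) h3 f
  rw [← mul_assoc] at h4
  exact h4

section hc

variable {D : V3} {ρ : Measure ℝ} {N : ℕ} [NeZero N] {i r : ℕ} {c : Loc} {y : Xr r}
  {Vs : ℤ × ℤ → ℝ} {w E lam' κ : ℝ} {ms R0 : ℕ}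

theorem ST_nonempty (hN : 2 * r + 2 < N) (x : Tor N) (y0 : ℤ × ℤ) : (ST x y0 r).Nonempty := by
  refine ⟨ph x y0 ((r : ℤ) + 1, 0), Finset.mem_image.2 ⟨((r : ℤ) + 1, 0), ?_, rfl⟩⟩
  rw [Finset.mem_sdiff, mem_Xr, mem_Xr]
  push_cast
  omega

/-- **the centre hub** -/
theorem hc_of_isl {μ : Measure ℝ} {X g κy ay C : ℝ} (hisl : IslFin μ E X g κy ay C)
    (hC1 : 1 ≤ C) (hcell : CellIn D i r c (y : ℤ × ℤ) Vs w) (h : D.Ok ρ) (hi : i ≤ D.I)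
    (hmN : D.m i ∣ N) (hG : CellGood E lam' κ ms R0 r Vs y) (hw : 0 ≤ w)
    (hlaw : ∀ k, D.mov k → D.ν k = μ) (hdens : DensGe κy ay μ)
    (hX : lam' + |E| ≤ X) (hg : lam' + g ≤ ay)
    (hu : 2 * (w + D.b) * (2 * (r : ℝ) + 1) ^ (ms + 2) ≤ 1) {δ : ℝ}
    (hδ1 : 32 * (2 * (r : ℝ) + 1) ^ ms * κ ^ (r - R0) ≤ δ)
    (hδ2 : 32 * (2 * (r : ℝ) + 1) ^ (2 * ms + 2) * (w + D.b) ≤ δ)
    {ε : ℝ} (hε : D.b + (∑ j ∈ Finset.Ico (i + 1) (D.I + 1), D.e0 j) + 2 * D.e0 i ≤ ε)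
    (hε2 : ε ≤ 1 / 2) {T : ℝ} (hT : 0 ≤ T)
    (hT2 : Real.exp (-T) ≤ D.t (i + 1) * (D.e0 i * Real.exp (-(D.a i))))
    {q : ℝ} (hq1 : 1 ≤ q) (hq2 : C * (8 * (r : ℝ) + 9) * (1 + T) ≤ q ^ 2)
    (hq3 : δ * (C * (8 * (r : ℝ) + 9) ^ 4 * q ^ 5) ≤ 1) (hq4 : ε + 1 / q ≤ 1 / C)
    {ηc : ℝ} (hη : C * (8 * (r : ℝ) + 9) * Real.sqrt (ε + 1 / q) ≤ ηc)
    {s : ℝ} (hs : D.t (i + 1) ≤ s) (hs1 : s ≤ 1) : D.HC N E i s ηc := by
  intro l x hx k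
  haveI := h.prob
  have hN := hcell.N_gt hmN
  have hs0 : 0 ≤ s := (h.t_pos (i + 1) (by omega)).le.trans hs
  have hcb := cbox (x := x) hN hcell.y1 hcell.y2
  have hδ0 : 0 ≤ δ := le_trans (by have := hG.hκ; positivity) hδ1
  have hcard : ((ST x (y : ℤ × ℤ) r).card : ℝ) + 1 ≤ 8 * (r : ℝ) + 9 := by
    have := card_ST_le (x := x) (y0 := (y : ℤ × ℤ)) (r := r)
    have h2 : ((ST x (y : ℤ × ℤ) r).card : ℝ) ≤ 8 * r + 8 := by exact_mod_cast this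
    linarith
  have hcard0 : (0 : ℝ) ≤ ((ST x (y : ℤ × ℤ) r).card : ℝ) + 1 := by positivity
  have hC0 : 0 ≤ C := by linarith
  have hprofx := prof_le h hi hε hs0 hs1 l x
  have hpos : ∀ z, 0 < D.prof (i + 1) s l z := fun z => h.prof_pos (by omega) hs0 l z
  have hsE := hG.sE_le
  have hsq : D.prof (i + 1) s l x + 1 / q ≤ ε + 1 / q := by linarith
  have main := hisl (Tor N) (AT N) (fun z => D.ν (l z)) (D.prof (i + 1) s l) x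
    (ST x (y : ℤ × ℤ) r) (sE r Vs E y - E) T δ q (AT_symm N) hpos hcb.yS
    (ST_nonempty hN x _) (fun z hz => hlaw _ (hcell.mov_ST hmN hx hz))
    (by
      have := hlaw (l x) (h.cen_mov hi hx)
      show DensGe κy ay (D.ν (l x))
      rw [this]; exact hdens)
    hT (fun z hz => hT2.trans (prof_ge_mov h hi hs (hcell.mov_ST hmN hx hz)))
    (fun z hz => (prof_le h hi hε hs0 hs1 l z).trans hε2)
    ((abs_sub _ _).trans (by linarith)) (by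
      have : E + (sE r Vs E y - E) = sE r Vs E y := by ring
      rw [this]; linarith) hδ0 (hcell.row_ae h hi hmN hG hw hu hδ1 hδ2 hx hs0)
    (le_trans (by gcongr) hq2) (le_trans (by gcongr) hq3) (hsq.trans hq4) hq1 (phi N k)
  refine main.trans (mul_le_mul' (ENNReal.ofReal_le_ofReal (le_trans ?_ hη)) le_rfl)
  have h1 : Real.sqrt (D.prof (i + 1) s l x + 1 / q) ≤ Real.sqrt (ε + 1 / q) :=
    Real.sqrt_le_sqrt hsq
  have h2 := Real.sqrt_nonneg (D.prof (i + 1) s l x + 1 / q)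
  gcongr

end hc

end P365T1.Link
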