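import Vale.Agent.P365.ISL.Line755
import Vale.Agent.P365.C937.IslC

/-!
# P365 T1, insulated site lemma: the line hypothesis of `isl_core`, with parameters

`R₁ ≥ q⁴`, `η₁ ≤ c₁ / q²` : `cb = Ch √(e y + 1 / q²)`.
-/

set_option linter.all false

namespace P365T1.ISL755

open P365L P365O P365T1 P365T1.OneVar P365T1.ISL P365T1.Isl Complex MeasureTheory Function
open scoped ComplexConjugate ENNReal

variable {ι : Type*} [Fintype ι] [DecidableEq ι] {A : Matrix ι ι ℝ}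

/-- `AbsLine` is monotone in `cb` -/
theorem AbsLine.mono {νz νy : Measure ℝ} {E ez ey x0 η1 R1 : ℝ} {cb cb' : ℝ≥0∞}
    (h : AbsLine νz νy E ez ey x0 η1 R1 cb) (hc : cb ≤ cb') :
    AbsLine νz νy E ez ey x0 η1 R1 cb' := fun a b c d e f g k l =>
  (h a b c d e f g k l).trans (mul_le_mul' hc le_rfl)

/-- with `R₁` larger and `η₁` smaller -/
theorem AbsLine.anti {νz νy : Measure ℝ} {E ez ey x0 η1 R1 η1' R1' : ℝ} {cb : ℝ≥0∞}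
    (h : AbsLine νz νy E ez ey x0 η1 R1 cb) (hη : η1' ≤ η1) (hR : R1 ≤ R1') :
    AbsLine νz νy E ez ey x0 η1' R1' cb := by
  intro a b c d e f g k l
  refine le_trans (lintegral_mono_set ?_) (h a b c d e f g k (l.trans hη))
  intro t ht
  exact lt_of_le_of_lt hR ht

/-- elementary facts on `S = ey + 1 / q ^ 2` -/
theorem sfacts {ey q g : ℝ} (hey : 0 < ey) (heye : ey ≤ min (1 / 2) ((g / 8) ^ 2 / 2))
    (hq2 : 2 ≤ q) (hg : 0 < g) (hqg : 16 / g ≤ q) :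
    0 < ey + 1 / q ^ 2 ∧ 0 < √(ey + 1 / q ^ 2) ∧ ey + 1 / q ^ 2 ≤ √(ey + 1 / q ^ 2) ∧
      √(ey + 1 / q ^ 2) ≤ 1 ∧ √(ey + 1 / q ^ 2) ≤ g / 8 ∧ 1 / √(ey + 1 / q ^ 2) ≤ q := by
  have hq0 : 0 < q := by linarith
  have hg8 : 0 < g / 8 := by positivity
  have hp : 0 < 1 / q ^ 2 := by positivity
  have h4 : (2 : ℝ) ^ 2 ≤ q ^ 2 := pow_le_pow_left₀ (by norm_num) hq2 2
  have h1q : 1 / q ^ 2 ≤ 1 / 4 := by
    refine one_div_le_one_div_of_le (by norm_num) ?_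
    linarith
  have h3 : 16 ≤ q * g := by
    have := mul_le_mul_of_nonneg_right hqg hg.le
    rwa [div_mul_cancel₀ _ hg.ne'] at this
  have h5 : (16 : ℝ) ^ 2 ≤ (q * g) ^ 2 := pow_le_pow_left₀ (by norm_num) h3 2
  have h1q' : 1 / q ^ 2 ≤ (g / 8) ^ 2 / 4 := by
    rw [div_le_iff₀ (by positivity)]
    have h6 : (g / 8) ^ 2 / 4 * q ^ 2 = (q * g) ^ 2 / 256 := by ring
    rw [h6]
    linarith
  set S : ℝ := ey + 1 / q ^ 2 with hS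
  have hS0 : 0 < S := by linarith
  have hS1 : S ≤ 1 := by
    have := heye.trans (min_le_left _ _)
    linarith
  have hSg : S ≤ (g / 8) ^ 2 := by
    have := heye.trans (min_le_right _ _)
    have h5 : 0 ≤ (g / 8) ^ 2 := sq_nonneg _
    linarith
  have hsq0 : 0 < √S := Real.sqrt_pos.2 hS0
  have hsq1 : √S ≤ 1 := by
    rw [show (1 : ℝ) = √1 from Real.sqrt_one.symm]
    exact Real.sqrt_le_sqrt hS1
  have hss : √S * √S = S := Real.mul_self_sqrt hS0.le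
  refine ⟨hS0, hsq0, ?_, hsq1, ?_, ?_⟩
  · calc S = √S * √S := hss.symm
      _ ≤ √S * 1 := by gcongr
      _ = √S := mul_one _
  · rw [show g / 8 = √((g / 8) ^ 2) from (Real.sqrt_sq hg8.le).symm]
    exact Real.sqrt_le_sqrt hSg
  · rw [div_le_iff₀ hsq0]
    have h6 : 1 / q ≤ √S := by
      rw [show 1 / q = √((1 / q) ^ 2) from (Real.sqrt_sq (by positivity)).symm]
      refine Real.sqrt_le_sqrt ?_
      rw [div_pow, one_pow]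
      linarith
    rwa [div_le_iff₀ hq0, mul_comm] at h6

/-- the parameters -/
theorem pfacts {C C0 ε1 q K' η1 c₁ N : ℝ} (hC1 : 1 ≤ C) (hCC0 : C ≤ C0) (hε10 : 0 < ε1)
    (hq1 : 1 ≤ q) (hK'0 : 0 < K') (hK'q : K' ≤ q) (hη1 : η1 ≤ c₁ / q ^ 2)
    (hN : N = c₁ + 4 * C0 ^ 2 * ε1) (hc₁ : 0 ≤ c₁) :
    ε1 / q ^ 4 ≤ ε1 ∧ K' * (1 + 2 * C ^ 2) ≤ K' * (1 + 2 * C0 ^ 2) ∧
      K' * (1 + 2 * C ^ 2) * (ε1 / q ^ 4) ≤ (1 + 2 * C0 ^ 2) * ε1 / q ∧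
      η1 + 4 * C ^ 2 * (ε1 / q ^ 4) ≤ N / q ^ 2 ∧ 4 * C * (ε1 / q ^ 4) ≤ 4 * C0 * ε1 / q := by
  have hq0 : 0 < q := by linarith
  have hC00 : 0 < C0 := by linarith
  have hq4' : 1 ≤ q ^ 4 := one_le_pow₀ hq1
  have hq14 : q ≤ q ^ 4 := le_self_pow₀ hq1 (by norm_num)
  have hq24 : q ^ 2 ≤ q ^ 4 := pow_le_pow_right₀ hq1 (by norm_num)
  have hCsq : C ^ 2 ≤ C0 ^ 2 := pow_le_pow_left₀ (by linarith) hCC0 2
  refine ⟨div_le_self hε10.le hq4', by gcongr, ?_, ?_, ?_⟩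
  · calc K' * (1 + 2 * C ^ 2) * (ε1 / q ^ 4) ≤ q * (1 + 2 * C0 ^ 2) * (ε1 / q ^ 2) := by
          gcongr
      _ = (1 + 2 * C0 ^ 2) * ε1 / q := by field_simp
  · rw [hN, add_div]
    have h7 : 4 * C ^ 2 * (ε1 / q ^ 4) ≤ 4 * C0 ^ 2 * (ε1 / q ^ 2) := by gcongr
    have h8 : 4 * C0 ^ 2 * (ε1 / q ^ 2) = 4 * C0 ^ 2 * ε1 / q ^ 2 := by ring
    linarith
  · have h7 : 4 * C * (ε1 / q ^ 4) ≤ 4 * C0 * (ε1 / q) := by gcongr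
    have h8 : 4 * C0 * (ε1 / q) = 4 * C0 * ε1 / q := by ring
    linarith

/-- the constant `G` -/
theorem gfacts {L R κ δ m C C0 ε ε1 K K' G : ℝ} (hL : 0 < L) (hR : 0 < R) (hκ : 0 < κ)
    (hδ : 0 < δ) (hm : 0 < m) (hC1 : 1 ≤ C) (hCC0 : C ≤ C0) (hεp : 0 < ε) (p1 : ε ≤ ε1)
    (hK0 : 0 < K) (p2 : K ≤ K' * (1 + 2 * C0 ^ 2)) (hK'1 : 1 ≤ K')
    (hG : G = 32 * (1 + 2 * C0) ^ 2 * ((1 + 2 * C0) * (2 * L + ε1)) ^ 2 * R * ε1 / (m * δ ^ 2) +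
      2 * Cp κ * (30 / κ + 5) * (1 + 2 * C0 ^ 2)) :
    32 * (1 + 2 * C) ^ 2 * ((1 + 2 * C) * (2 * L + ε)) ^ 2 * R * ε / (m * δ ^ 2) +
      2 * Cp κ * (30 / κ + 5) * K ≤ G * K' := by
  have hCp := Cp_pos hκ
  have hC00 : 0 < C0 := by linarith
  have hCp0 : 0 < C := by linarith
  have hε10 : 0 < ε1 := by linarith
  rw [hG]
  have h1 : 32 * (1 + 2 * C) ^ 2 * ((1 + 2 * C) * (2 * L + ε)) ^ 2 * R * ε / (m * δ ^ 2) ≤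
      32 * (1 + 2 * C0) ^ 2 * ((1 + 2 * C0) * (2 * L + ε1)) ^ 2 * R * ε1 / (m * δ ^ 2) * K' := by
    calc 32 * (1 + 2 * C) ^ 2 * ((1 + 2 * C) * (2 * L + ε)) ^ 2 * R * ε / (m * δ ^ 2)
        ≤ 32 * (1 + 2 * C0) ^ 2 * ((1 + 2 * C0) * (2 * L + ε1)) ^ 2 * R * ε1 /
          (m * δ ^ 2) := by gcongr
      _ ≤ _ := le_mul_of_one_le_right (by positivity) hK'1
  have h2 : 2 * Cp κ * (30 / κ + 5) * K ≤
      2 * Cp κ * (30 / κ + 5) * (1 + 2 * C0 ^ 2) * K' := by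
    calc 2 * Cp κ * (30 / κ + 5) * K
        ≤ 2 * Cp κ * (30 / κ + 5) * (K' * (1 + 2 * C0 ^ 2)) := by gcongr
      _ = _ := by ring
  refine (_root_.add_le_add h1 h2).trans (le_of_eq ?_)
  exact (add_mul _ _ _).symm

/-- the last computation -/
theorem cbfacts {ky X G K' Y N S : ℝ} (hky : 0 < ky) (hG0 : 0 < G) (hX : X ≤ G * K')
    (hY0 : 0 ≤ Y) (hY : Y ≤ (2 + 2 * N) * S) (hSp : 0 < S) (hK' : K' = 1 / √S) :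
    X * (Y / ky) ≤ G * (2 + 2 * N) / ky * √S := by
  have hsq0 : 0 < √S := Real.sqrt_pos.2 hSp
  have hss : √S * √S = S := Real.mul_self_sqrt hSp.le
  have hK'0 : 0 < K' := by rw [hK']; positivity
  have hlast : G * K' * ((2 + 2 * N) * S / ky) = G * (2 + 2 * N) / ky * √S := by
    have : K' * S = √S := by
      rw [hK', one_div, inv_mul_eq_div, div_eq_iff hsq0.ne', hss]
    calc G * K' * ((2 + 2 * N) * S / ky) = G * (2 + 2 * N) / ky * (K' * S) := by ring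
      _ = _ := by rw [this]
  rw [← hlast]
  have hx2 : 0 ≤ G * K' := by positivity
  exact mul_le_mul hX (div_le_div_of_nonneg_right hY hky.le) (div_nonneg hY0 hky.le) hx2

/-- conditions `o1`–`o5` -/
theorem ofacts {L R κ η₀ m E0 C0 ε1 N g a1 a2 a3 a4 q E x₀ ay C ε K K' η S ey : ℝ}
    (hR : 0 < R) (hκ : 0 < κ) (hη₀ : 0 < η₀) (hm : 0 < m) (hg : 0 < g) (hε10 : 0 < ε1)
    (hε1d : ε1 = 2 * (1 + E0 + L)) (ha1 : a1 = 4 * C0 * ε1)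
    (ha2 : a2 = 30 / κ * ((1 + 2 * C0 ^ 2) * ε1) / η₀)
    (ha3 : a3 = 8 * R * ((1 + 2 * C0 ^ 2) * ε1) / m) (ha4 : a4 = 24 * N / g)
    (hqN : N ≤ q) (hqa1 : a1 ≤ q) (hqa2 : a2 ≤ q) (hqa3 : a3 ≤ q) (hqa4 : a4 ≤ q) (hq1 : 1 ≤ q)
    (hE : |E| ≤ E0) (hε : ε = ε1 / q ^ 4)
    (p3 : K * ε ≤ (1 + 2 * C0 ^ 2) * ε1 / q) (p4 : η ≤ N / q ^ 2)
    (p5 : 4 * C * ε ≤ 4 * C0 * ε1 / q) (hay : |E + x₀| + g ≤ ay) (hK'i : 1 / K' = √S)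
    (hK'2 : 1 / K' ^ 2 = S) (hsq : √S ≤ g / 8) (hSsq : S ≤ √S) (hSe : ey ≤ S) :
    2 * (1 + |E| + L) ≤ ε * q ^ 4 ∧ 4 * C * ε ≤ 1 ∧ 30 / κ * (K * ε) ≤ η₀ ∧
      8 * K * ε * R ≤ m ∧ η ≤ 1 ∧ |E + x₀| + η + 1 / K' + (ey + 2 * η + 1 / K' ^ 2) ≤ ay := by
  have hq0 : 0 < q := by linarith
  have hqq : q ≤ q ^ 2 := le_self_pow₀ hq1 (by norm_num)
  have hNq : N / q ^ 2 ≤ 1 := by
    rw [div_le_one (by positivity)]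
    linarith
  have h3η : 3 * η ≤ g / 8 := by
    have h8 : 24 * N ≤ q * g := by
      have := mul_le_mul_of_nonneg_right hqa4 hg.le
      rwa [ha4, div_mul_cancel₀ _ hg.ne'] at this
    have h8' : q * g ≤ q ^ 2 * g := mul_le_mul_of_nonneg_right hqq hg.le
    have h9 : N / q ^ 2 ≤ g / 24 := by
      rw [div_le_iff₀ (by positivity)]
      have : g / 24 * q ^ 2 = q ^ 2 * g / 24 := by ring
      rw [this]
      linarith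
    linarith
  refine ⟨?_, ?_, ?_, ?_, p4.trans hNq, ?_⟩
  · rw [hε, div_mul_cancel₀ _ (by positivity), hε1d]
    linarith
  · refine p5.trans ?_
    rw [← ha1, div_le_one hq0]
    exact hqa1
  · have h12 : 30 / κ * (K * ε) ≤ 30 / κ * ((1 + 2 * C0 ^ 2) * ε1 / q) :=
      mul_le_mul_of_nonneg_left p3 (by positivity)
    refine h12.trans ?_
    have h13 : 30 / κ * ((1 + 2 * C0 ^ 2) * ε1 / q) = a2 * η₀ / q := by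
      rw [ha2]
      field_simp
    rw [h13, div_le_iff₀ hq0, mul_comm]
    exact mul_le_mul_of_nonneg_left hqa2 hη₀.le
  · have h14 : 8 * K * ε * R = 8 * R * (K * ε) := by ring
    rw [h14]
    have h15 : 8 * R * (K * ε) ≤ 8 * R * ((1 + 2 * C0 ^ 2) * ε1 / q) :=
      mul_le_mul_of_nonneg_left p3 (by positivity)
    refine h15.trans ?_
    have h16 : 8 * R * ((1 + 2 * C0 ^ 2) * ε1 / q) = a3 * m / q := by
      rw [ha3]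
      field_simp
    rw [h16, div_le_iff₀ hq0, mul_comm]
    exact mul_le_mul_of_nonneg_left hqa3 hm.le
  · rw [hK'i, hK'2]
    linarith

/-- the inequality for one `q` -/
theorem absLine_q0 {L R κ η₀ δ m ky : ℝ} (hL : 0 < L) (hR : 0 < R) (hκ : 0 < κ) (hη₀ : 0 < η₀)
    (hδ : 0 < δ) (hm : 0 < m) (hky : 0 < ky) {E0 X0 c₁ g C0 ε1 N G a1 a2 a3 a4 : ℝ}
    (hE0 : 0 ≤ E0) (hX0 : 0 ≤ X0) (hc₁ : 0 ≤ c₁) (hg : 0 < g) (hC0 : C0 = 1 + X0 + c₁)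
    (hε1d : ε1 = 2 * (1 + E0 + L)) (hN : N = c₁ + 4 * C0 ^ 2 * ε1)
    (hG : G = 32 * (1 + 2 * C0) ^ 2 * ((1 + 2 * C0) * (2 * L + ε1)) ^ 2 * R * ε1 / (m * δ ^ 2) +
      2 * Cp κ * (30 / κ + 5) * (1 + 2 * C0 ^ 2)) (hG0 : 0 < G) (hN0 : 0 ≤ N)
    (ha1 : a1 = 4 * C0 * ε1)
    (ha2 : a2 = 30 / κ * ((1 + 2 * C0 ^ 2) * ε1) / η₀)
    (ha3 : a3 = 8 * R * ((1 + 2 * C0 ^ 2) * ε1) / m) (ha4 : a4 = 24 * N / g)
    {νz : Measure ℝ} [IsFiniteMeasure νz] {ρ : ℝ → ℝ} (P : PLaw νz ρ L R κ η₀ δ m)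
    {νy : Measure ℝ} {ay : ℝ} (hνy : DensGe ky ay νy) {E ez ey x₀ q : ℝ}
    (hez : 0 < ez) (hez2 : ez ≤ 1 / 2) (hey : 0 < ey) (heye : ey ≤ min (1 / 2) ((g / 8) ^ 2 / 2))
    (hE : |E| ≤ E0) (hx : |x₀| ≤ X0) (hq2 : 2 ≤ q)
    (hqN : N ≤ q) (hqa1 : a1 ≤ q) (hqa2 : a2 ≤ q) (hqa3 : a3 ≤ q) (hqa4 : a4 ≤ q)
    (hqg : 16 / g ≤ q) (hay : |E + x₀| + g ≤ ay) :
    AbsLine νz νy E ez ey x₀ (c₁ / q ^ 2) (q ^ 4)
      (ENNReal.ofReal (G * (2 + 2 * N) / ky * √(ey + 1 / q ^ 2))) := by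
  have hq0 : 0 < q := by linarith
  have hq1 : 1 ≤ q := by linarith
  have hε10 : 0 < ε1 := by rw [hε1d]; linarith
  obtain ⟨hSp, hsq0, hSsq, hsq1, hsq, hK'q⟩ := sfacts hey heye hq2 hg hqg
  have hpq : 0 < 1 / q ^ 2 := by positivity
  obtain ⟨S, hS⟩ : ∃ S : ℝ, S = ey + 1 / q ^ 2 := ⟨_, rfl⟩
  rw [← hS] at hSp hsq0 hSsq hsq1 hsq hK'q ⊢
  have hss : √S * √S = S := Real.mul_self_sqrt hSp.le
  have hSe : ey ≤ S := by linarith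
  have hη1c : c₁ / q ^ 2 ≤ c₁ := div_le_self hc₁ (one_le_pow₀ hq1)
  have hη10 : 0 ≤ c₁ / q ^ 2 := by positivity
  obtain ⟨K', hK'⟩ : ∃ K' : ℝ, K' = 1 / √S := ⟨_, rfl⟩
  rw [← hK'] at hK'q
  have hK'0 : 0 < K' := by rw [hK']; positivity
  have hK'1 : 1 ≤ K' := by
    rw [hK', le_div_iff₀ hsq0]
    linarith
  have hK'2 : 1 / K' ^ 2 = S := by
    rw [hK', div_pow, one_pow, one_div_one_div, sq, hss]
  have hK'i : 1 / K' = √S := by rw [hK', one_div_one_div]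
  obtain ⟨C, hC⟩ : ∃ C : ℝ, C = 1 + |x₀| + c₁ / q ^ 2 := ⟨_, rfl⟩
  have hCC0 : C ≤ C0 := by rw [hC, hC0]; linarith
  have hC1 : 1 ≤ C := by rw [hC]; linarith [abs_nonneg x₀]
  obtain ⟨p1, p2, p3, p4, p5⟩ := pfacts (η1 := c₁ / q ^ 2) hC1 hCC0 hε10 hq1 hK'0 hK'q le_rfl
    hN hc₁
  obtain ⟨ε, hε⟩ : ∃ ε : ℝ, ε = ε1 / q ^ 4 := ⟨_, rfl⟩
  rw [← hε] at p1 p3 p4 p5
  have hεp : 0 < ε := by rw [hε]; positivity
  obtain ⟨K, hK⟩ : ∃ K : ℝ, K = K' * (1 + 2 * C ^ 2) := ⟨_, rfl⟩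
  rw [← hK] at p2 p3
  have hK0 : 0 < K := by rw [hK]; positivity
  obtain ⟨η, hη⟩ : ∃ η : ℝ, η = c₁ / q ^ 2 + 4 * C ^ 2 * ε := ⟨_, rfl⟩
  rw [← hη] at p4
  have hη0 : 0 ≤ η := by rw [hη]; positivity
  obtain ⟨o1, o2, o3, o4, o7, o5⟩ := ofacts hR hκ hη₀ hm hg hε10 hε1d ha1 ha2 ha3 ha4 hqN hqa1
    hqa2 hqa3 hqa4 hq1 hE hε p3 p4 p5 hay hK'i hK'2 hsq hSsq hSe
  have o6 : 2 ≤ q ^ 4 := hq2.trans (le_self_pow₀ hq1 (by norm_num))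
  have main := gain_abs P hνy hky (E := E) (ez := ez) (ey := ey) (x₀ := x₀) (η₁ := c₁ / q ^ 2)
    (C := C) (R₁ := q ^ 4) (K := K) (K' := K') (ε := ε) (η := η)
    (Lu := (1 + 2 * C) * (2 * L + ε)) hez hez2 hey hC.ge o6 o1 o2 hη o7 hK hK'1 o3 o4
    rfl o5
  intro h s τ α β c1 c2 c3 c4
  refine (main h s τ α β c1 c2 c3 c4).trans (mul_le_mul' (ENNReal.ofReal_le_ofReal ?_) le_rfl)
  rw [hK'2]
  refine cbfacts hky hG0 (gfacts hL hR hκ hδ hm hC1 hCC0 hεp p1 hK0 p2 hK'1 hG) (by linarith) ?_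
    hSp hK'
  have h17 : N / q ^ 2 ≤ N * S := by
    rw [div_eq_mul_one_div]
    exact mul_le_mul_of_nonneg_left (by linarith) hN0
  linarith

/-- **the two-site inequality with 341's parameters** -/
theorem absLine_q {L R κ η₀ δ m ky : ℝ} (hL : 0 < L) (hR : 0 < R) (hκ : 0 < κ) (hη₀ : 0 < η₀)
    (hδ : 0 < δ) (hm : 0 < m) (hky : 0 < ky) {E0 X0 c₁ g : ℝ} (hE0 : 0 ≤ E0) (hX0 : 0 ≤ X0)
    (hc₁ : 0 ≤ c₁) (hg : 0 < g) :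
    ∃ Ch q0 e0 : ℝ, 0 < Ch ∧ 1 ≤ q0 ∧ 0 < e0 ∧
      ∀ (νz : Measure ℝ) [IsFiniteMeasure νz] (ρ : ℝ → ℝ) (_ : PLaw νz ρ L R κ η₀ δ m)
        (νy : Measure ℝ) (ay : ℝ) (_ : DensGe ky ay νy) (E ez ey x₀ q R₁ η₁ : ℝ),
        0 < ez → ez ≤ 1 / 2 → 0 < ey → ey ≤ e0 → |E| ≤ E0 → |x₀| ≤ X0 → q0 ≤ q → q ^ 4 ≤ R₁ →
        η₁ ≤ c₁ / q ^ 2 → |E + x₀| + g ≤ ay →
        AbsLine νz νy E ez ey x₀ η₁ R₁ (ENNReal.ofReal (Ch * √(ey + 1 / q ^ 2))) := by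
  obtain ⟨C0, hC0⟩ : ∃ a : ℝ, a = 1 + X0 + c₁ := ⟨_, rfl⟩
  obtain ⟨ε1, hε1d⟩ : ∃ a : ℝ, a = 2 * (1 + E0 + L) := ⟨_, rfl⟩
  obtain ⟨N, hN⟩ : ∃ a : ℝ, a = c₁ + 4 * C0 ^ 2 * ε1 := ⟨_, rfl⟩
  obtain ⟨G, hG⟩ : ∃ a : ℝ, a = 32 * (1 + 2 * C0) ^ 2 * ((1 + 2 * C0) * (2 * L + ε1)) ^ 2 * R *
    ε1 / (m * δ ^ 2) + 2 * Cp κ * (30 / κ + 5) * (1 + 2 * C0 ^ 2) := ⟨_, rfl⟩
  have hCp := Cp_pos hκ
  have hC00 : 0 < C0 := by rw [hC0]; linarith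
  have hε10 : 0 < ε1 := by rw [hε1d]; linarith
  have hN0 : 0 ≤ N := by rw [hN]; positivity
  have hG0 : 0 < G := by
    rw [hG]
    have h1 : 0 ≤ 32 * (1 + 2 * C0) ^ 2 * ((1 + 2 * C0) * (2 * L + ε1)) ^ 2 * R * ε1 /
      (m * δ ^ 2) := by positivity
    have h2 : 0 < 2 * Cp κ * (30 / κ + 5) * (1 + 2 * C0 ^ 2) := by positivity
    linarith
  obtain ⟨a1, ha1⟩ : ∃ a : ℝ, a = 4 * C0 * ε1 := ⟨_, rfl⟩
  obtain ⟨a2, ha2⟩ : ∃ a : ℝ, a = 30 / κ * ((1 + 2 * C0 ^ 2) * ε1) / η₀ := ⟨_, rfl⟩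
  obtain ⟨a3, ha3⟩ : ∃ a : ℝ, a = 8 * R * ((1 + 2 * C0 ^ 2) * ε1) / m := ⟨_, rfl⟩
  obtain ⟨a4, ha4⟩ : ∃ a : ℝ, a = 24 * N / g := ⟨_, rfl⟩
  have b1 : 0 ≤ a1 := by rw [ha1]; positivity
  have b2 : 0 ≤ a2 := by rw [ha2]; positivity
  have b3 : 0 ≤ a3 := by rw [ha3]; positivity
  have b4 : 0 ≤ a4 := by rw [ha4]; positivity
  have b5 : 0 ≤ 16 / g := by positivity
  refine ⟨G * (2 + 2 * N) / ky, 2 + N + a1 + a2 + a3 + a4 + 16 / g,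
    min (1 / 2) ((g / 8) ^ 2 / 2), by positivity, by linarith, by positivity, ?_⟩
  intro νz _ ρ P νy ay hνy E ez ey x₀ q R₁ η₁ hez hez2 hey heye hE hx hq hqR hη₁ hay
  exact (absLine_q0 hL hR hκ hη₀ hδ hm hky hE0 hX0 hc₁ hg hC0 hε1d hN hG hG0 hN0 ha1 ha2 ha3 ha4
    P hνy hez hez2 hey heye hE hx (by linarith) (by linarith) (by linarith) (by linarith)
    (by linarith) (by linarith) (by linarith) hay).anti hη₁ hqR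

end P365T1.ISL755
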