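import Vale.Agent.P365.ISL.Asm701

/-!
# P365-T1: the insulated site lemma from its pieces.
-/

set_option linter.all false

namespace P365T1.ISL

open P365L P365O P365T1 P365T1.OneVar Matrix Complex MeasureTheory Function
open scoped ComplexConjugate ENNReal

variable {ι : Type*} [Fintype ι] [DecidableEq ι] {A : Matrix ι ι ℝ}

theorem sg_WV_eq (hA : A.IsSymm) {E : ℝ} {e : ι → ℝ} (he : ∀ x, 0 < e x) (y : ι) (v : ι → ℝ) :
    sg A (wF E e {y} v) y = sg A (WV E e v) y := by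
  have h : wF E e {y} v = Function.update (WV E e v) y (-I) := by
    have := wF_insert (E := E) (e := e) y ∅ v
    rw [wF_empty] at this
    simpa using this
  rw [h, sg_upd hA (WV_neg he v) (by simp)]

theorem fa_eq_gw (hA : A.IsSymm) {E : ℝ} {e : ι → ℝ} (he : ∀ x, 0 < e x) (y a : ι) (v : ι → ℝ) :
    fa A E e y a {y} v = ENNReal.ofReal (‖gw A (WV E e v) y a‖ ^ 2 /
      ‖-I - sg A (WV E e v) y‖ ^ 2) := by
  have h : wF E e {y} v = Function.update (WV E e v) y (-I) := by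
    have := wF_insert (E := E) (e := e) y ∅ v
    rw [wF_empty] at this
    simpa using this
  have hW := WV_neg (E := E) he v
  rw [fa, h, Gr_upd hA hW (by simp), gw_self hA hW, Gi_left hA hW, zero_add, one_mul, norm_div,
    div_pow]

theorem fa_empty_update (hA : A.IsSymm) {E : ℝ} {e : ι → ℝ} (he : ∀ x, 0 < e x) (y a : ι)
    (v : ι → ℝ) (u : ℝ) : fa A E e y a ∅ (update v y u) =
      ENNReal.ofReal (‖gw A (WV E e v) y a‖ ^ 2) *
        ENNReal.ofReal (‖(1 : ℂ) / (wz E e y u - sg A (WV E e v) y)‖ ^ 2) := by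
  have hW := WV_neg (E := E) he v
  have hw : (wz E e y u).im < 0 := by rw [wz_im]; linarith [he y]
  have h : wF E e ∅ (update v y u) = Function.update (WV E e v) y (wz E e y u) := by
    rw [wF_update_not_mem (Finset.notMem_empty y), wF_empty]
  rw [fa, h, Gr_upd hA hW hw, gw_self hA hW, Gi_left hA hW, zero_add, one_mul, norm_div,
    norm_div, norm_one, div_pow, div_pow, one_pow, ← ENNReal.ofReal_mul (sq_nonneg _)]
  congr 1
  ring

theorem one_le_norm_I_sub {s : ℂ} (hs : 0 ≤ s.im) : 1 ≤ ‖-I - s‖ := by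
  have h := Complex.abs_im_le_norm (-I - s)
  rw [Complex.sub_im, Complex.neg_im, Complex.I_im] at h
  have h2 : (1 : ℝ) ≤ |-1 - s.im| := by
    rw [abs_of_nonpos (by linarith)]
    linarith
  exact h2.trans h

theorem measurable_upd_int (ν : ι → Measure ℝ) [∀ i, IsProbabilityMeasure (ν i)]
    {F : (ι → ℝ) → ℝ≥0∞} (hF : Measurable F) (y : ι) :
    Measurable fun v : ι → ℝ => ∫⁻ u, F (update v y u) ∂(ν y) := by
  have hupd : Measurable fun p : (ι → ℝ) × ℝ => Function.update p.1 y p.2 :=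
    (MAff.measurePreserving_resample ν y).measurable
  exact (hF.comp hupd).lintegral_prod_right'

/-- **the insulated site lemma from its pieces** -/
theorem isl_core {ν : ι → Measure ℝ} [∀ i, IsProbabilityMeasure (ν i)] (hA : A.IsSymm) {E : ℝ}
    {e : ι → ℝ} (he : ∀ x, 0 < e x) {y a : ι} {S : Finset ι} (hyS : y ∉ S)
    {k0 k1 k3 Lam r1 R1 η0 η1 : ℝ} {x0 : ℂ} {ca cb : ℝ≥0∞}
    (hk0 : 0 ≤ k0) (hk1 : 0 ≤ k1) (hk3 : 0 ≤ k3) (hLam : 0 < Lam)
    (h1 : ∀ z ∈ S, S1 (ν z) E (e z) (ENNReal.ofReal k1))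
    (h2 : ∀ z ∈ S, S2 (ν z) E (e z) (ENNReal.ofReal k0))
    (h3 : ∀ z ∈ S, S3 (ν z) E (e z) r1 (ENNReal.ofReal k3))
    (hq : 16 * ((S.card : ℝ) * (k0 * k1)) ≤ Lam) (hp : 8 * ((S.card : ℝ) ^ 2 * k3) ≤ 1)
    (hcover : ∀ᵐ v ∂(Measure.pi ν),
      (∀ U ⊆ S, ‖thU A E e {y} U v‖ * ‖Gr A (wF E e (U ∪ {y}) v) y a‖ ^ 2 ≤
        Lam ^ U.card * ‖Gr A (wF E e {y} v) y a‖ ^ 2) →
      (∀ z ∈ S, ∀ z' ∈ S, z ≠ z' →
        ‖thU A E e (insert z' {y}) {z} v‖ ≤ r1 * ‖thU A E e {y} {z} v‖) →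
      Gr A (wF E e {y} v) y a ≠ 0 →
      ‖sg A (wF E e {y} v) y - x0‖ ≤ η0 ∨
        ∃ z ∈ S, R1 < ‖thU A E e {y} {z} v‖ ∧ ‖sg A (wF E e (insert z {y}) v) y - x0‖ ≤ η1)
    (hsmall : ∀ s : ℂ, 0 ≤ s.im → ‖s - x0‖ ≤ η0 →
      1 ≤ ca * ∫⁻ u, ENNReal.ofReal (‖(1 : ℂ) / (wz E e y u - s)‖ ^ 2) ∂(ν y))
    (hline : ∀ z ∈ S, ∀ c : ι → ℝ, ‖sg A (wF E e (insert z {y}) c) y - x0‖ ≤ η1 →
      ∫⁻ t, {v | R1 < ‖thU A E e {y} {z} v‖}.indicator (fa A E e y a {y}) (update c z t) ∂(ν z) ≤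
        cb * ∫⁻ t, ∫⁻ u, fa A E e y a ∅ (update (update c z t) y u) ∂(ν y) ∂(ν z)) :
    ∫⁻ v, fa A E e y a {y} v ∂(Measure.pi ν) ≤
      2 * ((ca + (S.card : ℝ≥0∞) * cb) * ∫⁻ v, fa A E e y a ∅ v ∂(Measure.pi ν)) := by
  have hf := measurable_fa (y := y) (a := a) (E := E) hA he {y}
  have hf0 := measurable_fa (y := y) (a := a) (E := E) hA he ∅
  set g : (ι → ℝ) → ℝ≥0∞ := fun v => ∫⁻ u, fa A E e y a ∅ (update v y u) ∂(ν y) with hg
  have hgm : Measurable g := measurable_upd_int ν hf0 y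
  rw [MAff.lintegral_resample ν y hf0]
  have hea := he a
  -- finiteness
  have hfin : ∫⁻ v, fa A E e y a {y} v ∂(Measure.pi ν) ≠ ⊤ := by
    have hb : ∀ v, fa A E e y a {y} v ≤ ENNReal.ofReal (max 1 (1 / e a)) := by
      intro v
      refine ENNReal.ofReal_le_ofReal ?_
      have hW := wF_neg (E := E) he {y} v
      have hyy : (wF E e {y} v y).im = -1 := by
        rw [wF_mem (Finset.mem_singleton_self y)]; simp
      have hm : mm A (wF E e {y} v) y = ∑ b, (-(wF E e {y} v b).im) * KK A (wF E e {y} v) y b :=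
        mm_eq hA hW y
      have hpos : ∀ b ∈ Finset.univ, 0 ≤ (-(wF E e {y} v b).im) * KK A (wF E e {y} v) y b :=
        fun b _ => mul_nonneg (by linarith [hW b]) (sq_nonneg _)
      have h1 : ‖Gr A (wF E e {y} v) y y‖ ^ 2 ≤ mm A (wF E e {y} v) y := by
        rw [hm]
        refine le_trans (le_of_eq ?_) (Finset.single_le_sum hpos (Finset.mem_univ y))
        rw [hyy, KK]
        ring
      have h2 : mm A (wF E e {y} v) y ≤ ‖Gr A (wF E e {y} v) y y‖ :=
        (le_abs_self _).trans (Complex.abs_im_le_norm _)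
      have h3 : ‖Gr A (wF E e {y} v) y y‖ ≤ 1 := by
        by_contra h
        push Not at h
        nlinarith
      by_cases hay : a = y
      · subst hay
        refine le_trans ?_ (le_max_left _ _)
        exact pow_le_one₀ (norm_nonneg _) h3
      · refine le_trans ?_ (le_max_right _ _)
        have h4 : e a * ‖Gr A (wF E e {y} v) y a‖ ^ 2 ≤ mm A (wF E e {y} v) y := by
          rw [hm]
          refine le_trans (le_of_eq ?_) (Finset.single_le_sum hpos (Finset.mem_univ a))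
          rw [wF_not_mem (by simpa using hay), WV_im, KK]
          ring
        rw [le_div_iff₀ hea]
        linarith
    refine ((lintegral_mono hb).trans_lt ?_).ne
    rw [lintegral_const, measure_univ, mul_one]
    exact ENNReal.ofReal_lt_top
  refine assemble (B := BadS A E e y a Lam r1 S) (R := fun z => {v | R1 < ‖thU A E e {y} {z} v‖})
    (Q := fun z => {v | ‖sg A (wF E e (insert z {y}) v) y - x0‖ ≤ η1}) hf hgm hfin
    (measurableSet_BadS hA he y a Lam r1 S) (bad_le hA he hyS hk0 hk1 hk3 hLam h1 h2 h3 hq hp)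
    (fun z => measurableSet_lt measurable_const (continuous_thU hA he {y} {z}).norm.measurable)
    (fun z => measurableSet_le
      ((continuous_sg_wF hA he (insert z {y}) y).sub continuous_const).norm.measurable
      measurable_const)
    (fun z v t => by
      simp only [Set.mem_setOf_eq]
      rw [wF_update_mem (Finset.mem_insert_self _ _)])
    ?_ ?_
  · filter_upwards [hcover] with v hc hv
    obtain ⟨ha, hb⟩ := not_mem_BadS hA he hv
    by_cases h0 : Gr A (wF E e {y} v) y a = 0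
    · left
      have : fa A E e y a {y} v = 0 := by
        rw [fa, h0]
        simp
      rw [this]
      exact bot_le
    · rcases hc ha hb h0 with h | ⟨z, hz, hz1, hz2⟩
      · left
        have hW := WV_neg (E := E) he v
        have hs := sg_im_nonneg hA hW y
        rw [sg_WV_eq hA he] at h
        have h4 := hsmall _ hs h
        have e1 : g v = ENNReal.ofReal (‖gw A (WV E e v) y a‖ ^ 2) *
            ∫⁻ u, ENNReal.ofReal (‖(1 : ℂ) / (wz E e y u - sg A (WV E e v) y)‖ ^ 2) ∂(ν y) := by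
          rw [hg]
          simp only [fa_empty_update hA he]
          exact lintegral_const_mul' _ _ ENNReal.ofReal_ne_top
        rw [fa_eq_gw hA he]
        calc ENNReal.ofReal (‖gw A (WV E e v) y a‖ ^ 2 / ‖-I - sg A (WV E e v) y‖ ^ 2)
            ≤ ENNReal.ofReal (‖gw A (WV E e v) y a‖ ^ 2) := by
              refine ENNReal.ofReal_le_ofReal ?_
              refine div_le_self (sq_nonneg _) ?_
              exact one_le_pow₀ (one_le_norm_I_sub hs)
          _ = ENNReal.ofReal (‖gw A (WV E e v) y a‖ ^ 2) * 1 := (mul_one _).symm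
          _ ≤ ENNReal.ofReal (‖gw A (WV E e v) y a‖ ^ 2) * (ca *
              ∫⁻ u, ENNReal.ofReal (‖(1 : ℂ) / (wz E e y u - sg A (WV E e v) y)‖ ^ 2) ∂(ν y)) := by
              gcongr
          _ = ca * g v := by
              rw [e1]
              ring
      · right
        exact ⟨z, hz, hz1, hz2⟩
  · intro z hz v hv
    exact hline z hz v hv

/-- from the components to `Yf` and `Mf` -/
theorem Yf_le_of_fa {ν : ι → Measure ℝ} [∀ i, IsProbabilityMeasure (ν i)] (hA : A.IsSymm) {E : ℝ}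
    {e : ι → ℝ} (he : ∀ x, 0 < e x) (f : ι → ℝ) {y : ι} {K : ℝ≥0∞}
    (h : ∀ a, a ≠ y → ∫⁻ v, fa A E e y a {y} v ∂(Measure.pi ν) ≤
      K * ∫⁻ v, fa A E e y a ∅ v ∂(Measure.pi ν)) :
    ∫⁻ v, ENNReal.ofReal (Yf A (WV E e v) f y) ∂(Measure.pi ν) ≤
      2 * K * ∫⁻ v, ENNReal.ofReal (Mf A (WV E e v) f y) ∂(Measure.pi ν) := by
  have hc : ∀ a, 0 ≤ e a * (f a - f y) ^ 2 := fun a => mul_nonneg (he a).le (sq_nonneg _)
  have e1 : ∀ v, ENNReal.ofReal (Yf A (WV E e v) f y) ≤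
      2 * ∑ a, ENNReal.ofReal (e a * (f a - f y) ^ 2) * fa A E e y a {y} v := by
    intro v
    have hW := WV_neg (E := E) he v
    have hs := sg_im_nonneg hA hW y
    have h1 := one_le_norm_I_sub hs
    have h2 : ‖-I - sg A (WV E e v) y‖ ^ 2 ≤ 2 * (1 + ‖sg A (WV E e v) y‖ ^ 2) := by
      have h3 : ‖-I - sg A (WV E e v) y‖ ≤ 1 + ‖sg A (WV E e v) y‖ := by
        refine (norm_sub_le _ _).trans ?_
        rw [norm_neg, norm_I]
      have h4 := pow_le_pow_left₀ (norm_nonneg _) h3 2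
      nlinarith [sq_nonneg (1 - ‖sg A (WV E e v) y‖)]
    have h5 : ∀ a, ENNReal.ofReal (e a * (f a - f y) ^ 2) * fa A E e y a {y} v =
        ENNReal.ofReal (e a * (f a - f y) ^ 2 * (‖gw A (WV E e v) y a‖ ^ 2 /
          ‖-I - sg A (WV E e v) y‖ ^ 2)) := by
      intro a
      rw [fa_eq_gw hA he, ← ENNReal.ofReal_mul (hc a)]
    simp only [h5]
    rw [← ENNReal.ofReal_sum_of_nonneg (fun a _ => mul_nonneg (hc a) (by positivity)),
      show (2 : ℝ≥0∞) = ENNReal.ofReal 2 by norm_num, ← ENNReal.ofReal_mul (by norm_num)]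
    refine ENNReal.ofReal_le_ofReal ?_
    rw [Yf, Nf]
    have h6 : ∑ a, e a * (f a - f y) ^ 2 * (‖gw A (WV E e v) y a‖ ^ 2 /
          ‖-I - sg A (WV E e v) y‖ ^ 2) = (∑ a, (-(WV E e v a).im) * ‖gw A (WV E e v) y a‖ ^ 2 *
          (f a - f y) ^ 2) / ‖-I - sg A (WV E e v) y‖ ^ 2 := by
      rw [Finset.sum_div]
      refine Finset.sum_congr rfl fun a _ => ?_
      rw [WV_im, neg_neg]
      ring
    rw [h6]
    have hN : 0 ≤ ∑ a, (-(WV E e v a).im) * ‖gw A (WV E e v) y a‖ ^ 2 * (f a - f y) ^ 2 :=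
      Nf_nonneg hW f y
    rw [div_le_iff₀ (by positivity)]
    have h7 : 2 * ((∑ a, (-(WV E e v a).im) * ‖gw A (WV E e v) y a‖ ^ 2 * (f a - f y) ^ 2) /
        ‖-I - sg A (WV E e v) y‖ ^ 2) * (1 + ‖sg A (WV E e v) y‖ ^ 2) =
        (∑ a, (-(WV E e v a).im) * ‖gw A (WV E e v) y a‖ ^ 2 * (f a - f y) ^ 2) *
          ((2 * (1 + ‖sg A (WV E e v) y‖ ^ 2)) / ‖-I - sg A (WV E e v) y‖ ^ 2) := by
      ring
    rw [h7]
    have h8 : 1 ≤ (2 * (1 + ‖sg A (WV E e v) y‖ ^ 2)) / ‖-I - sg A (WV E e v) y‖ ^ 2 := by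
      rw [le_div_iff₀ (by positivity)]
      linarith
    nlinarith
  have e2 : ∀ v, ENNReal.ofReal (Mf A (WV E e v) f y) =
      ∑ a, ENNReal.ofReal (e a * (f a - f y) ^ 2) * fa A E e y a ∅ v := by
    intro v
    have h5 : ∀ a, ENNReal.ofReal (e a * (f a - f y) ^ 2) * fa A E e y a ∅ v =
        ENNReal.ofReal (e a * (f a - f y) ^ 2 * ‖Gr A (WV E e v) y a‖ ^ 2) := by
      intro a
      rw [fa, wF_empty, ← ENNReal.ofReal_mul (hc a)]
    simp only [h5]
    rw [← ENNReal.ofReal_sum_of_nonneg (fun a _ => mul_nonneg (hc a) (sq_nonneg _)), Mf]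
    congr 1
    refine Finset.sum_congr rfl fun a _ => ?_
    rw [WV_im, neg_neg, KK]
    ring
  have hm : ∀ F a, Measurable fun v => ENNReal.ofReal (e a * (f a - f y) ^ 2) * fa A E e y a F v :=
    fun F a => (measurable_fa hA he y a F).const_mul _
  calc ∫⁻ v, ENNReal.ofReal (Yf A (WV E e v) f y) ∂(Measure.pi ν)
      ≤ ∫⁻ v, 2 * ∑ a, ENNReal.ofReal (e a * (f a - f y) ^ 2) * fa A E e y a {y} v
          ∂(Measure.pi ν) := lintegral_mono e1
    _ = 2 * ∑ a, ENNReal.ofReal (e a * (f a - f y) ^ 2) *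
          ∫⁻ v, fa A E e y a {y} v ∂(Measure.pi ν) := by
        rw [lintegral_const_mul _ (Finset.measurable_sum _ fun a _ => hm {y} a),
          lintegral_finsetSum _ fun a _ => hm {y} a]
        congr 1
        refine Finset.sum_congr rfl fun a _ => ?_
        exact lintegral_const_mul _ (measurable_fa hA he y a {y})
    _ ≤ 2 * ∑ a, ENNReal.ofReal (e a * (f a - f y) ^ 2) *
          (K * ∫⁻ v, fa A E e y a ∅ v ∂(Measure.pi ν)) := by
        refine mul_le_mul_right (Finset.sum_le_sum fun a _ => ?_) _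
        by_cases ha : a = y
        · subst ha
          simp
        · exact mul_le_mul_right (h a ha) _
    _ = 2 * K * ∑ a, ENNReal.ofReal (e a * (f a - f y) ^ 2) *
          ∫⁻ v, fa A E e y a ∅ v ∂(Measure.pi ν) := by
        rw [mul_assoc, Finset.mul_sum, Finset.mul_sum, Finset.mul_sum]
        refine Finset.sum_congr rfl fun a _ => ?_
        ring
    _ = 2 * K * ∫⁻ v, ENNReal.ofReal (Mf A (WV E e v) f y) ∂(Measure.pi ν) := by
        congr 1
        simp only [e2]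
        rw [lintegral_finsetSum _ fun a _ => hm ∅ a]
        refine Finset.sum_congr rfl fun a _ => ?_
        exact (lintegral_const_mul _ (measurable_fa hA he y a ∅)).symm

end P365T1.ISL
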