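import Vale.Agent.P365.T1.OneVarL

/-!
# P365 T1, insulated site lemma: one-variable estimates

* `at_I`      : `f(-i) ≤ C E f`;
* `log_int`   : `E|θ| ≤ C (1 + T)`, `θ = (-i-s)/(V-s)`;
* `pw`        : `ρ(v) f(v) ≤ C (1 + 1/|v-s|) E f`;
* `pair_event`: `E[f ; |θ'| > r |θ|] ≤ (C/r) E f`.
-/

set_option linter.all false

namespace P365T1

open Complex MeasureTheory P365T1.Bump P365T1.OneVar
open scoped ComplexConjugate ENNReal

namespace ISL37

variable {F : Type*} [NormedAddCommGroup F] [NormedSpace ℂ F]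

/-! ### elementary geometry -/

theorem hne {s : ℂ} (hs : 0 ≤ s.im) {t : ℝ} (ht : t < 0) (u : ℝ) :
    (u : ℂ) + (t : ℂ) * I - s ≠ 0 := by
  intro h
  have := congrArg Complex.im h
  simp at this
  linarith

theorem one_le_negI {s : ℂ} (hs : 0 ≤ s.im) : 1 ≤ ‖-I - s‖ := by
  have h := Complex.abs_im_le_norm (-I - s)
  simp only [sub_im, neg_im, I_im] at h
  have h2 : (1 : ℝ) ≤ |-1 - s.im| := by
    rw [abs_of_nonpos (by linarith)]
    linarith
  linarith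

theorem dist_negI {L u t : ℝ} (hu : |u| ≤ L) (ht : t < 0) (ht1 : -1 ≤ t) :
    ‖-I - ((u : ℂ) + (t : ℂ) * I)‖ ≤ L + 1 := by
  have e1 : -I - ((u : ℂ) + (t : ℂ) * I) = -((u : ℝ) : ℂ) + ((-(1 + t) : ℝ) : ℂ) * I := by
    push_cast
    ring
  rw [e1]
  refine (norm_add_le _ _).trans ?_
  rw [norm_neg, norm_mul, Complex.norm_real, Complex.norm_real, norm_I, Real.norm_eq_abs,
    Real.norm_eq_abs, abs_neg, abs_of_nonneg (by linarith : 0 ≤ 1 + t)]
  linarith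

theorem ratio_negI {L u t : ℝ} {s : ℂ} (hL : 0 ≤ L) (hs : 0 ≤ s.im) (hu : |u| ≤ L) (ht : t < 0)
    (ht1 : -1 ≤ t) : ‖(u : ℂ) + (t : ℂ) * I - s‖ / ‖-I - s‖ ≤ L + 2 := by
  have h0 := one_le_negI hs
  rw [div_le_iff₀ (by linarith)]
  have h3 : (u : ℂ) + (t : ℂ) * I - s = (-I - s) - (-I - ((u : ℂ) + (t : ℂ) * I)) := by ring
  rw [h3]
  refine (norm_sub_le _ _).trans ?_
  have h4 := dist_negI hu ht ht1
  nlinarith

/-! ### L1: the value at `-i` -/

/-- constant -/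
noncomputable def cI (L δ m : ℝ) : ℝ := 4 * ((L + 1) * (L + 2) / δ) ^ 2 / m

theorem at_I {ν : Measure ℝ} {ρ : ℝ → ℝ} {L δ m κ₀ R η₀ : ℝ}
    (G : GLaw ν ρ L δ m κ₀ R η₀) (α B : F) {s : ℂ} (hs : 0 ≤ s.im) {t : ℝ}
    (ht : t < 0) (ht1 : -1 ≤ t) :
    ENNReal.ofReal (‖α + (-I - s)⁻¹ • B‖ ^ 2) ≤ ENNReal.ofReal (cI L δ m) *
      ∫⁻ u, ENNReal.ofReal (‖α + (((u : ℝ) : ℂ) + (t : ℂ) * I - s)⁻¹ • B‖ ^ 2) ∂ν := by
  have h := real_avg G α B 1 hs ht ht1
  simpa only [one_mul, cI] using h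

/-! ### L2: the logarithmic integral -/

theorem int_max {b : ℝ} (hb : 0 < b) (hb1 : b ≤ 1) :
    ∫ u in (0 : ℝ)..1, (max b |u|)⁻¹ = 1 + Real.log (1 / b) := by
  have hc : Continuous fun u : ℝ => (max b |u|)⁻¹ := by
    refine Continuous.inv₀ (continuous_const.max continuous_abs) fun u => ?_
    have : 0 < max b |u| := lt_max_of_lt_left hb
    exact this.ne'
  rw [← intervalIntegral.integral_add_adjacent_intervals (hc.intervalIntegrable 0 b)
    (hc.intervalIntegrable b 1)]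
  congr 1
  · have : ∫ u in (0 : ℝ)..b, (max b |u|)⁻¹ = ∫ u in (0 : ℝ)..b, b⁻¹ := by
      refine intervalIntegral.integral_congr fun u hu => ?_
      rw [Set.uIcc_of_le hb.le] at hu
      have e : max b |u| = b := max_eq_left (by
        rw [abs_of_nonneg hu.1]
        exact hu.2)
      show (max b |u|)⁻¹ = b⁻¹
      rw [e]
    rw [this, intervalIntegral.integral_const, sub_zero, smul_eq_mul, mul_inv_cancel₀ hb.ne']
  · rw [← integral_inv_of_pos hb one_pos]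
    refine intervalIntegral.integral_congr fun u hu => ?_
    rw [Set.uIcc_of_le hb1] at hu
    show (max b |u|)⁻¹ = u⁻¹
    rw [abs_of_nonneg (hb.le.trans hu.1), max_eq_right hu.1]

theorem int_max_sym {b : ℝ} (hb : 0 < b) (hb1 : b ≤ 1) :
    ∫ u in (-1 : ℝ)..1, (max b |u|)⁻¹ = 2 * (1 + Real.log (1 / b)) := by
  have hc : Continuous fun u : ℝ => (max b |u|)⁻¹ := by
    refine Continuous.inv₀ (continuous_const.max continuous_abs) fun u => ?_
    have : 0 < max b |u| := lt_max_of_lt_left hb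
    exact this.ne'
  rw [← intervalIntegral.integral_add_adjacent_intervals (hc.intervalIntegrable (-1) 0)
    (hc.intervalIntegrable 0 1)]
  have h1 : ∫ u in (-1 : ℝ)..0, (max b |u|)⁻¹ = ∫ u in (0 : ℝ)..1, (max b |u|)⁻¹ := by
    have := intervalIntegral.integral_comp_neg (a := 0) (b := 1) fun u : ℝ => (max b |u|)⁻¹
    simp only [abs_neg, neg_zero] at this
    exact this.symm
  rw [h1, int_max hb hb1]
  ring

theorem lint_max {a b : ℝ} (hb : 0 < b) (hb1 : b ≤ 1) :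
    ∫⁻ u in Set.Icc (a - 1) (a + 1), ENNReal.ofReal ((max b |u - a|)⁻¹) =
      ENNReal.ofReal (2 * (1 + Real.log (1 / b))) := by
  have hc : Continuous fun u : ℝ => (max b |u - a|)⁻¹ := by
    refine Continuous.inv₀ (continuous_const.max (continuous_id.sub continuous_const).abs)
      fun u => ?_
    have : 0 < max b |u - a| := lt_max_of_lt_left hb
    exact this.ne'
  have hnn : ∀ u : ℝ, 0 ≤ (max b |u - a|)⁻¹ := fun u =>
    inv_nonneg.2 (hb.le.trans (le_max_left _ _))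
  rw [← ofReal_integral_eq_lintegral_ofReal]
  · congr 1
    rw [integral_Icc_eq_integral_Ioc, ← intervalIntegral.integral_of_le (by linarith)]
    have h := intervalIntegral.integral_comp_sub_right (a := a - 1) (b := a + 1)
      (fun u : ℝ => (max b |u|)⁻¹) a
    rw [h]
    have e1 : a - 1 - a = -1 := by ring
    have e2 : a + 1 - a = 1 := by ring
    rw [e1, e2, int_max_sym hb hb1]
  · exact (hc.continuousOn.integrableOn_compact isCompact_Icc)
  · exact Filter.Eventually.of_forall hnn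

/-- integrals against a law with density bounded by `R` -/
theorem lint_dist {ν : Measure ℝ} {ρ : ℝ → ℝ} {L δ m κ₀ R η₀ : ℝ}
    (G : GLaw ν ρ L δ m κ₀ R η₀) [IsProbabilityMeasure ν] {s : ℂ} (hs : 0 ≤ s.im) {t T : ℝ}
    (ht : t ≤ -Real.exp (-T)) (hT : 0 ≤ T) :
    ∫⁻ u, ENNReal.ofReal (‖((u : ℝ) : ℂ) + (t : ℂ) * I - s‖⁻¹) ∂ν ≤
      ENNReal.ofReal (1 + 2 * R * (1 + T)) := by
  have hR := G.hR
  set b := Real.exp (-T) with hb
  have hb0 : 0 < b := Real.exp_pos _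
  have hb1 : b ≤ 1 := by
    rw [hb]
    exact Real.exp_le_one_iff.2 (by linarith)
  have hlog : Real.log (1 / b) = T := by
    rw [hb, one_div, ← Real.exp_neg, neg_neg, Real.log_exp]
  set a := s.re with ha
  have hlow : ∀ u : ℝ, max b |u - a| ≤ ‖((u : ℝ) : ℂ) + (t : ℂ) * I - s‖ := by
    intro u
    refine max_le ?_ ?_
    · have h := Complex.abs_im_le_norm (((u : ℝ) : ℂ) + (t : ℂ) * I - s)
      have e : (((u : ℝ) : ℂ) + (t : ℂ) * I - s).im = t - s.im := by simp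
      rw [e, abs_of_nonpos (by linarith)] at h
      linarith
    · have h := Complex.abs_re_le_norm (((u : ℝ) : ℂ) + (t : ℂ) * I - s)
      have e : (((u : ℝ) : ℂ) + (t : ℂ) * I - s).re = u - a := by simp [ha]
      rwa [e] at h
  have hpt : ∀ u : ℝ, ENNReal.ofReal (ρ u) *
      ENNReal.ofReal (‖((u : ℝ) : ℂ) + (t : ℂ) * I - s‖⁻¹) ≤ ENNReal.ofReal (ρ u) +
        (Set.Icc (a - 1) (a + 1)).indicator
          (fun u => ENNReal.ofReal R * ENNReal.ofReal ((max b |u - a|)⁻¹)) u := by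
    intro u
    have h1 := hlow u
    have hpos : 0 < max b |u - a| := lt_max_of_lt_left hb0
    by_cases hu : u ∈ Set.Icc (a - 1) (a + 1)
    · rw [Set.indicator_of_mem hu]
      refine le_trans ?_ le_add_self
      gcongr
      exact G.le u
    · rw [Set.indicator_of_notMem hu, add_zero]
      have h2 : 1 ≤ |u - a| := by
        by_contra h
        push Not at h
        rw [abs_lt] at h
        exact hu ⟨by linarith [h.1], by linarith [h.2]⟩
      have h3 : ‖((u : ℝ) : ℂ) + (t : ℂ) * I - s‖⁻¹ ≤ 1 :=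
        inv_le_one_of_one_le₀ (h2.trans ((le_max_right _ _).trans h1))
      calc ENNReal.ofReal (ρ u) * ENNReal.ofReal (‖((u : ℝ) : ℂ) + (t : ℂ) * I - s‖⁻¹)
          ≤ ENNReal.ofReal (ρ u) * ENNReal.ofReal 1 := by gcongr
        _ = _ := by rw [ENNReal.ofReal_one, mul_one]
  have hmeas : Measurable fun u : ℝ => ENNReal.ofReal (‖((u : ℝ) : ℂ) + (t : ℂ) * I - s‖⁻¹) := by
    fun_prop
  have hρ1 : ∫⁻ u, ENNReal.ofReal (ρ u) = 1 := by
    have h := measure_univ (μ := ν)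
    rw [G.dens, withDensity_apply _ MeasurableSet.univ, Measure.restrict_univ] at h
    exact h
  rw [G.dens, lintegral_withDensity_eq_lintegral_mul _ G.meas.ennreal_ofReal hmeas]
  calc ∫⁻ u, ((fun v => ENNReal.ofReal (ρ v)) * fun u : ℝ =>
        ENNReal.ofReal (‖((u : ℝ) : ℂ) + (t : ℂ) * I - s‖⁻¹)) u
      ≤ ∫⁻ u, (ENNReal.ofReal (ρ u) + (Set.Icc (a - 1) (a + 1)).indicator
          (fun u => ENNReal.ofReal R * ENNReal.ofReal ((max b |u - a|)⁻¹)) u) :=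
        lintegral_mono hpt
    _ = (∫⁻ u, ENNReal.ofReal (ρ u)) + ∫⁻ u, (Set.Icc (a - 1) (a + 1)).indicator
          (fun u => ENNReal.ofReal R * ENNReal.ofReal ((max b |u - a|)⁻¹)) u :=
        lintegral_add_left G.meas.ennreal_ofReal _
    _ = 1 + ENNReal.ofReal R * ENNReal.ofReal (2 * (1 + T)) := by
        rw [hρ1, lintegral_indicator measurableSet_Icc,
          lintegral_const_mul' _ _ ENNReal.ofReal_ne_top, lint_max hb0 hb1, hlog]
    _ = ENNReal.ofReal (1 + 2 * R * (1 + T)) := by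
        rw [← ENNReal.ofReal_mul hR.le, ← ENNReal.ofReal_one,
          ← ENNReal.ofReal_add zero_le_one (by positivity)]
        congr 1
        ring

/-- constant of the logarithmic integral -/
noncomputable def cT (L R T : ℝ) : ℝ := 1 + (L + 1) * (1 + 2 * R * (1 + T))

theorem ae_supp {ν : Measure ℝ} {ρ : ℝ → ℝ} {L δ m κ₀ R η₀ : ℝ}
    (G : GLaw ν ρ L δ m κ₀ R η₀) : ∀ᵐ u ∂ν, |u| ≤ L := by
  have hset : MeasurableSet {u : ℝ | |u| ≤ L}ᶜ :=
    (measurableSet_le continuous_abs.measurable measurable_const).compl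
  rw [ae_iff]
  have e : {a : ℝ | ¬|a| ≤ L} = {u : ℝ | |u| ≤ L}ᶜ := rfl
  rw [e, G.dens, withDensity_apply _ hset]
  rw [← lintegral_indicator hset]
  refine (lintegral_congr fun u => ?_).trans lintegral_zero
  by_cases hu : u ∈ {u : ℝ | |u| ≤ L}ᶜ
  · rw [Set.indicator_of_mem hu]
    have : ρ u = 0 := G.supp u (not_le.1 hu)
    rw [this, ENNReal.ofReal_zero]
  · rw [Set.indicator_of_notMem hu]

theorem log_int {ν : Measure ℝ} {ρ : ℝ → ℝ} {L δ m κ₀ R η₀ : ℝ}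
    (G : GLaw ν ρ L δ m κ₀ R η₀) [IsProbabilityMeasure ν] {s : ℂ} (hs : 0 ≤ s.im) {t T : ℝ}
    (ht : t ≤ -Real.exp (-T)) (ht1 : -1 ≤ t) (hT : 0 ≤ T) :
    ∫⁻ u, ENNReal.ofReal ‖(-I - s) / (((u : ℝ) : ℂ) + (t : ℂ) * I - s)‖ ∂ν ≤
      ENNReal.ofReal (cT L R T) := by
  have hL := G.hL
  have hR := G.hR
  have ht0 : t < 0 := ht.trans_lt (neg_lt_zero.2 (Real.exp_pos _))
  have hmeas : Measurable fun u : ℝ => ENNReal.ofReal (‖((u : ℝ) : ℂ) + (t : ℂ) * I - s‖⁻¹) := by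
    fun_prop
  calc ∫⁻ u, ENNReal.ofReal ‖(-I - s) / (((u : ℝ) : ℂ) + (t : ℂ) * I - s)‖ ∂ν
      ≤ ∫⁻ u, (ENNReal.ofReal 1 + ENNReal.ofReal (L + 1) *
          ENNReal.ofReal (‖((u : ℝ) : ℂ) + (t : ℂ) * I - s‖⁻¹)) ∂ν := by
        refine lintegral_mono_ae ?_
        filter_upwards [ae_supp G] with u hu
        rw [← ENNReal.ofReal_mul (by linarith), ← ENNReal.ofReal_add zero_le_one (by positivity)]
        refine ENNReal.ofReal_le_ofReal ?_
        have h0 := hne hs ht0 u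
        have h1 : 0 < ‖((u : ℝ) : ℂ) + (t : ℂ) * I - s‖ := norm_pos_iff.2 h0
        rw [norm_div, div_le_iff₀ h1]
        have e : (-I - s) = (-I - ((u : ℂ) + (t : ℂ) * I)) + (((u : ℝ) : ℂ) + (t : ℂ) * I - s) := by
          ring
        rw [e]
        refine (norm_add_le _ _).trans ?_
        have h2 := dist_negI hu ht0 ht1
        have h3 : (1 + (L + 1) * ‖((u : ℝ) : ℂ) + (t : ℂ) * I - s‖⁻¹) *
            ‖((u : ℝ) : ℂ) + (t : ℂ) * I - s‖ = ‖((u : ℝ) : ℂ) + (t : ℂ) * I - s‖ + (L + 1) := by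
          field_simp
        rw [h3]
        linarith
    _ = ENNReal.ofReal 1 + ENNReal.ofReal (L + 1) *
          ∫⁻ u, ENNReal.ofReal (‖((u : ℝ) : ℂ) + (t : ℂ) * I - s‖⁻¹) ∂ν := by
        rw [lintegral_add_left measurable_const, lintegral_const, measure_univ, mul_one,
          lintegral_const_mul' _ _ ENNReal.ofReal_ne_top]
    _ ≤ ENNReal.ofReal 1 + ENNReal.ofReal (L + 1) * ENNReal.ofReal (1 + 2 * R * (1 + T)) := by
        gcongr
        exact lint_dist G hs ht hT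
    _ = _ := by
        rw [← ENNReal.ofReal_mul (by linarith), ← ENNReal.ofReal_add zero_le_one (by positivity),
          cT]

/-! ### L3: pointwise density bound -/

/-- interpolation constant -/
noncomputable def cK (L δ η₀ : ℝ) : ℝ := (2 * L + η₀) ^ 2 / (δ * η₀)

/-- constant of `pw` -/
noncomputable def cP (L δ m κ₀ R η₀ : ℝ) : ℝ :=
  (2 * R + 16 / κ₀) * (4 * cK L δ η₀ ^ 2 / m) + 16 / κ₀

theorem pw {ν : Measure ℝ} {ρ : ℝ → ℝ} {L δ m κ₀ R η₀ : ℝ}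
    (G : GLaw ν ρ L δ m κ₀ R η₀) [IsProbabilityMeasure ν] (α B : F) {σ : ℂ} (hσ : 0 < σ.im)
    (v : ℝ) :
    ENNReal.ofReal (ρ v * ‖α + ((v : ℂ) - σ)⁻¹ • B‖ ^ 2) ≤
      ENNReal.ofReal (cP L δ m κ₀ R η₀ * (1 + ‖(v : ℂ) - σ‖⁻¹)) *
        ∫⁻ u, ENNReal.ofReal (‖α + (((u : ℝ) : ℂ) - σ)⁻¹ • B‖ ^ 2) ∂ν := by
  have hL := G.hL
  have hδ := G.hδ
  have hm := G.hm
  have hκ := G.hκ
  have hR := G.hR
  have hη0 := G.hη
  have hρ0 := G.nonneg v
  set K : ℝ := cK L δ η₀ with hK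
  have hK0 : 0 ≤ K := by
    rw [hK, cK]
    positivity
  set f : ℝ → ℝ := fun u => ‖α + ((u : ℂ) - σ)⁻¹ • B‖ ^ 2 with hf
  set E := ∫⁻ u, ENNReal.ofReal (f u) ∂ν with hE
  have hne : ∀ u : ℝ, (u : ℂ) - σ ≠ 0 := by
    intro u h
    have := congrArg Complex.im h
    simp at this
    linarith
  rcases eq_or_lt_of_le hρ0 with h0 | hρ
  · rw [← h0, zero_mul, ENNReal.ofReal_zero]
    exact bot_le
  have hv : |v| ≤ L := by
    by_contra h
    exact hρ.ne' (G.supp v (not_le.1 h))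
  set η : ℝ := ‖(v : ℂ) - σ‖ with hη
  have hηpos : 0 < η := norm_pos_iff.2 (hne v)
  have hdist : ∀ u : ℝ, |u| ≤ L → ‖(u : ℂ) - σ‖ ≤ 2 * L + η := by
    intro u hu
    have e1 : (u : ℂ) - σ = ((u - v : ℝ) : ℂ) + ((v : ℂ) - σ) := by
      push_cast
      ring
    rw [e1]
    refine (norm_add_le _ _).trans ?_
    rw [Complex.norm_real, Real.norm_eq_abs]
    have := abs_sub u v
    linarith
  have hnd : ∀ u₁ u₂ : ℝ, δ ≤ |u₁ - u₂| → (u₁ : ℂ) - (u₂ : ℂ) ≠ 0 := by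
    intro u₁ u₂ h h0
    have e1 : (u₁ : ℂ) - (u₂ : ℂ) = ((u₁ - u₂ : ℝ) : ℂ) := by
      push_cast
      ring
    rw [e1, Complex.ofReal_eq_zero] at h0
    rw [h0, abs_zero] at h
    linarith
  have hnn : ∀ u₁ u₂ : ℝ, ‖(u₁ : ℂ) - (u₂ : ℂ)‖ = |u₁ - u₂| := by
    intro u₁ u₂
    have e1 : (u₁ : ℂ) - (u₂ : ℂ) = ((u₁ - u₂ : ℝ) : ℂ) := by
      push_cast
      ring
    rw [e1, Complex.norm_real, Real.norm_eq_abs]
  have hsq : ∀ a b c : ℝ, 0 ≤ a → 0 ≤ b → 0 ≤ c → c ≤ K * (a + b) →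
      c ^ 2 ≤ 2 * K ^ 2 * (a ^ 2 + b ^ 2) := by
    intro a b c ha hb hc h
    have h1 : c ^ 2 ≤ (K * (a + b)) ^ 2 := pow_le_pow_left₀ hc h 2
    have h2 : (K * (a + b)) ^ 2 = K ^ 2 * (a + b) ^ 2 := by ring
    nlinarith [mul_nonneg (sq_nonneg K) (sq_nonneg (a - b))]
  have hci : ∀ u : ℝ, (1 : ℂ) * ((u : ℂ) - σ)⁻¹ = ((u : ℂ) - σ)⁻¹ := fun u => one_mul _
  by_cases hcase : η₀ ≤ η
  · -- non resonant
    have h1 : ENNReal.ofReal (‖α + ((v : ℂ) - σ)⁻¹ • B‖ ^ 2) ≤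
        ENNReal.ofReal (2 * (2 * K ^ 2) / m) * E := by
      refine two_points G (sq_nonneg _) (by positivity) fun u₁ u₂ hu₁ hu₂ h12 => ?_
      have h21 : δ ≤ |u₂ - u₁| := by rwa [abs_sub_comm]
      have hc : ∀ a b : ℝ, |a| ≤ L → |b| ≤ L → δ ≤ |a - b| →
          ‖(((v : ℂ) - (b : ℂ)) / ((a : ℂ) - (b : ℂ))) * (((a : ℂ) - σ) / ((v : ℂ) - σ))‖
            ≤ K := by
        intro a b ha hb hab
        rw [norm_mul, norm_div, norm_div, hnn, hnn]
        have i1 : |v - b| ≤ 2 * L + η₀ := by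
          have := abs_sub v b
          linarith
        have i2 : ‖(a : ℂ) - σ‖ / ‖(v : ℂ) - σ‖ ≤ (2 * L + η₀) / η₀ := by
          rw [div_le_div_iff₀ hηpos hη0]
          have h3 := hdist a ha
          nlinarith
        have i3 : |v - b| / |a - b| ≤ (2 * L + η₀) / δ := by
          gcongr
        calc |v - b| / |a - b| * (‖(a : ℂ) - σ‖ / ‖(v : ℂ) - σ‖)
            ≤ (2 * L + η₀) / δ * ((2 * L + η₀) / η₀) := by gcongr
          _ = K := by
              rw [hK, cK]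
              field_simp
      have hi := interp α B 1 σ (v : ℂ) (u₁ : ℂ) (u₂ : ℂ) (hne v) (hne u₁) (hne u₂)
        (hnd _ _ h12)
      rw [hci, hci, hci] at hi
      have hn : ‖α + ((v : ℂ) - σ)⁻¹ • B‖ ≤
          K * (‖α + ((u₁ : ℂ) - σ)⁻¹ • B‖ + ‖α + ((u₂ : ℂ) - σ)⁻¹ • B‖) := by
        rw [hi]
        refine (norm_add_le _ _).trans ?_
        rw [norm_smul, norm_smul, mul_add]
        have c1 := hc u₁ u₂ hu₁ hu₂ h12
        have c2 := hc u₂ u₁ hu₂ hu₁ h21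
        gcongr
      exact hsq _ _ _ (norm_nonneg _) (norm_nonneg _) (norm_nonneg _) hn
    calc ENNReal.ofReal (ρ v * ‖α + ((v : ℂ) - σ)⁻¹ • B‖ ^ 2)
        = ENNReal.ofReal (ρ v) * ENNReal.ofReal (‖α + ((v : ℂ) - σ)⁻¹ • B‖ ^ 2) :=
          ENNReal.ofReal_mul hρ0
      _ ≤ ENNReal.ofReal R * (ENNReal.ofReal (2 * (2 * K ^ 2) / m) * E) := by
          gcongr
          exact G.le v
      _ = ENNReal.ofReal (R * (2 * (2 * K ^ 2) / m)) * E := by
          rw [← mul_assoc, ← ENNReal.ofReal_mul hR.le]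
      _ ≤ _ := by
          refine mul_le_mul_left (ENNReal.ofReal_le_ofReal ?_) _
          rw [cP, ← hK]
          have h5 : 0 < 16 / κ₀ := by positivity
          have h6 : 0 ≤ 4 * K ^ 2 / m := by positivity
          have h7 : R * (2 * (2 * K ^ 2) / m) = R * (4 * K ^ 2 / m) := by ring
          have h8 : 0 ≤ η⁻¹ := by positivity
          rw [h7]
          have h9 : R * (4 * K ^ 2 / m) ≤ (2 * R + 16 / κ₀) * (4 * K ^ 2 / m) := by
            gcongr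
            linarith
          have h10 : 0 ≤ (2 * R + 16 / κ₀) * (4 * K ^ 2 / m) := by positivity
          nlinarith
  · -- resonant
    push Not at hcase
    have h1 : ENNReal.ofReal (‖α‖ ^ 2) ≤ ENNReal.ofReal (4 * K ^ 2 / m) * E := by
      have e4 : 4 * K ^ 2 / m = 2 * (2 * K ^ 2) / m := by ring
      rw [e4]
      refine two_points G (sq_nonneg _) (by positivity) fun u₁ u₂ hu₁ hu₂ h12 => ?_
      have hi := interp_const α B 1 σ (u₁ : ℂ) (u₂ : ℂ) (hne u₁) (hne u₂) (hnd _ _ h12)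
      rw [hci, hci] at hi
      have hc : ∀ a : ℝ, |a| ≤ L → ‖((a : ℂ) - σ) / ((u₁ : ℂ) - (u₂ : ℂ))‖ ≤ K := by
        intro a ha
        rw [norm_div, hnn]
        have i1 : ‖(a : ℂ) - σ‖ ≤ 2 * L + η₀ := (hdist a ha).trans (by linarith)
        calc ‖(a : ℂ) - σ‖ / |u₁ - u₂| ≤ (2 * L + η₀) / δ := by gcongr
          _ = (2 * L + η₀) / δ * 1 := (mul_one _).symm
          _ ≤ (2 * L + η₀) / δ * ((2 * L + η₀) / η₀) := by
              gcongr
              rw [le_div_iff₀ hη0]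
              linarith
          _ = K := by
              rw [hK, cK]
              field_simp
      have hn : ‖α‖ ≤ K * (‖α + ((u₁ : ℂ) - σ)⁻¹ • B‖ + ‖α + ((u₂ : ℂ) - σ)⁻¹ • B‖) := by
        have h3 : ‖α‖ = ‖(((u₁ : ℂ) - σ) / ((u₁ : ℂ) - (u₂ : ℂ))) •
            (α + ((u₁ : ℂ) - σ)⁻¹ • B) -
            (((u₂ : ℂ) - σ) / ((u₁ : ℂ) - (u₂ : ℂ))) • (α + ((u₂ : ℂ) - σ)⁻¹ • B)‖ :=
          congrArg norm hi
        rw [h3]
        refine (norm_sub_le _ _).trans ?_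
        rw [norm_smul, norm_smul, mul_add]
        have c1 := hc u₁ hu₁
        have c2 := hc u₂ hu₂
        gcongr
      exact hsq _ _ _ (norm_nonneg _) (norm_nonneg _) (norm_nonneg _) hn
    -- the residue
    have hres : ∫⁻ u, ENNReal.ofReal (‖(((u : ℝ) : ℂ) - σ)⁻¹ • B‖ ^ 2) ∂ν ≤
        ENNReal.ofReal (2 + 2 * (4 * K ^ 2 / m)) * E := by
      calc ∫⁻ u, ENNReal.ofReal (‖(((u : ℝ) : ℂ) - σ)⁻¹ • B‖ ^ 2) ∂ν
          ≤ ∫⁻ u, (ENNReal.ofReal 2 * ENNReal.ofReal (f u) +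
              ENNReal.ofReal 2 * ENNReal.ofReal (‖α‖ ^ 2)) ∂ν := by
            refine lintegral_mono fun u => ?_
            rw [← ENNReal.ofReal_mul (by norm_num), ← ENNReal.ofReal_mul (by norm_num),
              ← ENNReal.ofReal_add (by positivity) (by positivity)]
            refine ENNReal.ofReal_le_ofReal ?_
            have h3 : ‖((u : ℂ) - σ)⁻¹ • B‖ ≤ ‖α + ((u : ℂ) - σ)⁻¹ • B‖ + ‖α‖ := by
              have := norm_sub_le (α + ((u : ℂ) - σ)⁻¹ • B) α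
              rwa [add_sub_cancel_left] at this
            have h4 := pow_le_pow_left₀ (norm_nonneg _) h3 2
            simp only [hf]
            nlinarith [sq_nonneg (‖α + ((u : ℂ) - σ)⁻¹ • B‖ - ‖α‖)]
        _ = ENNReal.ofReal 2 * E + ENNReal.ofReal 2 * ENNReal.ofReal (‖α‖ ^ 2) := by
            rw [lintegral_add_right _ measurable_const, lintegral_const, measure_univ, mul_one,
              lintegral_const_mul' _ _ ENNReal.ofReal_ne_top]
        _ ≤ ENNReal.ofReal 2 * E + ENNReal.ofReal 2 * (ENNReal.ofReal (4 * K ^ 2 / m) * E) := by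
            gcongr
        _ = _ := by
            rw [← mul_assoc, ← ENNReal.ofReal_mul (by norm_num), ← add_mul,
              ← ENNReal.ofReal_add (by norm_num) (by positivity)]
    have h2 : ENNReal.ofReal (κ₀ * ρ v * η * (‖B‖ ^ 2 / (2 * η) ^ 2)) ≤
        ENNReal.ofReal 1 * ∫⁻ u, ENNReal.ofReal (‖(((u : ℝ) : ℂ) - σ)⁻¹ • B‖ ^ 2) ∂ν := by
      refine mass_lower measurableSet_Icc (G.loc v η hηpos hcase.le) (by positivity)
        (by positivity) zero_le_one fun u hu => ?_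
      have h3 : ‖(u : ℂ) - σ‖ ≤ 2 * η := by
        have e1 : (u : ℂ) - σ = ((u - v : ℝ) : ℂ) + ((v : ℂ) - σ) := by
          push_cast
          ring
        rw [e1]
        refine (norm_add_le _ _).trans ?_
        rw [Complex.norm_real, Real.norm_eq_abs]
        have h4 : |u - v| ≤ η := by
          rw [abs_le]
          exact ⟨by linarith [hu.1], by linarith [hu.2]⟩
        linarith
      have h5 : 0 < ‖(u : ℂ) - σ‖ := norm_pos_iff.2 (hne u)
      rw [one_mul, norm_smul, norm_inv, mul_pow ‖(u : ℂ) - σ‖⁻¹, inv_pow, ← div_eq_inv_mul]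
      gcongr
    have h3 : ρ v * ‖α + ((v : ℂ) - σ)⁻¹ • B‖ ^ 2 ≤
        2 * R * ‖α‖ ^ 2 + 8 / (κ₀ * η) * (κ₀ * ρ v * η * (‖B‖ ^ 2 / (2 * η) ^ 2)) := by
      have h4 : ‖α + ((v : ℂ) - σ)⁻¹ • B‖ ≤ ‖α‖ + ‖B‖ / η := by
        refine (norm_add_le _ _).trans ?_
        rw [norm_smul, norm_inv, ← div_eq_inv_mul]
      have h5 : ‖α + ((v : ℂ) - σ)⁻¹ • B‖ ^ 2 ≤ 2 * ‖α‖ ^ 2 + 2 * (‖B‖ ^ 2 / η ^ 2) := by
        have h6 := pow_le_pow_left₀ (norm_nonneg _) h4 2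
        have h7 : (‖B‖ / η) ^ 2 = ‖B‖ ^ 2 / η ^ 2 := by rw [div_pow]
        nlinarith [sq_nonneg (‖α‖ - ‖B‖ / η)]
      have h10 : 8 / (κ₀ * η) * (κ₀ * ρ v * η * (‖B‖ ^ 2 / (2 * η) ^ 2)) =
          ρ v * (2 * (‖B‖ ^ 2 / η ^ 2)) := by
        field_simp
        ring
      rw [h10]
      have h11 := G.le v
      calc ρ v * ‖α + ((v : ℂ) - σ)⁻¹ • B‖ ^ 2
          ≤ ρ v * (2 * ‖α‖ ^ 2 + 2 * (‖B‖ ^ 2 / η ^ 2)) :=
            mul_le_mul_of_nonneg_left h5 hρ0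
        _ = ρ v * (2 * ‖α‖ ^ 2) + ρ v * (2 * (‖B‖ ^ 2 / η ^ 2)) := by ring
        _ ≤ R * (2 * ‖α‖ ^ 2) + ρ v * (2 * (‖B‖ ^ 2 / η ^ 2)) := by gcongr
        _ = _ := by ring
    calc ENNReal.ofReal (ρ v * ‖α + ((v : ℂ) - σ)⁻¹ • B‖ ^ 2)
        ≤ ENNReal.ofReal (2 * R * ‖α‖ ^ 2 +
            8 / (κ₀ * η) * (κ₀ * ρ v * η * (‖B‖ ^ 2 / (2 * η) ^ 2))) :=
          ENNReal.ofReal_le_ofReal h3
      _ = ENNReal.ofReal (2 * R) * ENNReal.ofReal (‖α‖ ^ 2) + ENNReal.ofReal (8 / (κ₀ * η)) *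
            ENNReal.ofReal (κ₀ * ρ v * η * (‖B‖ ^ 2 / (2 * η) ^ 2)) := by
          rw [ENNReal.ofReal_add (by positivity) (by positivity), ENNReal.ofReal_mul (by positivity),
            ENNReal.ofReal_mul (p := 8 / (κ₀ * η)) (by positivity)]
      _ ≤ ENNReal.ofReal (2 * R) * (ENNReal.ofReal (4 * K ^ 2 / m) * E) +
            ENNReal.ofReal (8 / (κ₀ * η)) *
            (ENNReal.ofReal 1 * (ENNReal.ofReal (2 + 2 * (4 * K ^ 2 / m)) * E)) := by
          gcongr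
          exact h2.trans (by gcongr)
      _ = ENNReal.ofReal (2 * R * (4 * K ^ 2 / m) + 8 / (κ₀ * η) * (2 + 2 * (4 * K ^ 2 / m))) *
            E := by
          rw [ENNReal.ofReal_one, one_mul, ← mul_assoc, ← mul_assoc,
            ← ENNReal.ofReal_mul (by positivity), ← ENNReal.ofReal_mul (by positivity),
            ← add_mul, ← ENNReal.ofReal_add (by positivity) (by positivity)]
      _ ≤ _ := by
          refine mul_le_mul_left (ENNReal.ofReal_le_ofReal ?_) _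
          rw [cP, ← hK]
          have e : 8 / (κ₀ * η) * (2 + 2 * (4 * K ^ 2 / m)) =
              (16 / κ₀ * (4 * K ^ 2 / m) + 16 / κ₀) * η⁻¹ := by
            field_simp
            ring
          rw [e]
          have h8 : 0 < η⁻¹ := by positivity
          have h6 : 0 ≤ 4 * K ^ 2 / m := by positivity
          have h7 : 0 < 16 / κ₀ := by positivity
          have h9 : 0 ≤ R * (4 * K ^ 2 / m) := by positivity
          have h10 : 0 ≤ 16 / κ₀ * (4 * K ^ 2 / m) := by positivity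
          nlinarith [mul_nonneg h9 h8.le]

/-! ### L4: pair events -/

/-- constant of `pair_event` -/
noncomputable def cE (L δ m κ₀ R η₀ : ℝ) : ℝ :=
  20 * (L + 1) * (L + 2) * cP L δ m κ₀ R η₀ + 4 * (L + 2)

theorem cP_nonneg {ν : Measure ℝ} {ρ : ℝ → ℝ} {L δ m κ₀ R η₀ : ℝ}
    (G : GLaw ν ρ L δ m κ₀ R η₀) : 0 ≤ cP L δ m κ₀ R η₀ := by
  have hm := G.hm
  have hκ := G.hκ
  have hR := G.hR
  rw [cP]
  positivity

theorem pair_geom {L u t r : ℝ} {s s' : ℂ} (hL : 0 ≤ L) (hs : 0 ≤ s.im) (hs' : 0 ≤ s'.im)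
    (hu : |u| ≤ L) (ht : t < 0) (ht1 : -1 ≤ t) (hr : 4 * (L + 2) ≤ r)
    (h : r * ‖(-I - s) / ((u : ℂ) + (t : ℂ) * I - s)‖ <
      ‖(-I - s') / ((u : ℂ) + (t : ℂ) * I - s')‖) :
    0 < ‖s - s'‖ ∧ ‖(u : ℂ) + (t : ℂ) * I - s‖⁻¹ ≤ 3 / (2 * ‖s - s'‖) ∧
      |u - s'.re| ≤ 4 * (L + 1) * (L + 2) / r * min 1 ‖s - s'‖ := by
  set N := ‖(u : ℂ) + (t : ℂ) * I - s‖ with hN
  set N' := ‖(u : ℂ) + (t : ℂ) * I - s'‖ with hN'
  have hN0 : 0 < N := norm_pos_iff.2 (hne hs ht u)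
  have hN'0 : 0 < N' := norm_pos_iff.2 (hne hs' ht u)
  have hP := one_le_negI hs
  have hrat := ratio_negI hL hs hu ht ht1
  rw [← hN] at hrat
  set P := ‖-I - s‖ with hPd
  have hP0 : 0 < P := by linarith
  rw [div_le_iff₀ hP0] at hrat
  have hP' : ‖-I - s'‖ ≤ (L + 1) + N' := by
    have e : -I - s' = (-I - ((u : ℂ) + (t : ℂ) * I)) + ((u : ℂ) + (t : ℂ) * I - s') := by ring
    rw [e]
    exact (norm_add_le _ _).trans (by gcongr; exact dist_negI hu ht ht1)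
  rw [norm_div, norm_div, ← hN, ← hN', ← hPd, lt_div_iff₀ hN'0] at h
  have hr0 : 0 < r := by linarith
  have h1 : r * P * N' < ((L + 1) + N') * N := by
    have h2 : r * (P / N) * N' * N < ‖-I - s'‖ * N := by gcongr
    have h3 : r * (P / N) * N' * N = r * P * N' := by
      field_simp
    rw [h3] at h2
    exact h2.trans_le (by gcongr)
  have h4 : N' * N ≤ r / 2 * P * N' := by
    have h5 : N ≤ r / 2 * P := by
      refine hrat.trans ?_
      gcongr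
      linarith
    calc N' * N ≤ N' * (r / 2 * P) := by gcongr
      _ = _ := by ring
  have h6 : r * P * N' < 2 * (L + 1) * N := by nlinarith
  have h7 : r * N' ≤ 2 * (L + 1) * N := by
    have : r * N' ≤ r * P * N' := by
      have : r * 1 * N' ≤ r * P * N' := by gcongr
      linarith
    linarith
  have h8 : r * N' ≤ 2 * (L + 1) * (L + 2) := by
    have h9 : r * P * N' ≤ 2 * (L + 1) * ((L + 2) * P) := h6.le.trans (by gcongr)
    have h10 : (r * N') * P ≤ (2 * (L + 1) * (L + 2)) * P := by linarith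
    exact le_of_mul_le_mul_right h10 hP0
  have h11 : N' ≤ N / 2 := by
    have h12 : r * N' ≤ r * (N / 2) := by
      refine h7.trans ?_
      nlinarith
    exact le_of_mul_le_mul_left h12 hr0
  have hD1 : ‖s - s'‖ ≤ N + N' := by
    have e : s - s' = ((u : ℂ) + (t : ℂ) * I - s') - ((u : ℂ) + (t : ℂ) * I - s) := by ring
    rw [e]
    refine (norm_sub_le _ _).trans ?_
    linarith
  have hD2 : N ≤ N' + ‖s - s'‖ := by
    have e : (u : ℂ) + (t : ℂ) * I - s = ((u : ℂ) + (t : ℂ) * I - s') - (s - s') := by ring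
    rw [hN, e]
    exact norm_sub_le _ _
  have hD : 0 < ‖s - s'‖ := by linarith
  have hre : |u - s'.re| ≤ N' := by
    have h := Complex.abs_re_le_norm ((u : ℂ) + (t : ℂ) * I - s')
    have e : ((u : ℂ) + (t : ℂ) * I - s').re = u - s'.re := by simp
    rwa [e] at h
  refine ⟨hD, ?_, hre.trans ?_⟩
  · rw [inv_eq_one_div, div_le_div_iff₀ hN0 (by positivity)]
    linarith
  · rcases min_cases 1 ‖s - s'‖ with ⟨h, _⟩ | ⟨h, _⟩
    · rw [h, mul_one, le_div_iff₀ hr0]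
      nlinarith
    · rw [h, div_mul_eq_mul_div, le_div_iff₀ hr0]
      have h13 : N ≤ 2 * ‖s - s'‖ := by linarith
      have h14 : 2 * (L + 1) * N ≤ 2 * (L + 1) * (2 * ‖s - s'‖) := by gcongr
      have h15 : 0 ≤ (L + 1) * ‖s - s'‖ * L := by positivity
      nlinarith

theorem pair_event {ν : Measure ℝ} {ρ : ℝ → ℝ} {L δ m κ₀ R η₀ : ℝ}
    (G : GLaw ν ρ L δ m κ₀ R η₀) [IsProbabilityMeasure ν] (α B : F) {s s' : ℂ} (hs : 0 ≤ s.im)
    (hs' : 0 ≤ s'.im) {t r : ℝ} (ht : t < 0) (ht1 : -1 ≤ t) (hr : 0 < r) :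
    ∫⁻ u in {u : ℝ | r * ‖(-I - s) / ((u : ℂ) + (t : ℂ) * I - s)‖ <
        ‖(-I - s') / ((u : ℂ) + (t : ℂ) * I - s')‖},
      ENNReal.ofReal (‖α + (((u : ℝ) : ℂ) + (t : ℂ) * I - s)⁻¹ • B‖ ^ 2) ∂ν ≤
      ENNReal.ofReal (cE L δ m κ₀ R η₀ / r) *
        ∫⁻ u, ENNReal.ofReal (‖α + (((u : ℝ) : ℂ) + (t : ℂ) * I - s)⁻¹ • B‖ ^ 2) ∂ν := by
  have hL := G.hL
  have hP := cP_nonneg G
  set J := {u : ℝ | r * ‖(-I - s) / ((u : ℂ) + (t : ℂ) * I - s)‖ <
        ‖(-I - s') / ((u : ℂ) + (t : ℂ) * I - s')‖} with hJ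
  set f : ℝ → ℝ := fun u => ‖α + (((u : ℝ) : ℂ) + (t : ℂ) * I - s)⁻¹ • B‖ ^ 2 with hf
  set E := ∫⁻ u, ENNReal.ofReal (f u) ∂ν with hE
  by_cases hrr : r < 4 * (L + 2)
  · refine (setLIntegral_le_lintegral _ _).trans ?_
    have h1 : 1 ≤ cE L δ m κ₀ R η₀ / r := by
      rw [one_le_div hr, cE]
      have : 0 ≤ 20 * (L + 1) * (L + 2) * cP L δ m κ₀ R η₀ := by positivity
      linarith
    calc E = ENNReal.ofReal 1 * E := by rw [ENNReal.ofReal_one, one_mul]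
      _ ≤ _ := by gcongr
  push Not at hrr
  have hJm : MeasurableSet J := by
    refine measurableSet_lt ?_ ?_ <;> fun_prop
  set D := ‖s - s'‖ with hD
  set a := s'.re with ha
  set ℓ := 4 * (L + 1) * (L + 2) / r * min 1 D with hℓ
  have hℓ0 : 0 ≤ ℓ := by
    have : 0 ≤ min 1 D := le_min zero_le_one (norm_nonneg _)
    positivity
  have hfm : Measurable f := by
    simp only [hf]
    have h0 : Continuous fun u : ℝ => (((u : ℝ) : ℂ) + (t : ℂ) * I - s)⁻¹ := by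
      refine Continuous.inv₀ (by fun_prop) fun u => hne hs ht u
    have h1 : Continuous fun u : ℝ => ‖α + (((u : ℝ) : ℂ) + (t : ℂ) * I - s)⁻¹ • B‖ ^ 2 :=
      ((continuous_const.add (h0.smul continuous_const)).norm).pow 2
    exact h1.measurable
  have hσ : ∀ u : ℝ, ((u : ℂ) + (t : ℂ) * I - s) = (u : ℂ) - (s - (t : ℂ) * I) := fun u => by ring
  have hσi : 0 < (s - (t : ℂ) * I).im := by
    simp
    linarith
  have hpt : ∀ u : ℝ, J.indicator (fun u => ENNReal.ofReal (ρ u) * ENNReal.ofReal (f u)) u ≤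
      (Set.Icc (a - ℓ) (a + ℓ)).indicator
        (fun _ => ENNReal.ofReal (cP L δ m κ₀ R η₀ * (1 + 3 / (2 * D))) * E) u := by
    intro u
    by_cases huJ : u ∈ J
    · rw [Set.indicator_of_mem huJ]
      by_cases hu : |u| ≤ L
      · obtain ⟨h1, h2, h3⟩ := pair_geom hL hs hs' hu ht ht1 hrr huJ
        have h4 : u ∈ Set.Icc (a - ℓ) (a + ℓ) := by
          rw [abs_le] at h3
          exact ⟨by linarith [h3.1], by linarith [h3.2]⟩
        rw [Set.indicator_of_mem h4, ← ENNReal.ofReal_mul (G.nonneg u)]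
        have h5 := pw G α B hσi u
        simp only [← hσ] at h5
        refine h5.trans ?_
        gcongr
      · have : ρ u = 0 := G.supp u (not_le.1 hu)
        rw [this, ENNReal.ofReal_zero, zero_mul]
        exact bot_le
    · rw [Set.indicator_of_notMem huJ]
      exact bot_le
  rw [← lintegral_indicator hJm, G.dens,
    lintegral_withDensity_eq_lintegral_mul _ G.meas.ennreal_ofReal
      (hfm.ennreal_ofReal.indicator hJm)]
  calc ∫⁻ u, ((fun v => ENNReal.ofReal (ρ v)) *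
        J.indicator fun u => ENNReal.ofReal (f u)) u
      ≤ ∫⁻ u, (Set.Icc (a - ℓ) (a + ℓ)).indicator
        (fun _ => ENNReal.ofReal (cP L δ m κ₀ R η₀ * (1 + 3 / (2 * D))) * E) u := by
        refine lintegral_mono fun u => le_trans (le_of_eq ?_) (hpt u)
        simp only [Pi.mul_apply]
        by_cases huJ : u ∈ J
        · rw [Set.indicator_of_mem huJ, Set.indicator_of_mem huJ]
        · rw [Set.indicator_of_notMem huJ, Set.indicator_of_notMem huJ, mul_zero]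
    _ = ENNReal.ofReal (cP L δ m κ₀ R η₀ * (1 + 3 / (2 * D))) * E *
          ENNReal.ofReal (2 * ℓ) := by
        rw [lintegral_indicator measurableSet_Icc, setLIntegral_const, Real.volume_Icc]
        congr 2
        ring
    _ = ENNReal.ofReal (cP L δ m κ₀ R η₀ * (1 + 3 / (2 * D)) * (2 * ℓ)) * E := by
        rw [mul_right_comm, ← ENNReal.ofReal_mul (by positivity)]
    _ ≤ _ := by
        refine mul_le_mul_left (ENNReal.ofReal_le_ofReal ?_) _
        have h1 : min 1 D * (1 + 3 / (2 * D)) ≤ 5 / 2 := by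
          rcases eq_or_lt_of_le (norm_nonneg (s - s')) with h0 | h0
          · have : D = 0 := h0.symm
            rw [this]
            norm_num
          · have h0' : 0 < D := h0
            have h2 : min 1 D * (3 / (2 * D)) ≤ 3 / 2 := by
              calc min 1 D * (3 / (2 * D)) ≤ D * (3 / (2 * D)) := by
                    gcongr
                    exact min_le_right _ _
                _ = 3 / 2 := by
                    field_simp
            have h3 : min 1 D ≤ 1 := min_le_left _ _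
            linarith
        have e1 : cP L δ m κ₀ R η₀ * (1 + 3 / (2 * D)) * (2 * ℓ) =
            8 * (L + 1) * (L + 2) * cP L δ m κ₀ R η₀ / r * (min 1 D * (1 + 3 / (2 * D))) := by
          rw [hℓ]
          ring
        rw [e1]
        have h4 : 0 ≤ 8 * (L + 1) * (L + 2) * cP L δ m κ₀ R η₀ / r := by positivity
        calc 8 * (L + 1) * (L + 2) * cP L δ m κ₀ R η₀ / r * (min 1 D * (1 + 3 / (2 * D)))
            ≤ 8 * (L + 1) * (L + 2) * cP L δ m κ₀ R η₀ / r * (5 / 2) := by gcongr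
          _ = 20 * (L + 1) * (L + 2) * cP L δ m κ₀ R η₀ / r := by ring
          _ ≤ cE L δ m κ₀ R η₀ / r := by
              rw [cE]
              gcongr
              linarith

/-! ### the three lemmas in the form `w t = (t - E) - i e` -/

section Shifted

variable {ν : Measure ℝ} {ρ : ℝ → ℝ} {L δ m κ₀ R η₀ : ℝ}

theorem lint_shift (E : ℝ) {φ : ℝ → ℝ≥0∞} (hφ : Measurable φ) :
    ∫⁻ u, φ u ∂(ν.map fun v => v - E) = ∫⁻ v, φ (v - E) ∂ν :=
  lintegral_map hφ (measurable_id.sub_const E)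

theorem prob_shift [IsProbabilityMeasure ν] (E : ℝ) :
    IsProbabilityMeasure (ν.map fun v => v - E) :=
  Measure.isProbabilityMeasure_map (measurable_id.sub_const E).aemeasurable

theorem w_eq (E e t : ℝ) :
    (((t - E : ℝ) : ℂ) - (e : ℂ) * I) = (((t - E : ℝ) : ℂ) + ((-e : ℝ) : ℂ) * I) := by
  push_cast
  ring

/-- constants -/
noncomputable def K1 (L R E : ℝ) : ℝ := 1 + (L + |E| + 1) * (1 + 2 * R)
noncomputable def K0 (L δ m E : ℝ) : ℝ := cI (L + |E|) δ m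
noncomputable def K2 (L δ m κ₀ R η₀ E : ℝ) : ℝ := cE (L + |E|) δ m κ₀ R η₀

/-- (S1) -/
theorem S1 (G : GLaw ν ρ L δ m κ₀ R η₀) [IsProbabilityMeasure ν] (E : ℝ) {s : ℂ} (hs : 0 ≤ s.im)
    {e T : ℝ} (hT : 0 ≤ T) (he : Real.exp (-T) ≤ e) (he1 : e ≤ 1) :
    ∫⁻ t, ENNReal.ofReal ‖(-I - s) / ((((t : ℝ) - E : ℝ) : ℂ) - (e : ℂ) * I - s)‖ ∂ν ≤
      ENNReal.ofReal (K1 L R E * (1 + T)) := by
  haveI := prob_shift (ν := ν) E
  have hL := G.hL
  have hR := G.hR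
  have hE := abs_nonneg E
  have h := log_int (G.shift E) hs (t := -e) (T := T) (by linarith) (by linarith) hT
  rw [lint_shift E (by fun_prop)] at h
  simp only [w_eq]
  refine h.trans (ENNReal.ofReal_le_ofReal ?_)
  rw [cT, K1]
  have h1 : 0 ≤ (L + |E| + 1) * T := by positivity
  nlinarith

/-- (S2) -/
theorem S2 (G : GLaw ν ρ L δ m κ₀ R η₀) (E : ℝ) (α β : ℂ) {s : ℂ} (hs : 0 ≤ s.im)
    {e : ℝ} (he : 0 < e) (he1 : e ≤ 1) :
    ENNReal.ofReal (‖α + β / (-I - s)‖ ^ 2) ≤ ENNReal.ofReal (K0 L δ m E) *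
      ∫⁻ t, ENNReal.ofReal (‖α + β / ((((t : ℝ) - E : ℝ) : ℂ) - (e : ℂ) * I - s)‖ ^ 2) ∂ν := by
  have h := at_I (G.shift E) α β hs (t := -e) (by linarith) (by linarith)
  rw [lint_shift E (by fun_prop)] at h
  simp only [w_eq, div_eq_inv_mul]
  simpa only [smul_eq_mul, K0] using h

/-- (S2), vector form -/
theorem S2v (G : GLaw ν ρ L δ m κ₀ R η₀) (E : ℝ) (α B : F) {s : ℂ} (hs : 0 ≤ s.im)
    {e : ℝ} (he : 0 < e) (he1 : e ≤ 1) :
    ENNReal.ofReal (‖α + (-I - s)⁻¹ • B‖ ^ 2) ≤ ENNReal.ofReal (K0 L δ m E) *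
      ∫⁻ t, ENNReal.ofReal (‖α + ((((t : ℝ) - E : ℝ) : ℂ) - (e : ℂ) * I - s)⁻¹ • B‖ ^ 2) ∂ν := by
  have h := at_I (G.shift E) α B hs (t := -e) (by linarith) (by linarith)
  have hc : Continuous fun u : ℝ => ‖α + (((u : ℝ) : ℂ) + ((-e : ℝ) : ℂ) * I - s)⁻¹ • B‖ ^ 2 := by
    have h0 : Continuous fun u : ℝ => (((u : ℝ) : ℂ) + ((-e : ℝ) : ℂ) * I - s)⁻¹ :=
      Continuous.inv₀ (by fun_prop) fun u => hne hs (by linarith) u
    exact ((continuous_const.add (h0.smul continuous_const)).norm).pow 2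
  rw [lint_shift E hc.measurable.ennreal_ofReal] at h
  simp only [w_eq]
  exact h

/-- (S3), vector form -/
theorem S3v (G : GLaw ν ρ L δ m κ₀ R η₀) [IsProbabilityMeasure ν] (E : ℝ) (α B : F) {s s' : ℂ}
    (hs : 0 ≤ s.im) (hs' : 0 ≤ s'.im) {e r : ℝ} (he : 0 < e) (he1 : e ≤ 1) (hr : 0 < r) :
    ∫⁻ t in {t : ℝ | r * ‖(-I - s) / ((((t : ℝ) - E : ℝ) : ℂ) - (e : ℂ) * I - s)‖ <
        ‖(-I - s') / ((((t : ℝ) - E : ℝ) : ℂ) - (e : ℂ) * I - s')‖},
      ENNReal.ofReal (‖α + ((((t : ℝ) - E : ℝ) : ℂ) - (e : ℂ) * I - s)⁻¹ • B‖ ^ 2) ∂ν ≤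
      ENNReal.ofReal (K2 L δ m κ₀ R η₀ E / r) *
        ∫⁻ t, ENNReal.ofReal (‖α + ((((t : ℝ) - E : ℝ) : ℂ) - (e : ℂ) * I - s)⁻¹ • B‖ ^ 2) ∂ν := by
  haveI := prob_shift (ν := ν) E
  have h := pair_event (G.shift E) α B hs hs' (t := -e) (by linarith) (by linarith) hr
  have hc : Continuous fun u : ℝ => ‖α + (((u : ℝ) : ℂ) + ((-e : ℝ) : ℂ) * I - s)⁻¹ • B‖ ^ 2 := by
    have h0 : Continuous fun u : ℝ => (((u : ℝ) : ℂ) + ((-e : ℝ) : ℂ) * I - s)⁻¹ :=
      Continuous.inv₀ (by fun_prop) fun u => hne hs (by linarith) u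
    exact ((continuous_const.add (h0.smul continuous_const)).norm).pow 2
  have hJ : MeasurableSet {u : ℝ | r * ‖(-I - s) / ((u : ℂ) + ((-e : ℝ) : ℂ) * I - s)‖ <
        ‖(-I - s') / ((u : ℂ) + ((-e : ℝ) : ℂ) * I - s')‖} := by
    refine measurableSet_lt ?_ ?_ <;> fun_prop
  rw [lint_shift E hc.measurable.ennreal_ofReal, ← lintegral_indicator hJ,
    lint_shift E (hc.measurable.ennreal_ofReal.indicator hJ)] at h
  simp only [w_eq]
  have hJ' : MeasurableSet {t : ℝ | r * ‖(-I - s) /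
        ((((t : ℝ) - E : ℝ) : ℂ) + ((-e : ℝ) : ℂ) * I - s)‖ <
        ‖(-I - s') / ((((t : ℝ) - E : ℝ) : ℂ) + ((-e : ℝ) : ℂ) * I - s')‖} := by
    refine measurableSet_lt ?_ ?_ <;> fun_prop
  rw [← lintegral_indicator hJ']
  exact h

/-- (S3) -/
theorem S3 (G : GLaw ν ρ L δ m κ₀ R η₀) [IsProbabilityMeasure ν] (E : ℝ) (α β : ℂ) {s s' : ℂ}
    (hs : 0 ≤ s.im) (hs' : 0 ≤ s'.im) {e r : ℝ} (he : 0 < e) (he1 : e ≤ 1) (hr : 0 < r) :
    ∫⁻ t in {t : ℝ | r * ‖(-I - s) / ((((t : ℝ) - E : ℝ) : ℂ) - (e : ℂ) * I - s)‖ <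
        ‖(-I - s') / ((((t : ℝ) - E : ℝ) : ℂ) - (e : ℂ) * I - s')‖},
      ENNReal.ofReal (‖α + β / ((((t : ℝ) - E : ℝ) : ℂ) - (e : ℂ) * I - s)‖ ^ 2) ∂ν ≤
      ENNReal.ofReal (K2 L δ m κ₀ R η₀ E / r) *
        ∫⁻ t, ENNReal.ofReal (‖α + β / ((((t : ℝ) - E : ℝ) : ℂ) - (e : ℂ) * I - s)‖ ^ 2) ∂ν := by
  have h := S3v G E α β hs hs' he he1 hr
  simp only [smul_eq_mul, ← div_eq_inv_mul] at h
  exact h

end Shifted

end ISL37

end P365T1
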