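import Vale.Agent.P365.ISL.Geo77
import Vale.Agent.P365.H417.CellSh
import Vale.Agent.P365.ISL.Final701

/-!
# P365-T1, (HC): the row identity at the centre of a matched block of the torus
-/

set_option linter.all false

namespace P365T1.Link

open P365L P365O P365T1 Vale.Agent.P365.C937 Vale.Agent.P365.J376 P365SH P365T1.H417 P365T1.ISL
open Matrix Complex MeasureTheory
open scoped ENNReal

/-- the conclusion of 417's `cell_of_shield` at the frozen potential -/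
structure CellGood (E lam' κ : ℝ) (ms R0 r : ℕ) (Vs : ℤ × ℤ → ℝ) (y : Xr r) : Prop where
  hκ : 0 < κ
  y1 : |(y : ℤ × ℤ).1| < R0
  y2 : |(y : ℤ × ℤ).2| < R0
  Vs_le : ∀ x, |Vs x| ≤ lam'
  sE_le : |sE r Vs E y| ≤ lam'
  cell : ∀ (ι : Type) [Fintype ι] [DecidableEq ι] (A : Matrix ι ι ℝ) (W : ι → ℂ)
    (φ : ℤ × ℤ → ι) (u : ℝ), BoxEmb A r φ → (∀ x, (W x).im < 0) →
    (∀ a : Xr r, a ≠ y → ‖W (φ a) - ((Vs a - E : ℝ) : ℂ)‖ ≤ u) →
    2 * u * (2 * (r : ℝ) + 1) ^ (ms + 2) ≤ 1 → 0 ≤ u →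
    (∀ z, z ∉ φ '' (Xr r) →
      ‖tt A W (LcX φ y) (φ y) z‖ ≤ 32 * (2 * (r : ℝ) + 1) ^ ms * κ ^ (r - R0)) ∧
    ‖tt A W (LcX φ y) (φ y) (φ y) - ((sE r Vs E y - E : ℝ) : ℂ)‖ ≤
      32 * (2 * (r : ℝ) + 1) ^ (2 * ms + 2) * u

/-- all large cells are good -/
theorem exists_cellGood {lam E : ℝ} (hlam : 0 < lam) (hE : |E| < 4 + lam) :
    ∃ (κ lam' : ℝ) (ms R0 r0 : ℕ), 0 < κ ∧ κ < 1 ∧ 0 < lam' ∧ lam' < lam ∧
      ∀ r : ℕ, r0 ≤ r → ∃ (Vs : ℤ × ℤ → ℝ) (y : Xr r), CellGood E lam' κ ms R0 r Vs y := by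
  obtain ⟨κ, lam', m, R0, r0, h1, h2, h3, h4, h⟩ := cell_of_shield hlam hE
  refine ⟨κ, lam', m, R0, r0, h1, h2, h3, h4, fun r hr => ?_⟩
  obtain ⟨Vs, y, a1, a2, a3, a4⟩ := h r hr
  obtain ⟨b1, b2⟩ := a4 Vs fun a _ => by
    rw [sub_self, abs_zero]
    positivity
  exact ⟨Vs, y, ⟨h1, a1, a2, a3, b1, b2⟩⟩

section torus

variable {N : ℕ} {x : Tor N} {r : ℕ}

theorem LcX_eq [NeZero N] (y : Xr r) : LcX (ph x (y : ℤ × ℤ)) y = LcT x (y : ℤ × ℤ) r := by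
  ext z
  rw [mem_LcX, LcT, Finset.mem_image]
  constructor
  · rintro ⟨a, ha, hz⟩
    refine ⟨(a : ℤ × ℤ), Finset.mem_erase.2 ⟨fun h => ha (Subtype.ext h), a.2⟩, hz⟩
  · rintro ⟨a, ha, hz⟩
    obtain ⟨h1, h2⟩ := Finset.mem_erase.1 ha
    exact ⟨⟨a, h2⟩, fun h => h1 (congrArg Subtype.val h), hz⟩

theorem boxEmb [NeZero N] (hN : 2 * r + 2 < N) (y0 : ℤ × ℤ) : BoxEmb (AT N) r (ph x y0) := by
  constructor
  · exact AT_symm N
  · intro z
    calc ∑ k, |AT N z k| = ∑ k, AT N z k :=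
          Finset.sum_congr rfl fun k _ => abs_of_nonneg (AT_nonneg z k)
      _ ≤ 4 := row_sum_le z
  · intro a ha b hb h
    exact ph_inj (x := x) (y0 := y0) hN (Xr_mono (by omega) ha) (Xr_mono (by omega) hb) h
  · intro a b
    rw [AT_ph hN a.2 b.2]
    rfl
  · intro a ha z hz
    by_contra hne
    obtain ⟨b, hb, hzb⟩ := AT_ph_ne hne
    refine hz ⟨b, ?_, hzb.symm⟩
    rw [Finset.mem_coe, mem_Xr]
    simp only [nb4, Finset.mem_insert, Finset.mem_singleton] at hb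
    rcases hb with rfl | rfl | rfl | rfl <;> simp only <;> omega

end torus

section row

variable {D : V3} {ρ : Measure ℝ} {N : ℕ} [NeZero N] {i r : ℕ} {c : Loc} {y : Xr r}
  {Vs : ℤ × ℤ → ℝ} {w E lam' κ : ℝ} {ms R0 : ℕ}

/-- **ROW on the torus**: at the centre of a matched block, for almost every potential -/
theorem CellIn.row_ae (hC : CellIn D i r c (y : ℤ × ℤ) Vs w) (h : D.Ok ρ) (hi : i ≤ D.I)
    (hmN : D.m i ∣ N) (hG : CellGood E lam' κ ms R0 r Vs y) (hw : 0 ≤ w)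
    (hu : 2 * (w + D.b) * (2 * (r : ℝ) + 1) ^ (ms + 2) ≤ 1) {δ : ℝ}
    (hδ1 : 32 * (2 * (r : ℝ) + 1) ^ ms * κ ^ (r - R0) ≤ δ)
    (hδ2 : 32 * (2 * (r : ℝ) + 1) ^ (2 * ms + 2) * (w + D.b) ≤ δ)
    {l : Tor N → D.Λ} {x : Tor N} (hx : D.cen i l x) {s : ℝ} (hs : 0 ≤ s) :
    ∀ᵐ v ∂(Measure.pi fun z => D.ν (l z)),
      Row (AT N) E (D.prof (i + 1) s l) x (ST x (y : ℤ × ℤ) r)
        ((sE r Vs E y - E : ℝ) : ℂ) δ v := by
  have hN := hC.N_gt hmN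
  have hb := h.b_pos
  have he : ∀ z, 0 < D.prof (i + 1) s l z := fun z => h.prof_pos (by omega) hs l z
  have hcb := cbox (x := x) hN hC.y1 hC.y2
  filter_upwards [hC.ae_win h hmN hx] with v hv
  have hW := WV_neg (E := E) he v
  have hphy : ph x (y : ℤ × ℤ) (y : ℤ × ℤ) = x := ph_self
  have hcell := hG.cell (Tor N) (AT N) (WV E (D.prof (i + 1) s l) v) (ph x (y : ℤ × ℤ)) (w + D.b)
    (boxEmb hN _) hW (fun a ha => by
      have ha' : (a : ℤ × ℤ) ≠ y := fun h' => ha (Subtype.ext h')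
      have hz : ph x (y : ℤ × ℤ) a ∈ LcT x (y : ℤ × ℤ) r :=
        Finset.mem_image.2 ⟨a, Finset.mem_erase.2 ⟨ha', a.2⟩, rfl⟩
      have h1 := hC.prof_Lc h hi hmN hx s hz
      have h2 := hv a a.2 ha'
      refine norm_sub_le_of_window ?_ (hW _) ?_
      · have h3 : (WV E (D.prof (i + 1) s l) v (ph x (y : ℤ × ℤ) a)).re =
            v (ph x (y : ℤ × ℤ) a) - E := by simp [WV]
        rw [h3]
        have h4 : v (ph x (y : ℤ × ℤ) a) - E - (Vs a - E) = v (ph x (y : ℤ × ℤ) a) - Vs a := by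
          ring
        rw [h4]
        exact h2
      · rw [WV_im, neg_neg, h1])
    hu (by linarith)
  rw [LcX_eq, hphy] at hcell
  obtain ⟨h1, h2⟩ := hcell
  refine ⟨fun z => tt (AT N) (WV E (D.prof (i + 1) s l) v) (LcT x (y : ℤ × ℤ) r) x z,
    tt (AT N) (WV E (D.prof (i + 1) s l) v) (LcT x (y : ℤ × ℤ) r) x x, ?_, h2.trans hδ2, ?_⟩
  · intro z hz
    refine (h1 z ?_).trans hδ1
    rintro ⟨a, ha, haz⟩
    obtain ⟨b, hb', hbz⟩ := Finset.mem_image.1 hz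
    obtain ⟨hbX, hbr⟩ := Finset.mem_sdiff.1 hb'
    refine hbr ?_
    rw [ph_inj (x := x) (y0 := (y : ℤ × ℤ)) hN hbX (Xr_mono (by omega) ha) (by rw [hbz, haz])]
    exact ha
  · intro F hyF hF z hz
    have hWF := wF_neg (E := E) he F v
    have hzL : z ∉ LcT x (y : ℤ × ℤ) r := by
      intro hzL
      rcases Finset.mem_insert.1 hz with rfl | hzS
      · exact hcb.yL hzL
      · exact Finset.disjoint_left.1 hcb.LS hzL hzS
    have h3 := hcb.row' (AT_symm N) hWF hW (fun k hk => ?_) hzL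
    · rw [wF_mem hyF] at h3
      exact h3
    · refine (wF_not_mem ?_).symm
      intro hkF
      rcases Finset.mem_insert.1 (hF hkF) with rfl | hkS
      · exact hcb.yL hk
      · exact Finset.disjoint_left.1 hcb.LS hk hkS

end row

end P365T1.Link
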