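import Vale.Agent.P365.H229.Sink

/-!
# P365 T1, chapter C (insulated site lemma, 18390), step (5): the self-energy bound at a sink

Pure finite algebra.  `m` = Green matrix on the ports, `p z = G_zy`, `q z = G_zx`, `γ = G_yx`, all at
`v = -i`;  `D z = V z + i`;  `th z = 1 - D z * m z z`;  `H z a = p a - γ * m z a / q z` for `a ≠ z`.
-/

set_option autoImplicit false
set_option linter.all false

namespace P365T1.ISL145

open Complex Finset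

variable {κ : Type*} [Fintype κ] [DecidableEq κ]

theorem sqle {a b : ℝ} (h : a ^ 2 ≤ b ^ 2) (hb : 0 ≤ b) : a ≤ b := by
  by_contra hc
  have hc' : b < a := not_le.1 hc
  nlinarith

/-- `|X_zz| ≤ |th_z|/2` etc.: the elementary consequences of (A) at a site with `|th_z| > R1` -/
theorem pre {p q D th X γ m : ℂ} {c s T ρ : ℝ}
    (hs0 : 0 < s) (hss : s ^ 2 = T) (hT : T = ‖th‖) (hρ : 0 < ρ) (hρs : ρ < s) (hρ1 : 1 ≤ ρ)
    (hc0 : 0 ≤ c) (hc2 : 2 * c ≤ ρ)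
    (hD1 : 1 ≤ ‖D‖) (hD2 : ‖D‖ ^ 2 ≤ 2) (hp : ‖p‖ ^ 2 ≤ 3 * ‖th‖) (hγ : γ ≠ 0)
    (hthd : th = 1 - D * m)
    (hXd : X = th + D * q * p / γ) (hXn : ‖X‖ ≤ c * s) :
    q ≠ 0 ∧ ‖p‖ ≤ 2 * s ∧ ‖D‖ ≤ 3 / 2 ∧ ‖m‖ ≤ 2 * T ∧ ‖γ / q * (X / th)‖ ≤ 6 * c / T := by
  have hT0 : 0 < T := by rw [← hss]; positivity
  have hs1 : 1 < s := lt_of_le_of_lt hρ1 hρs
  have hT1 : 1 < T := by rw [← hss]; nlinarith
  have hXT : ‖X‖ ≤ T / 2 := by
    rw [← hss]; nlinarith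
  have hpz : ‖p‖ ≤ 2 * s := by
    refine sqle ?_ (by positivity)
    rw [← hT, ← hss] at hp
    nlinarith
  have hDn : ‖D‖ ≤ 3 / 2 := by
    refine sqle ?_ (by norm_num)
    norm_num; linarith
  have hbig : T / 2 ≤ ‖D * q * p / γ‖ := by
    have h1 : th = X - D * q * p / γ := by rw [hXd]; ring
    have h2 : ‖th‖ ≤ ‖X‖ + ‖D * q * p / γ‖ := by
      calc ‖th‖ = ‖X - D * q * p / γ‖ := by rw [← h1]
        _ ≤ _ := norm_sub_le _ _
    rw [← hT] at h2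
    linarith
  have hq : q ≠ 0 := by
    intro h0
    rw [h0] at hbig
    simp at hbig
    linarith
  have hm : ‖m‖ ≤ 2 * T := by
    have h1 : D * m = 1 - th := by rw [hthd]; ring
    have h2 : ‖D‖ * ‖m‖ ≤ 1 + T := by
      rw [← norm_mul, h1]
      calc ‖1 - th‖ ≤ ‖(1 : ℂ)‖ + ‖th‖ := norm_sub_le _ _
        _ = 1 + T := by rw [norm_one, hT]
    have h3 : ‖m‖ ≤ ‖D‖ * ‖m‖ := le_mul_of_one_le_left (norm_nonneg _) hD1
    linarith
  refine ⟨hq, hpz, hDn, hm, ?_⟩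
  have h1 := P365T1.ISL.norm_gam_div_q_le (gam := γ) (th := th) (X := X) hq hγ hXd
    (by rw [← hT]; exact hXT)
  rw [← hT] at h1
  have h2 : ‖γ / q‖ * T ≤ 6 * s := by
    have : ‖D‖ * ‖p‖ ≤ 3 / 2 * (2 * s) := mul_le_mul hDn hpz (norm_nonneg _) (by norm_num)
    linarith
  have h3 : ‖γ / q‖ * s ≤ 6 := by
    have h4 : (‖γ / q‖ * s) * s ≤ 6 * s := by
      calc (‖γ / q‖ * s) * s = ‖γ / q‖ * s ^ 2 := by ring
        _ = ‖γ / q‖ * T := by rw [hss]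
        _ ≤ 6 * s := h2
    exact le_of_mul_le_mul_right h4 hs0
  rw [norm_mul, norm_div X, ← hT]
  have h5 : ‖γ / q‖ * ‖X‖ ≤ 6 * c := by
    calc ‖γ / q‖ * ‖X‖ ≤ ‖γ / q‖ * (c * s) := mul_le_mul_of_nonneg_left hXn (norm_nonneg _)
      _ = c * (‖γ / q‖ * s) := by ring
      _ ≤ c * 6 := mul_le_mul_of_nonneg_left h3 hc0
      _ = 6 * c := by ring
  rw [← mul_div_assoc]
  exact div_le_div_of_nonneg_right h5 hT0.le

/-- the final numerical sum -/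
theorem num {c s T ρ r δ k R x μ : ℝ} (hs0 : 0 < s) (hss : s ^ 2 = T) (hρ : 0 < ρ) (hρs : ρ ≤ s)
    (hs1 : 1 ≤ s)
    (hc0 : 0 ≤ c) (hr1 : 1 ≤ r) (hδ : 0 ≤ δ) (hδ1 : δ ≤ 1) (hk : 1 ≤ k) (hR : 0 ≤ R)
    (hx : x ≤ 2 * s) (hx0 : 0 ≤ x) (hμ : μ ≤ 2 * T) :
    δ * (x / T) + k * (δ * R) + k * (δ * (7 * (r * ρ))) +
        6 * c / T * ((1 + δ) * x + δ * μ + k * (δ * (3 / 2 * r * ρ * s))) ≤
      24 * (c / ρ) + δ * k * (2 + R + 7 * (r * ρ) + 21 * (c * r)) := by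
  have hT0 : 0 < T := by rw [← hss]; positivity
  have h1 : x / T ≤ 2 := by
    rw [div_le_iff₀ hT0, ← hss]; nlinarith
  have h2 : 6 * c / T * ((1 + δ) * x + δ * μ + k * (δ * (3 / 2 * r * ρ * s))) ≤
      6 * c / T * (4 * s + δ * (2 * T) + k * (δ * (3 / 2 * r * s * s))) := by
    apply mul_le_mul_of_nonneg_left _ (by positivity)
    have a1 : (1 + δ) * x ≤ 4 * s := by nlinarith
    have a2 : δ * μ ≤ δ * (2 * T) := mul_le_mul_of_nonneg_left hμ hδ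
    have a3 : k * (δ * (3 / 2 * r * ρ * s)) ≤ k * (δ * (3 / 2 * r * s * s)) := by
      gcongr
    linarith
  have h3 : 6 * c / T * (4 * s + δ * (2 * T) + k * (δ * (3 / 2 * r * s * s))) =
      24 * (c / s) + 12 * (c * δ) + 9 * (c * r * (k * δ)) := by
    rw [← hss]; field_simp; ring
  have h4 : c / s ≤ c / ρ := div_le_div_of_nonneg_left hc0 hρ hρs
  have h5 : 12 * (c * δ) ≤ 12 * (c * r * (k * δ)) := by
    have : c * δ ≤ c * r * (k * δ) := by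
      have b1 : δ ≤ k * δ := le_mul_of_one_le_left hδ hk
      have b2 : c ≤ c * r := le_mul_of_one_le_right hc0 hr1
      calc c * δ ≤ (c * r) * (k * δ) := mul_le_mul b2 b1 hδ (by positivity)
        _ = c * r * (k * δ) := by ring
    linarith
  have h6 : δ * (x / T) ≤ δ * k * 2 := by
    have b1 : δ * (x / T) ≤ δ * 2 := mul_le_mul_of_nonneg_left h1 hδ
    have b2 : δ * 2 ≤ δ * k * 2 := by nlinarith
    linarith
  nlinarith

/-- `(5)`, deterministic half: at a sink `z` of the set `{|th| > R1}` the sum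
`∑ t_a G^{[z]}_{ay}` (= `(h^{[z]} - h0)/(-i - h^{[z]})`) is small. -/
theorem sink_bound {m : κ → κ → ℂ} {p q t D th : κ → ℂ} {γ h0 : ℂ} {z : κ}
    {Cx R1 r1 R δ : ℝ}
    (hm : ∀ a b, m a b = m b a)
    (hthd : ∀ a, th a = 1 - D a * m a a)
    (hD1 : 1 ≤ ‖D z‖) (hD2 : ‖D z‖ ^ 2 ≤ 2)
    (hp : ∀ a, ‖p a‖ ^ 2 ≤ 3 * ‖th a‖)
    (hrow : ∑ a, t a * m a z = (-I - h0) * p z)
    (hP : ∀ a, a ≠ z → ‖m z a‖ ^ 2 ≤ 2 * r1 * (‖th z‖ * ‖th a‖))
    (ht : ∀ a, ‖t a‖ ≤ δ) (hh0 : ‖h0‖ ≤ δ) (hδ1 : δ ≤ 1)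
    (hγ : γ ≠ 0)
    (hX : ‖th z + D z * q z * p z / γ‖ ^ 2 ≤ Cx * ‖th z‖)
    (hCx : 0 ≤ Cx) (hR1 : 1 ≤ R1) (hR1C : 4 * Cx ≤ R1) (hr1 : 1 ≤ r1) (hR : 0 ≤ R)
    (hz : R1 < ‖th z‖)
    (hH : ∀ a, a ≠ z → R1 < ‖th a‖ → ‖p a - γ * m z a / q z‖ ≤ R) :
    ‖∑ a, t a * (p a + D z * m a z * p z / th z)‖ ≤
      24 * Real.sqrt (Cx / R1) +
        δ * Fintype.card κ *
          (2 + R + 7 * Real.sqrt (r1 * R1) + 21 * Real.sqrt (Cx * r1)) := by
  classical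
  have hR0 : 0 < R1 := by linarith
  have hT0 : 0 < ‖th z‖ := by linarith
  have hth0 : th z ≠ 0 := norm_pos_iff.1 hT0
  have hδ : 0 ≤ δ := le_trans (norm_nonneg _) (ht z)
  obtain ⟨s, hs⟩ : ∃ s, s = Real.sqrt ‖th z‖ := ⟨_, rfl⟩
  have hs0 : 0 < s := by rw [hs]; exact Real.sqrt_pos.2 hT0
  have hss : s ^ 2 = ‖th z‖ := by rw [hs]; exact Real.sq_sqrt hT0.le
  obtain ⟨c, hc⟩ : ∃ c, c = Real.sqrt Cx := ⟨_, rfl⟩
  have hc0 : 0 ≤ c := by rw [hc]; exact Real.sqrt_nonneg _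
  have hcc : c ^ 2 = Cx := by rw [hc]; exact Real.sq_sqrt hCx
  obtain ⟨ρ, hρ⟩ : ∃ ρ, ρ = Real.sqrt R1 := ⟨_, rfl⟩
  have hρ0 : 0 < ρ := by rw [hρ]; exact Real.sqrt_pos.2 hR0
  have hρρ : ρ ^ 2 = R1 := by rw [hρ]; exact Real.sq_sqrt hR0.le
  have hρ1 : 1 ≤ ρ := by rw [hρ]; exact Real.one_le_sqrt.2 hR1
  have hρs : ρ < s := by rw [hρ, hs]; exact Real.sqrt_lt_sqrt hR0.le hz
  obtain ⟨r, hr⟩ : ∃ r, r = Real.sqrt r1 := ⟨_, rfl⟩
  have hrr : r ^ 2 = r1 := by rw [hr]; exact Real.sq_sqrt (by linarith)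
  have hr1' : 1 ≤ r := by rw [hr]; exact Real.one_le_sqrt.2 hr1
  have hXn : ‖th z + D z * q z * p z / γ‖ ≤ c * s := by
    refine sqle ?_ (mul_nonneg hc0 hs0.le)
    rw [mul_pow, hcc, hss]; exact hX
  have hc2 : 2 * c ≤ ρ := by
    refine sqle ?_ hρ0.le
    rw [mul_pow, hcc, hρρ]; linarith
  obtain ⟨hq, hpz, hDn, hmz, hK⟩ := pre (p := p z) (q := q z) (D := D z) (th := th z)
    (X := th z + D z * q z * p z / γ) (γ := γ) (m := m z z) hs0 hss rfl hρ0 hρs hρ1 hc0 hc2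
    hD1 hD2 (hp z) hγ (hthd z) rfl hXn
  have hoff : ∀ a, a ≠ z → ‖th a‖ ≤ R1 → ‖m z a‖ ≤ 3 / 2 * r * ρ * s := by
    intro a ha hta
    refine sqle ?_ (by positivity)
    have h2 : ‖th z‖ * ‖th a‖ ≤ ‖th z‖ * R1 := mul_le_mul_of_nonneg_left hta hT0.le
    calc ‖m z a‖ ^ 2 ≤ 2 * r1 * (‖th z‖ * ‖th a‖) := hP a ha
      _ ≤ 2 * r1 * (‖th z‖ * R1) := by
          apply mul_le_mul_of_nonneg_left h2; linarith
      _ ≤ (3 / 2 * r * ρ * s) ^ 2 := by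
          have h3 : (3 / 2 * r * ρ * s) ^ 2 = 9 / 4 * (r ^ 2 * ρ ^ 2 * s ^ 2) := by ring
          rw [h3, hrr, hρρ, hss]
          have h4 : 0 ≤ r1 * R1 * ‖th z‖ := by positivity
          nlinarith
  have h := P365T1.ISL.sink_sum_le (S := Finset.univ)
    (Z := Finset.univ.filter fun a => R1 < ‖th a‖) (Finset.subset_univ _)
    (m := m) (p := p) (q := q) (t := t) (D := D) (th := th)
    (X := fun a => th a + D a * q a * p a / γ) (gam := γ) (h0 := h0) (z := z)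
    (by simp [hz]) (δ := δ) (K := 6 * c / ‖th z‖) (B := R) (B2 := 7 * (r * ρ))
    (B3 := 3 / 2 * r * ρ * s) hδ hR (by positivity) (by positivity) hγ hq hth0 (hthd z) rfl
    (by rw [← hrow]; exact Finset.sum_congr rfl fun a _ => by rw [hm a z])
    (fun a _ => ht a) hh0
    (by
      intro a ha haz
      simp only [Finset.mem_filter, Finset.mem_univ, true_and] at ha
      exact hH a haz ha)
    (by
      intro a _ ha
      simp only [Finset.mem_filter, Finset.mem_univ, true_and, not_lt] at ha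
      have haz : a ≠ z := by
        intro h0; rw [h0] at ha; linarith
      have h1 : ‖p a‖ ≤ 2 * ρ := by
        refine sqle ?_ (by positivity)
        have := hp a
        rw [mul_pow, hρρ]; linarith
      have h2 := hoff a haz ha
      have h3 : ‖m z a * D z * p z / th z‖ ≤ 9 / 2 * (r * ρ) := by
        rw [norm_div, norm_mul, norm_mul, div_le_iff₀ hT0]
        calc ‖m z a‖ * ‖D z‖ * ‖p z‖ ≤ (3 / 2 * r * ρ * s) * (3 / 2) * (2 * s) := by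
              gcongr
          _ = 9 / 2 * (r * ρ) * s ^ 2 := by ring
          _ = 9 / 2 * (r * ρ) * ‖th z‖ := by rw [hss]
      calc ‖p a + m z a * D z * p z / th z‖ ≤ ‖p a‖ + ‖m z a * D z * p z / th z‖ :=
            norm_add_le _ _
        _ ≤ 2 * ρ + 9 / 2 * (r * ρ) := add_le_add h1 h3
        _ ≤ 7 * (r * ρ) := by nlinarith)
    (by
      intro a _ ha
      simp only [Finset.mem_filter, Finset.mem_univ, true_and, not_lt] at ha
      exact hoff a (by intro h0; rw [h0] at ha; linarith) ha)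
    hK
  have hsum : ∑ a, t a * (p a + D z * m a z * p z / th z) =
      ∑ a, t a * (p a + m z a * D z * p z / th z) :=
    Finset.sum_congr rfl fun a _ => by rw [hm a z]; ring
  rw [hsum]
  have hk1 : (1 : ℝ) ≤ Fintype.card κ := by
    have : 0 < Fintype.card κ := Fintype.card_pos_iff.2 ⟨z⟩
    exact_mod_cast this
  have hn := num (c := c) (s := s) (T := ‖th z‖) (ρ := ρ) (r := r) (δ := δ)
    (k := (Fintype.card κ : ℝ)) (R := R) (x := ‖p z‖) (μ := ‖m z z‖) hs0 hss hρ0 hρs.le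
    (le_trans hρ1 hρs.le) hc0 hr1' hδ hδ1 hk1 hR hpz (norm_nonneg _) hmz
  rw [Finset.card_univ] at h
  have e1 : Real.sqrt (Cx / R1) = c / ρ := by rw [Real.sqrt_div hCx, hc, hρ]
  have e2 : Real.sqrt (r1 * R1) = r * ρ := by rw [Real.sqrt_mul (by linarith), hr, hρ]
  have e3 : Real.sqrt (Cx * r1) = c * r := by rw [Real.sqrt_mul hCx, hc, hr]
  rw [e1, e2, e3]
  exact le_trans h hn

end P365T1.ISL145
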