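import Mathlib.LinearAlgebra.Matrix.Determinant.Basic
import Mathlib.LinearAlgebra.Matrix.AbsoluteValue
import Mathlib.Analysis.SpecialFunctions.Pow.Real
import Mathlib.Analysis.Complex.Norm
import Mathlib.Tactic

/-!
# P365-T1, insulated site lemma (18390), steps (3) and (5): the sink

One fixed potential on the ports.  `m` = Green function on the ports, `p` = its `y` column, `q` =
its column of the far vector, `γ` = the far amplitude at `y`, `D = V + i`.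
-/

set_option autoImplicit false
set_option linter.all false

namespace P365ISL.Sink

open Matrix Finset

variable {κ : Type*} [Fintype κ] [DecidableEq κ]

/-- principal minor on `W` -/
noncomputable def pm (M : Matrix κ κ ℂ) (W : Finset κ) : ℂ :=
  (M.submatrix (Subtype.val : W → κ) Subtype.val).det

/-- `1 - D m` -/
def Th (D : κ → ℂ) (m : Matrix κ κ ℂ) : Matrix κ κ ℂ :=
  Matrix.of fun z z' => (if z = z' then 1 else 0) - D z * m z z'

/-- `1 - D m + γ⁻¹ (D q) pᵀ` -/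
noncomputable def Xm (D : κ → ℂ) (m : Matrix κ κ ℂ) (p q : κ → ℂ) (γ : ℂ) : Matrix κ κ ℂ :=
  Matrix.of fun z z' => Th D m z z' + D z * q z * p z' / γ

/-- `γ / (D q) X` -/
noncomputable def Hm (D : κ → ℂ) (m : Matrix κ κ ℂ) (p q : κ → ℂ) (γ : ℂ) : Matrix κ κ ℂ :=
  Matrix.of fun z z' => γ / (D z * q z) * Xm D m p q γ z z'

theorem pm_col (M : Matrix κ κ ℂ) (a : κ → ℂ) (W : Finset κ) :
    pm (Matrix.of fun i j => a i * M i j) W = (∏ i ∈ W, a i) * pm M W := by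
  unfold pm
  have h := Matrix.det_mul_column (fun i : W => a i) (M.submatrix (Subtype.val : W → κ) Subtype.val)
  rw [Finset.prod_coe_sort W a] at h
  exact h

theorem pm_row (M : Matrix κ κ ℂ) (a : κ → ℂ) (W : Finset κ) :
    pm (Matrix.of fun i j => a j * M i j) W = (∏ i ∈ W, a i) * pm M W := by
  unfold pm
  have h := Matrix.det_mul_row (fun i : W => a i) (M.submatrix (Subtype.val : W → κ) Subtype.val)
  rw [Finset.prod_coe_sort W a] at h
  exact h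

/-- scaled Leibniz bound -/
theorem norm_pm_le (M : Matrix κ κ ℂ) {b : κ → ℝ} {ν : ℝ} (W : Finset κ) (hb : ∀ z ∈ W, 0 < b z)
    (hν : 0 ≤ ν) (h : ∀ z ∈ W, ∀ z' ∈ W, ‖M z z'‖ ≤ ν * (b z * b z')) :
    ‖pm M W‖ ≤ ((W.card : ℝ) * ν) ^ W.card * ∏ z ∈ W, b z ^ 2 := by
  set N : Matrix κ κ ℂ := Matrix.of fun i j => ((b j : ℂ))⁻¹ *
    (Matrix.of fun i j => ((b i : ℂ))⁻¹ * M i j : Matrix κ κ ℂ) i j with hN
  have h1 : pm N W = (∏ i ∈ W, ((b i : ℂ))⁻¹) * ((∏ i ∈ W, ((b i : ℂ))⁻¹) * pm M W) := by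
    rw [hN, pm_row, pm_col]
  have h2 : ∀ i j : W, ‖(N.submatrix (Subtype.val : W → κ) Subtype.val) i j‖ ≤ ν := by
    intro i j
    have hi := hb i i.2
    have hj := hb j j.2
    have h3 : ‖(N.submatrix (Subtype.val : W → κ) Subtype.val) i j‖ =
        (b j)⁻¹ * ((b i)⁻¹ * ‖M i j‖) := by
      simp only [hN, Matrix.submatrix_apply, Matrix.of_apply, norm_mul, norm_inv,
        Complex.norm_real, Real.norm_eq_abs, abs_of_pos hi, abs_of_pos hj]
    rw [h3]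
    have h4 := h i i.2 j j.2
    calc (b j)⁻¹ * ((b i)⁻¹ * ‖M i j‖) ≤ (b j)⁻¹ * ((b i)⁻¹ * (ν * (b i * b j))) := by gcongr
      _ = ν := by field_simp
  have h5 := Matrix.det_le (abv := IsAbsoluteValue.toAbsoluteValue (norm : ℂ → ℝ))
    (A := N.submatrix (Subtype.val : W → κ) Subtype.val) (x := ν) h2
  have h6 : ‖pm N W‖ ≤ (Nat.factorial W.card : ℝ) * ν ^ W.card := by
    have : ‖pm N W‖ ≤ Nat.factorial (Fintype.card W) • ν ^ Fintype.card W := h5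
    rwa [Fintype.card_coe, nsmul_eq_mul] at this
  have hP : 0 < ∏ z ∈ W, b z := Finset.prod_pos hb
  have h7 : ‖pm N W‖ = (∏ z ∈ W, b z)⁻¹ * ((∏ z ∈ W, b z)⁻¹ * ‖pm M W‖) := by
    have h8 : ‖∏ i ∈ W, ((b i : ℂ))⁻¹‖ = (∏ z ∈ W, b z)⁻¹ := by
      rw [norm_prod, ← Finset.prod_inv_distrib]
      refine Finset.prod_congr rfl fun z hz => ?_
      rw [norm_inv, Complex.norm_real, Real.norm_eq_abs, abs_of_pos (hb z hz)]
    rw [h1, norm_mul, norm_mul, h8]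
  have h9 : (Nat.factorial W.card : ℝ) ≤ (W.card : ℝ) ^ W.card := by
    exact_mod_cast Nat.factorial_le_pow W.card
  rw [Finset.prod_pow, mul_pow]
  have h10 : ‖pm M W‖ = (∏ z ∈ W, b z) ^ 2 * ‖pm N W‖ := by
    rw [h7]
    field_simp
  rw [h10, mul_comm]
  gcongr
  exact h6.trans (mul_le_mul_of_nonneg_right h9 (by positivity))

theorem pm_singleton (M : Matrix κ κ ℂ) (z : κ) : pm M {z} = M z z := by
  unfold pm
  haveI : Unique (({z} : Finset κ) : Type _) :=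
    ⟨⟨⟨z, Finset.mem_singleton_self z⟩⟩, fun a => Subtype.ext (Finset.mem_singleton.1 a.2)⟩
  rw [Matrix.det_unique, Matrix.submatrix_apply]
  have h : ((default : ({z} : Finset κ)) : κ) = z := Finset.mem_singleton.1 (default : ({z} : Finset κ)).2
  rw [h]

/-- the facts at one potential of the ports.  `μ² = 2 r₁`. -/
structure Fact (D : κ → ℂ) (m : Matrix κ κ ℂ) (p q t : κ → ℂ) (γ h0 : ℂ) (Λ Ct ε μ δ : ℝ) :
    Prop where
  D1 : ∀ z, 1 ≤ ‖D z‖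
  D2 : ∀ z, ‖D z‖ ≤ 3 / 2
  symm : ∀ z z', m z z' = m z' z
  p_le : ∀ z, ‖p z‖ ^ 2 ≤ 3 * ‖Th D m z z‖
  row : ∀ z, ∑ z', t z' * m z' z = (-Complex.I - h0) * p z
  t_le : ∀ z, ‖t z‖ ≤ δ
  h0_le : ‖h0‖ ≤ 1
  m_le : ∀ z z', z ≠ z' → ‖m z z'‖ ^ 2 ≤ μ ^ 2 * (‖Th D m z z‖ * ‖Th D m z' z'‖)
  minors : ∀ W : Finset κ, ‖pm (Xm D m p q γ) W‖ ^ 2 ≤ Λ ^ W.card * ‖pm (Th D m) W‖ ^ (1 + ε)
  th_le : ∀ z, ‖Th D m z z‖ ^ ε ≤ Ct

variable {D : κ → ℂ} {m : Matrix κ κ ℂ} {p q t : κ → ℂ} {γ h0 : ℂ} {Λ Ct ε μ δ : ℝ}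

/-- `√|θ_z|` -/
noncomputable def bb (D : κ → ℂ) (m : Matrix κ κ ℂ) (z : κ) : ℝ := Real.sqrt ‖Th D m z z‖

theorem bb_sq (z : κ) : bb D m z ^ 2 = ‖Th D m z z‖ := Real.sq_sqrt (norm_nonneg _)

theorem bb_nonneg (z : κ) : 0 ≤ bb D m z := Real.sqrt_nonneg _

/-- the set of resonant ports -/
noncomputable def Zs (D : κ → ℂ) (m : Matrix κ κ ℂ) (ρ : ℝ) : Finset κ :=
  Finset.univ.filter fun z => ρ < bb D m z

theorem mem_Zs {ρ : ℝ} {z : κ} : z ∈ Zs D m ρ ↔ ρ < bb D m z := by simp [Zs]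

namespace Fact

variable (F : Fact D m p q t γ h0 Λ Ct ε μ δ)

include F

theorem norm_p_le (z : κ) : ‖p z‖ ≤ 2 * bb D m z := by
  have h := F.p_le z
  rw [← bb_sq] at h
  have hb := bb_nonneg (D := D) (m := m) z
  exact abs_le_of_sq_le_sq' (by nlinarith [sq_nonneg (bb D m z)]) (by positivity) |>.2

theorem norm_m_le (hμ : 0 ≤ μ) {z z' : κ} (h : z ≠ z') :
    ‖m z z'‖ ≤ μ * (bb D m z * bb D m z') := by
  have h1 := F.m_le z z' h
  rw [← bb_sq, ← bb_sq] at h1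
  have hb := bb_nonneg (D := D) (m := m) z
  have hb' := bb_nonneg (D := D) (m := m) z'
  refine le_of_sq_le_sq (h1.trans (le_of_eq (by ring))) (by positivity)

theorem norm_m_self_le (z : κ) : ‖m z z‖ ≤ 1 + bb D m z ^ 2 := by
  have h1 : D z * m z z = 1 - Th D m z z := by simp [Th]
  have h2 : ‖D z‖ * ‖m z z‖ ≤ 1 + bb D m z ^ 2 := by
    rw [← norm_mul, h1, bb_sq]
    exact (norm_sub_le _ _).trans (by rw [norm_one])
  have h3 : 1 * ‖m z z‖ ≤ ‖D z‖ * ‖m z z‖ :=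
    mul_le_mul_of_nonneg_right (F.D1 z) (norm_nonneg _)
  linarith

theorem Ct_one (hε : 0 ≤ ε) (z : κ) (hz : 1 ≤ bb D m z) : 1 ≤ Ct :=
  (Real.one_le_rpow (by rw [← bb_sq]; nlinarith) hε).trans (F.th_le z)

/-- `|θ|^{1+ε} ≤ Ct |θ|` -/
theorem rpow_le (z : κ) (hz : 0 < bb D m z) : (bb D m z ^ 2) ^ (1 + ε) ≤ Ct * bb D m z ^ 2 := by
  have h0 : 0 < bb D m z ^ 2 := by positivity
  rw [Real.rpow_add h0, Real.rpow_one, mul_comm]
  have h1 := F.th_le z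
  rw [← bb_sq] at h1
  exact mul_le_mul_of_nonneg_right h1 h0.le

theorem norm_X_le {lam : ℝ} (hΛ : 0 ≤ Λ) (hlam : 0 ≤ lam) (h2 : Λ * Ct ≤ lam ^ 2) (z : κ)
    (hz : 0 < bb D m z) : ‖Xm D m p q γ z z‖ ≤ lam * bb D m z := by
  have h1 := F.minors {z}
  rw [pm_singleton, pm_singleton, Finset.card_singleton, pow_one, ← bb_sq] at h1
  have h3 := F.rpow_le z hz
  refine le_of_sq_le_sq ?_ (by positivity)
  calc ‖Xm D m p q γ z z‖ ^ 2 ≤ Λ * (bb D m z ^ 2) ^ (1 + ε) := h1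
    _ ≤ Λ * (Ct * bb D m z ^ 2) := by gcongr
    _ = (Λ * Ct) * bb D m z ^ 2 := by ring
    _ ≤ lam ^ 2 * bb D m z ^ 2 := by gcongr
    _ = (lam * bb D m z) ^ 2 := by ring

/-- every resonant port separates `y` from the far vector: the amplitudes do not vanish -/
theorem ne_zero {lam ρ : ℝ} (hΛ : 0 ≤ Λ) (hlam : 0 ≤ lam) (h2 : Λ * Ct ≤ lam ^ 2)
    (hρ : 2 * lam ≤ ρ) (hρ1 : 1 ≤ ρ) {z : κ} (hz : z ∈ Zs D m ρ) :
    bb D m z ^ 2 / 2 ≤ ‖D z * q z * p z / γ‖ ∧ γ ≠ 0 ∧ q z ≠ 0 ∧ D z ≠ 0 := by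
  rw [mem_Zs] at hz
  have hb : 0 < bb D m z := by linarith
  have h3 := F.norm_X_le hΛ hlam h2 z hb
  have h4 : D z * q z * p z / γ = Xm D m p q γ z z - Th D m z z := by simp [Xm]
  have h5 : bb D m z ^ 2 / 2 ≤ ‖D z * q z * p z / γ‖ := by
    rw [h4, norm_sub_rev]
    have h6 := norm_sub_norm_le (Th D m z z) (Xm D m p q γ z z)
    rw [← bb_sq] at h6
    have h7 : lam * bb D m z ≤ bb D m z ^ 2 / 2 := by nlinarith
    linarith
  have h6 : D z * q z * p z / γ ≠ 0 := by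
    intro h0
    rw [h0, norm_zero] at h5
    have : 0 < bb D m z ^ 2 := by positivity
    linarith
  refine ⟨h5, fun h => h6 (by rw [h, div_zero]), fun h => h6 (by rw [h]; simp), fun h => h6 (by
    rw [h]; simp)⟩

theorem norm_g_le {lam ρ : ℝ} (hΛ : 0 ≤ Λ) (hlam : 0 ≤ lam) (h2 : Λ * Ct ≤ lam ^ 2)
    (hρ : 2 * lam ≤ ρ) (hρ1 : 1 ≤ ρ) {z : κ} (hz : z ∈ Zs D m ρ) :
    ‖γ / (D z * q z)‖ ≤ 4 / bb D m z := by
  obtain ⟨h5, hγ, hq, hD⟩ := F.ne_zero hΛ hlam h2 hρ hρ1 hz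
  rw [mem_Zs] at hz
  have hb : 0 < bb D m z := by linarith
  have h6 : γ / (D z * q z) * (D z * q z * p z / γ) = p z := by field_simp
  have h7 : ‖γ / (D z * q z)‖ * ‖D z * q z * p z / γ‖ ≤ 2 * bb D m z := by
    rw [← norm_mul, h6]
    exact F.norm_p_le z
  have h8 : ‖γ / (D z * q z)‖ * (bb D m z ^ 2 / 2) ≤ 2 * bb D m z :=
    (mul_le_mul_of_nonneg_left h5 (norm_nonneg _)).trans h7
  rw [le_div_iff₀ hb]
  have h9 : (‖γ / (D z * q z)‖ * bb D m z) * bb D m z ≤ 4 * bb D m z := by nlinarith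
  exact le_of_mul_le_mul_right h9 hb

/-- **(i)** minors of `1 - D m` -/
theorem norm_pm_Th_le (hμ : 1 ≤ μ) {W : Finset κ} (hW : ∀ z ∈ W, 0 < bb D m z) :
    ‖pm (Th D m) W‖ ≤ (2 * (Fintype.card κ : ℝ) * μ) ^ W.card * ∏ z ∈ W, bb D m z ^ 2 := by
  have h1 := norm_pm_le (Th D m) (b := bb D m) (ν := 2 * μ) W hW (by linarith) ?_
  · refine h1.trans ?_
    have hc : (W.card : ℝ) ≤ Fintype.card κ := by exact_mod_cast Finset.card_le_univ W
    have : 0 ≤ ∏ z ∈ W, bb D m z ^ 2 := Finset.prod_nonneg fun z _ => sq_nonneg _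
    have h2 : (W.card : ℝ) * (2 * μ) ≤ 2 * (Fintype.card κ : ℝ) * μ := by nlinarith
    gcongr
  · intro z hz z' hz'
    have hb := hW z hz
    have hb' := hW z' hz'
    by_cases h : z = z'
    · subst h
      rw [← bb_sq]
      nlinarith [sq_nonneg (bb D m z)]
    · have h3 : Th D m z z' = -(D z * m z z') := by simp [Th, h]
      rw [h3, norm_neg, norm_mul]
      calc ‖D z‖ * ‖m z z'‖ ≤ 2 * (μ * (bb D m z * bb D m z')) := by
            gcongr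
            · linarith [F.D2 z]
            · exact F.norm_m_le (by linarith) h
        _ = 2 * μ * (bb D m z * bb D m z') := by ring

/-- **(ii)** minors of `H` on the resonant ports -/
theorem norm_pm_H_le {lam ρ : ℝ} (hΛ : 0 ≤ Λ) (hlam : 0 ≤ lam) (h2 : Λ * Ct ≤ lam ^ 2)
    (hμ : 1 ≤ μ) (hε : 0 ≤ ε) (hε1 : ε ≤ 1)
    (hρ : 2 * lam ≤ ρ) (hρ1 : 1 ≤ ρ) {W : Finset κ} (hW : W ⊆ Zs D m ρ) :
    ‖pm (Hm D m p q γ) W‖ ≤ (8 * (Fintype.card κ : ℝ) * μ * lam) ^ W.card := by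
  have hb : ∀ z ∈ W, 0 < bb D m z := fun z hz => by
    have := mem_Zs.1 (hW hz)
    linarith
  rcases W.eq_empty_or_nonempty with rfl | hne
  · simp [pm]
  obtain ⟨z0, hz0⟩ := hne
  have hk : (1 : ℝ) ≤ Fintype.card κ := by
    exact_mod_cast Fintype.card_pos_iff.2 ⟨z0⟩
  have hCt : 1 ≤ Ct := F.Ct_one hε z0 (by
    have := mem_Zs.1 (hW hz0)
    linarith)
  set k : ℝ := (Fintype.card κ : ℝ) with hkdef
  have h1 : pm (Hm D m p q γ) W = (∏ z ∈ W, γ / (D z * q z)) * pm (Xm D m p q γ) W :=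
    pm_col _ _ _
  have h3 : ‖pm (Xm D m p q γ) W‖ ^ 2 ≤
      Λ ^ W.card * (((2 * k * μ) ^ 2) ^ W.card * ∏ z ∈ W, (Ct * bb D m z ^ 2)) := by
    refine (F.minors W).trans ?_
    have h4 : ‖pm (Th D m) W‖ ^ (1 + ε) ≤
        ((2 * k * μ) ^ W.card * ∏ z ∈ W, bb D m z ^ 2) ^ (1 + ε) :=
      Real.rpow_le_rpow (norm_nonneg _) (F.norm_pm_Th_le hμ hb) (by linarith)
    have h5 : ((2 * k * μ) ^ W.card * ∏ z ∈ W, bb D m z ^ 2) ^ (1 + ε) =
        ((2 * k * μ) ^ W.card) ^ (1 + ε) * ∏ z ∈ W, (bb D m z ^ 2) ^ (1 + ε) := by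
      rw [Real.mul_rpow (by positivity) (Finset.prod_nonneg fun z _ => sq_nonneg _),
        Real.finsetProd_rpow _ _ (fun z _ => sq_nonneg _)]
    have h6 : ((2 * k * μ) ^ W.card) ^ (1 + ε) ≤ ((2 * k * μ) ^ 2) ^ W.card := by
      have h7 : 1 ≤ (2 * k * μ) ^ W.card := one_le_pow₀ (by nlinarith)
      calc ((2 * k * μ) ^ W.card) ^ (1 + ε) ≤ ((2 * k * μ) ^ W.card) ^ (2 : ℝ) :=
            Real.rpow_le_rpow_of_exponent_le h7 (by linarith)
        _ = ((2 * k * μ) ^ 2) ^ W.card := by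
            rw [Real.rpow_two, ← pow_mul, ← pow_mul, mul_comm W.card 2]
    have h8 : ∏ z ∈ W, (bb D m z ^ 2) ^ (1 + ε) ≤ ∏ z ∈ W, (Ct * bb D m z ^ 2) :=
      Finset.prod_le_prod (fun z _ => by positivity) fun z hz => F.rpow_le z (hb z hz)
    have h9 : 0 ≤ ∏ z ∈ W, (bb D m z ^ 2) ^ (1 + ε) :=
      Finset.prod_nonneg fun z _ => by positivity
    rw [h5] at h4
    have h10 : ‖pm (Th D m) W‖ ^ (1 + ε) ≤
        ((2 * k * μ) ^ 2) ^ W.card * ∏ z ∈ W, (Ct * bb D m z ^ 2) :=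
      h4.trans (mul_le_mul h6 h8 h9 (by positivity))
    gcongr
  have h4 : ‖∏ z ∈ W, γ / (D z * q z)‖ ≤ ∏ z ∈ W, (4 / bb D m z) := by
    rw [norm_prod]
    exact Finset.prod_le_prod (fun z _ => norm_nonneg _) fun z hz =>
      F.norm_g_le hΛ hlam h2 hρ hρ1 (hW hz)
  refine le_of_sq_le_sq ?_ (by positivity)
  rw [h1, norm_mul, mul_pow]
  have h5 : (∏ z ∈ W, (4 / bb D m z)) ^ 2 *
      (Λ ^ W.card * (((2 * k * μ) ^ 2) ^ W.card * ∏ z ∈ W, (Ct * bb D m z ^ 2))) =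
      (64 * k ^ 2 * μ ^ 2 * (Λ * Ct)) ^ W.card := by
    rw [← Finset.prod_pow]
    have e1 : ∀ x : ℝ, x ^ W.card = ∏ z ∈ W, x := fun x => by rw [Finset.prod_const]
    rw [e1, e1, e1, ← Finset.prod_mul_distrib, ← Finset.prod_mul_distrib,
      ← Finset.prod_mul_distrib]
    refine Finset.prod_congr rfl fun z hz => ?_
    have := hb z hz
    field_simp
    ring
  have hP : 0 ≤ ∏ z ∈ W, (4 / bb D m z) := Finset.prod_nonneg fun z hz => by
    have := hb z hz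
    positivity
  calc ‖∏ z ∈ W, γ / (D z * q z)‖ ^ 2 * ‖pm (Xm D m p q γ) W‖ ^ 2
      ≤ (∏ z ∈ W, (4 / bb D m z)) ^ 2 *
      (Λ ^ W.card * (((2 * k * μ) ^ 2) ^ W.card * ∏ z ∈ W, (Ct * bb D m z ^ 2))) := by
        gcongr
    _ = (64 * k ^ 2 * μ ^ 2 * (Λ * Ct)) ^ W.card := h5
    _ ≤ (64 * k ^ 2 * μ ^ 2 * lam ^ 2) ^ W.card := by
        have : 0 ≤ Λ * Ct := by positivity
        gcongr
    _ = ((8 * k * μ * lam) ^ W.card) ^ 2 := by
        rw [← pow_mul, mul_comm W.card 2, pow_mul]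
        congr 1
        ring

end Fact

/-- the Green entries `Gh^{[z]}_{z'y}` when the potential of `z` is frozen at `-i` -/
noncomputable def Gz (D : κ → ℂ) (m : Matrix κ κ ℂ) (p : κ → ℂ) (z z' : κ) : ℂ :=
  p z' + D z * m z' z * p z / Th D m z z

theorem Gz_self {z : κ} (hθ : Th D m z z ≠ 0) : Gz D m p z z = p z / Th D m z z := by
  have h : Th D m z z = 1 - D z * m z z := by simp [Th]
  rw [Gz, eq_div_iff hθ, add_mul, div_mul_cancel₀ _ hθ, h]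
  ring

namespace Fact

variable (F : Fact D m p q t γ h0 Λ Ct ε μ δ)

include F

theorem Gz_eq {z z' : κ} (hγ : γ ≠ 0) (hq : q z ≠ 0) (hD : D z ≠ 0) (hθ : Th D m z z ≠ 0)
    (h : z' ≠ z) : Gz D m p z z' = Hm D m p q γ z z' +
      (γ * Xm D m p q γ z z / (q z * Th D m z z)) * m z z' := by
  have h1 : Hm D m p q γ z z' = p z' - γ * m z z' / q z := by
    simp only [Hm, Xm, Th, Matrix.of_apply, if_neg h.symm]
    field_simp
    ring
  have h2 : Xm D m p q γ z z = Th D m z z + D z * q z * p z / γ := rfl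
  rw [h1, h2, Gz, F.symm z' z]
  field_simp
  ring

/-- **(iv)** the sink: the self-energy of `y` is small when the potential of `z` is frozen -/
theorem sink_sum_le {lam ρ : ℝ} (hΛ : 0 ≤ Λ) (hlam : 0 ≤ lam) (h2 : Λ * Ct ≤ lam ^ 2)
    (hμ : 0 ≤ μ) (hδ : 0 ≤ δ) (hρ : 2 * lam ≤ ρ) (hρ1 : 1 ≤ ρ) {z : κ} (hz : z ∈ Zs D m ρ)
    {B : ℝ} (hB : 0 ≤ B) (hs : ∀ z' ∈ Zs D m ρ, z' ≠ z → ‖Hm D m p q γ z z'‖ ≤ B) :
    ‖∑ z', t z' * Gz D m p z z'‖ ≤ (Fintype.card κ : ℝ) * δ * (B + (2 + 3 * μ) * ρ + 6 * lam * μ)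
      + 24 * lam / ρ + 12 * lam * δ + 2 * δ := by
  obtain ⟨-, hγ, hq, hD⟩ := F.ne_zero hΛ hlam h2 hρ hρ1 hz
  have hzρ := mem_Zs.1 hz
  set b := bb D m z with hbdef
  have hb : 0 < b := by linarith
  have hb1 : 1 ≤ b := by linarith
  have hθn : ‖Th D m z z‖ = b ^ 2 := (bb_sq z).symm
  have hθ : Th D m z z ≠ 0 := by
    rw [← norm_pos_iff, hθn]
    positivity
  set k : ℝ := (Fintype.card κ : ℝ) with hk
  have hk0 : 0 ≤ k := Nat.cast_nonneg _
  set N : Finset κ := Finset.univ.filter (fun z' => ¬ ρ < bb D m z') with hN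
  set Z' : Finset κ := (Zs D m ρ).erase z with hZ'
  have split : ∀ f : κ → ℂ, ∑ z', f z' = ∑ z' ∈ Z', f z' + f z + ∑ z' ∈ N, f z' := by
    intro f
    rw [hZ', Finset.sum_erase_add _ _ hz, Zs, hN, Finset.sum_filter_add_sum_filter_not]
  set c : ℂ := γ * Xm D m p q γ z z / (q z * Th D m z z) with hc
  have hcn : ‖c‖ ≤ 6 * lam / b ^ 2 := by
    have h3 : c = D z * (γ / (D z * q z)) * Xm D m p q γ z z / Th D m z z := by
      rw [hc]
      field_simp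
    rw [h3, norm_div, norm_mul, norm_mul, hθn]
    have h4 := F.norm_g_le hΛ hlam h2 hρ hρ1 hz
    have h5 := F.norm_X_le hΛ hlam h2 z hb
    calc ‖D z‖ * ‖γ / (D z * q z)‖ * ‖Xm D m p q γ z z‖ / b ^ 2
        ≤ 3 / 2 * (4 / b) * (lam * b) / b ^ 2 := by
          gcongr
          exact F.D2 z
      _ = 6 * lam / b ^ 2 := by
          field_simp
          ring
  have hmem : ∀ z' ∈ Z', z' ∈ Zs D m ρ ∧ z' ≠ z := fun z' hz' => by
    rw [hZ', Finset.mem_erase] at hz'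
    exact ⟨hz'.2, hz'.1⟩
  -- the sum over the other resonant ports
  have e1 : ∑ z' ∈ Z', t z' * Gz D m p z z' = ∑ z' ∈ Z', t z' * Hm D m p q γ z z' +
      c * ∑ z' ∈ Z', t z' * m z' z := by
    rw [Finset.mul_sum, ← Finset.sum_add_distrib]
    refine Finset.sum_congr rfl fun z' hz' => ?_
    rw [F.Gz_eq hγ hq hD hθ (hmem z' hz').2, F.symm z' z]
    ring
  have e2 : ∑ z' ∈ Z', t z' * m z' z = (-Complex.I - h0) * p z - t z * m z z -
      ∑ z' ∈ N, t z' * m z' z := by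
    have h3 := split fun z' => t z' * m z' z
    rw [F.row z] at h3
    rw [h3]
    ring
  have hcard : ∀ (s : Finset κ) (f : κ → ℂ) (M : ℝ), 0 ≤ M → (∀ z' ∈ s, ‖f z'‖ ≤ M) →
      ‖∑ z' ∈ s, t z' * f z'‖ ≤ k * (δ * M) := by
    intro s f M hM h
    refine (norm_sum_le _ _).trans ?_
    calc ∑ z' ∈ s, ‖t z' * f z'‖ ≤ ∑ z' ∈ s, δ * M := by
          refine Finset.sum_le_sum fun z' hz' => ?_
          rw [norm_mul]
          exact mul_le_mul (F.t_le z') (h z' hz') (norm_nonneg _) hδ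
      _ = (s.card : ℝ) * (δ * M) := by rw [Finset.sum_const, nsmul_eq_mul]
      _ ≤ k * (δ * M) := by
          have : (s.card : ℝ) ≤ k := by
            rw [hk]
            exact_mod_cast Finset.card_le_univ s
          gcongr
  have hNb : ∀ z' ∈ N, bb D m z' ≤ ρ ∧ z' ≠ z := by
    intro z' hz'
    rw [hN, Finset.mem_filter] at hz'
    refine ⟨not_lt.1 hz'.2, ?_⟩
    rintro rfl
    exact hz'.2 hzρ
  have T1 : ‖∑ z' ∈ Z', t z' * Hm D m p q γ z z'‖ ≤ k * (δ * B) :=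
    hcard _ _ _ hB fun z' hz' => hs z' (hmem z' hz').1 (hmem z' hz').2
  have T2a : ‖(-Complex.I - h0) * p z‖ ≤ 2 * (2 * b) := by
    rw [norm_mul]
    have h3 : ‖-Complex.I - h0‖ ≤ 2 := by
      refine (norm_sub_le _ _).trans ?_
      rw [norm_neg, Complex.norm_I]
      linarith [F.h0_le]
    exact mul_le_mul h3 (F.norm_p_le z) (norm_nonneg _) (by norm_num)
  have T2b : ‖t z * m z z‖ ≤ δ * (1 + b ^ 2) := by
    rw [norm_mul]
    exact mul_le_mul (F.t_le z) (F.norm_m_self_le z) (norm_nonneg _) hδ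
  have T2c : ‖∑ z' ∈ N, t z' * m z' z‖ ≤ k * (δ * (μ * (ρ * b))) := by
    refine hcard _ _ _ (by positivity) fun z' hz' => ?_
    obtain ⟨h3, h4⟩ := hNb z' hz'
    refine (F.norm_m_le hμ h4).trans ?_
    gcongr
  have T2 : ‖c * ∑ z' ∈ Z', t z' * m z' z‖ ≤
      24 * lam / ρ + 12 * lam * δ + k * δ * (6 * lam * μ) := by
    rw [norm_mul, e2]
    have h3 : ‖(-Complex.I - h0) * p z - t z * m z z - ∑ z' ∈ N, t z' * m z' z‖ ≤
        2 * (2 * b) + δ * (1 + b ^ 2) + k * (δ * (μ * (ρ * b))) :=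
      (norm_sub_le _ _).trans (add_le_add ((norm_sub_le _ _).trans (add_le_add T2a T2b)) T2c)
    have h4 : 6 * lam / b ^ 2 * (2 * (2 * b) + δ * (1 + b ^ 2) + k * (δ * (μ * (ρ * b)))) =
        24 * lam / b + 6 * lam * δ * (1 / b ^ 2 + 1) + k * δ * (6 * lam * μ) * (ρ / b) := by
      field_simp
      ring
    have h5 : 24 * lam / b ≤ 24 * lam / ρ := by gcongr
    have h6 : (1 : ℝ) / b ^ 2 ≤ 1 := by
      rw [div_le_one (by positivity)]
      nlinarith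
    have h7 : ρ / b ≤ 1 := by
      rw [div_le_one hb]
      linarith
    calc ‖c‖ * ‖(-Complex.I - h0) * p z - t z * m z z - ∑ z' ∈ N, t z' * m z' z‖
        ≤ 6 * lam / b ^ 2 * (2 * (2 * b) + δ * (1 + b ^ 2) + k * (δ * (μ * (ρ * b)))) := by
          gcongr
      _ = 24 * lam / b + 6 * lam * δ * (1 / b ^ 2 + 1) + k * δ * (6 * lam * μ) * (ρ / b) := h4
      _ ≤ 24 * lam / ρ + 6 * lam * δ * (1 + 1) + k * δ * (6 * lam * μ) * 1 := by gcongr
      _ = _ := by ring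
  have T3 : ‖t z * Gz D m p z z‖ ≤ 2 * δ := by
    rw [Gz_self hθ, norm_mul, norm_div, hθn]
    calc ‖t z‖ * (‖p z‖ / b ^ 2) ≤ δ * (2 * b / b ^ 2) := by
          gcongr
          · exact F.t_le z
          · exact F.norm_p_le z
      _ = δ * (2 / b) := by
          congr 1
          field_simp
      _ ≤ δ * 2 := by
          gcongr
          rw [div_le_iff₀ hb]
          linarith
      _ = 2 * δ := mul_comm _ _
  have T4 : ‖∑ z' ∈ N, t z' * Gz D m p z z'‖ ≤ k * (δ * ((2 + 3 * μ) * ρ)) := by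
    refine hcard _ _ _ (by positivity) fun z' hz' => ?_
    obtain ⟨h3, h4⟩ := hNb z' hz'
    have hb' := bb_nonneg (D := D) (m := m) z'
    rw [Gz]
    refine (norm_add_le _ _).trans ?_
    rw [norm_div, norm_mul, norm_mul, hθn]
    calc ‖p z'‖ + ‖D z‖ * ‖m z' z‖ * ‖p z‖ / b ^ 2
        ≤ 2 * bb D m z' + 3 / 2 * (μ * (bb D m z' * b)) * (2 * b) / b ^ 2 := by
          gcongr
          · exact F.norm_p_le z'
          · exact F.D2 z
          · exact F.norm_m_le hμ h4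
          · exact F.norm_p_le z
      _ = (2 + 3 * μ) * bb D m z' := by
          field_simp
      _ ≤ (2 + 3 * μ) * ρ := by gcongr
  rw [split, e1]
  calc ‖∑ z' ∈ Z', t z' * Hm D m p q γ z z' + c * ∑ z' ∈ Z', t z' * m z' z +
        t z * Gz D m p z z + ∑ z' ∈ N, t z' * Gz D m p z z'‖
      ≤ k * (δ * B) + (24 * lam / ρ + 12 * lam * δ + k * δ * (6 * lam * μ)) + 2 * δ +
        k * (δ * ((2 + 3 * μ) * ρ)) := by
        refine (norm_add_le _ _).trans (add_le_add ((norm_add_le _ _).trans (add_le_add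
          ((norm_add_le _ _).trans (add_le_add T1 T2)) T3)) T4)
    _ = _ := by ring

/-- **(v)** no resonant port: the total amplitude at the ports is small -/
theorem empty_sum_le {ρ : ℝ} (hδ : 0 ≤ δ) (hZ : Zs D m ρ = ∅) :
    ‖∑ z', t z' * p z'‖ ≤ (Fintype.card κ : ℝ) * δ * (2 * ρ) := by
  refine (norm_sum_le _ _).trans ?_
  calc ∑ z', ‖t z' * p z'‖ ≤ ∑ _z' : κ, δ * (2 * ρ) := by
        refine Finset.sum_le_sum fun z' _ => ?_
        rw [norm_mul]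
        have h1 : bb D m z' ≤ ρ := by
          by_contra h
          have h3 : z' ∈ Zs D m ρ := mem_Zs.2 (not_le.1 h)
          rw [hZ] at h3
          exact absurd h3 (Finset.notMem_empty _)
        exact mul_le_mul (F.t_le z') ((F.norm_p_le z').trans (by linarith)) (norm_nonneg _) hδ
    _ = _ := by
        rw [Finset.sum_const, nsmul_eq_mul, Finset.card_univ]
        ring

end Fact

/-- the statement of the cycle lemma in the form which is used: a finite set with a matrix all of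
whose principal minors are small has a sink -/
def SinkLemma (C : ℝ) : Prop :=
  ∀ (κ : Type) [Fintype κ] [DecidableEq κ] (H : Matrix κ κ ℂ) (Z : Finset κ) (r : ℝ), 0 ≤ r →
    Z.Nonempty → (∀ W ⊆ Z, ‖pm H W‖ ≤ r ^ W.card) →
    ∃ z ∈ Z, ∀ z' ∈ Z, z' ≠ z → ‖H z z'‖ ≤ C * (Fintype.card κ : ℝ) * r

/-- **the sink step**: if the total amplitude at the ports is not small, some resonant port `z` has
a small self-energy sum when its potential is frozen at `-i` -/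
theorem exists_sink {κ : Type} [Fintype κ] [DecidableEq κ] {D : κ → ℂ} {m : Matrix κ κ ℂ}
    {p q t : κ → ℂ} {γ h0 : ℂ} {Λ Ct ε μ δ C : ℝ} (hS : SinkLemma C)
    (F : Fact D m p q t γ h0 Λ Ct ε μ δ)
    {lam ρ : ℝ} (hC : 0 ≤ C) (hΛ : 0 ≤ Λ) (hlam : 0 ≤ lam) (h2 : Λ * Ct ≤ lam ^ 2)
    (hμ : 1 ≤ μ) (hε : 0 ≤ ε) (hε1 : ε ≤ 1) (hδ : 0 ≤ δ) (hρ : 2 * lam ≤ ρ) (hρ1 : 1 ≤ ρ)
    (hbig : (Fintype.card κ : ℝ) * δ * (2 * ρ) < ‖∑ z', t z' * p z'‖) :
    ∃ z, ρ ^ 2 < ‖Th D m z z‖ ∧ ‖∑ z', t z' * Gz D m p z z'‖ ≤ (Fintype.card κ : ℝ) * δ *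
      (8 * C * (Fintype.card κ : ℝ) ^ 2 * μ * lam + (2 + 3 * μ) * ρ + 6 * lam * μ)
      + 24 * lam / ρ + 12 * lam * δ + 2 * δ := by
  have hne : (Zs D m ρ).Nonempty := by
    rw [Finset.nonempty_iff_ne_empty]
    intro h
    exact absurd (F.empty_sum_le hδ h) (not_le.2 hbig)
  obtain ⟨z, hz, hsink⟩ := hS κ (Hm D m p q γ) (Zs D m ρ) (8 * (Fintype.card κ : ℝ) * μ * lam)
    (by positivity) hne fun W hW => F.norm_pm_H_le hΛ hlam h2 hμ hε hε1 hρ hρ1 hW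
  refine ⟨z, ?_, ?_⟩
  · have h3 := mem_Zs.1 hz
    rw [← bb_sq]
    gcongr
  · refine (F.sink_sum_le hΛ hlam h2 (by linarith) hδ hρ hρ1 hz
      (B := C * (Fintype.card κ : ℝ) * (8 * (Fintype.card κ : ℝ) * μ * lam)) (by positivity)
      hsink).trans (le_of_eq ?_)
    ring

end P365ISL.Sink
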