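import Vale.Agent.P365.ISL.Isl701

/-!
# P365-T1, ISL: the non-resonant case, `1 ≤ C (e + η) ∫ |1/(V - E - ie - s)|²`.
-/

set_option linter.all false

namespace P365T1.ISL

open P365L P365O P365T1 P365T1.OneVar Matrix Complex MeasureTheory Function
open scoped ComplexConjugate ENNReal

/-- lower bound of the resonant average -/
theorem one_le_int {ν : Measure ℝ} {κ a E e : ℝ} (hκ : 0 < κ) (hD : DensGe κ a ν) (he : 0 < e)
    {s : ℂ} (hs : 0 ≤ s.im) {w : ℝ} (hw : e + s.im ≤ w) (ha : |E + s.re| + w ≤ a) :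
    1 ≤ ENNReal.ofReal (2 * w / κ) *
      ∫⁻ u, ENNReal.ofReal (‖(1 : ℂ) / (((u - E : ℝ) : ℂ) - (e : ℂ) * I - s)‖ ^ 2) ∂ν := by
  have hw0 : 0 < w := by linarith
  set c : ℝ := E + s.re with hc
  have hsub : Set.Icc c (c + w) ⊆ Set.Icc (-a) a := by
    intro u hu
    have h1 := neg_abs_le c
    have h2 := le_abs_self c
    exact ⟨by linarith [hu.1], by linarith [hu.2]⟩
  have key : ∀ u ∈ Set.Icc c (c + w), ENNReal.ofReal (1 / (2 * w ^ 2)) ≤
      ENNReal.ofReal (‖(1 : ℂ) / (((u - E : ℝ) : ℂ) - (e : ℂ) * I - s)‖ ^ 2) := by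
    intro u hu
    refine ENNReal.ofReal_le_ofReal ?_
    have e1 : ‖((u - E : ℝ) : ℂ) - (e : ℂ) * I - s‖ ^ 2 = (u - c) ^ 2 + (e + s.im) ^ 2 := by
      rw [← Complex.normSq_eq_norm_sq, Complex.normSq_apply]
      simp
      rw [hc]
      ring
    rw [norm_div, norm_one, div_pow, one_pow, e1]
    have h1 : 0 ≤ u - c := by linarith [hu.1]
    have h2 : u - c ≤ w := by linarith [hu.2]
    have h3 : 0 < e + s.im := by linarith
    have h4 : (u - c) ^ 2 ≤ w ^ 2 := pow_le_pow_left₀ h1 h2 2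
    have h5 : (e + s.im) ^ 2 ≤ w ^ 2 := pow_le_pow_left₀ h3.le hw 2
    apply one_div_le_one_div_of_le (by positivity)
    linarith
  have e2 : ENNReal.ofReal (κ / (2 * w)) ≤
      ∫⁻ u, ENNReal.ofReal (‖(1 : ℂ) / (((u - E : ℝ) : ℂ) - (e : ℂ) * I - s)‖ ^ 2) ∂ν := by
    calc ENNReal.ofReal (κ / (2 * w))
        = ENNReal.ofReal κ * (ENNReal.ofReal (1 / (2 * w ^ 2)) * volume (Set.Icc c (c + w))) := by
          rw [Real.volume_Icc, add_sub_cancel_left, ← ENNReal.ofReal_mul (by positivity),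
            ← ENNReal.ofReal_mul hκ.le]
          congr 1
          field_simp
      _ = ENNReal.ofReal κ * ∫⁻ u in Set.Icc c (c + w), ENNReal.ofReal (1 / (2 * w ^ 2)) := by
          rw [setLIntegral_const]
      _ ≤ ENNReal.ofReal κ * ∫⁻ u in Set.Icc c (c + w),
            ENNReal.ofReal (‖(1 : ℂ) / (((u - E : ℝ) : ℂ) - (e : ℂ) * I - s)‖ ^ 2) := by
          exact mul_le_mul_right (setLIntegral_mono' measurableSet_Icc key) _
      _ ≤ ENNReal.ofReal κ * ∫⁻ u in Set.Icc (-a) a,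
            ENNReal.ofReal (‖(1 : ℂ) / (((u - E : ℝ) : ℂ) - (e : ℂ) * I - s)‖ ^ 2) := by
          gcongr
      _ = ∫⁻ u, ENNReal.ofReal (‖(1 : ℂ) / (((u - E : ℝ) : ℂ) - (e : ℂ) * I - s)‖ ^ 2)
            ∂(ENNReal.ofReal κ • (volume : Measure ℝ).restrict (Set.Icc (-a) a)) := by
          rw [lintegral_smul_measure]
          rfl
      _ ≤ _ := lintegral_mono' hD le_rfl
  calc (1 : ℝ≥0∞) = ENNReal.ofReal (2 * w / κ) * ENNReal.ofReal (κ / (2 * w)) := by
        rw [← ENNReal.ofReal_mul (by positivity)]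
        have : 2 * w / κ * (κ / (2 * w)) = 1 := by field_simp
        rw [this, ENNReal.ofReal_one]
    _ ≤ _ := by gcongr

/-- the hypothesis `hsmall` of `isl_core` -/
theorem hsmall_of_dens {ι : Type*} [Fintype ι] [DecidableEq ι] {ν : ι → Measure ℝ} {κ a E : ℝ}
    {e : ι → ℝ} {y : ι} (hκ : 0 < κ) (hD : DensGe κ a (ν y)) (he : 0 < e y) {x0 η0 : ℝ}
    (ha : |E + x0| + 2 * η0 + e y ≤ a) :
    ∀ s : ℂ, 0 ≤ s.im → ‖s - (x0 : ℂ)‖ ≤ η0 →
      1 ≤ ENNReal.ofReal (2 * (e y + η0) / κ) *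
        ∫⁻ u, ENNReal.ofReal (‖(1 : ℂ) / (wz E e y u - s)‖ ^ 2) ∂(ν y) := by
  intro s hs h
  have h1 : |s.re - x0| ≤ η0 := by
    have := Complex.abs_re_le_norm (s - (x0 : ℂ))
    rw [Complex.sub_re, Complex.ofReal_re] at this
    exact this.trans h
  have h2 : s.im ≤ η0 := by
    have := Complex.abs_im_le_norm (s - (x0 : ℂ))
    rw [Complex.sub_im, Complex.ofReal_im, sub_zero] at this
    exact (le_abs_self _).trans (this.trans h)
  have h3 : |E + s.re| ≤ |E + x0| + η0 := by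
    calc |E + s.re| = |(E + x0) + (s.re - x0)| := by ring_nf
      _ ≤ |E + x0| + |s.re - x0| := abs_add_le _ _
      _ ≤ _ := by linarith
  have h4 := one_le_int (E := E) hκ hD he hs (w := e y + η0) (by linarith) (by linarith)
  exact h4

end P365T1.ISL
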