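import Vale.Agent.P365.ISL.Link77
import Vale.Agent.P365.ISL.Mass

/-!
# P365 T1, insulated site lemma: two sites `y, z` of a world, everything else eliminated
-/

set_option linter.all false

namespace P365T1.ISL755

open P365L P365O P365T1 P365T1.OneVar P365T1.ISL P365T1.Link Matrix Complex MeasureTheory Function
open scoped ComplexConjugate ENNReal

variable {ι : Type*} [Fintype ι] [DecidableEq ι] {A : Matrix ι ι ℝ} {W : ι → ℂ} {y z : ι}

theorem pair_inj (hyz : y ≠ z) : Function.Injective (![y, z] : Fin 2 → ι) := by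
  intro i j h
  fin_cases i <;> fin_cases j <;> simp_all

/-- the two-site form -/
theorem two_world (hA : A.IsSymm) (hW : ∀ x, (W x).im < 0) (hyz : y ≠ z) (a : ι) :
    ∃ h s τ α β : ℂ, 0 ≤ h.im ∧ 0 ≤ s.im ∧ τ.im ^ 2 ≤ h.im * s.im ∧
      ∀ p q : ℂ, p.im < 0 → q.im < 0 →
        (p - h) * (q - s) - τ ^ 2 ≠ 0 ∧
        Gr A (update (update W y p) z q) y a =
          ((p - h) * (q - s) - τ ^ 2)⁻¹ * ((q - s) * α + β) ∧
        sg A (update (update W y p) z q) y = h + τ ^ 2 / (q - s) ∧
        sg A (update (update W y p) z q) z = s + τ ^ 2 / (p - h) := by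
  set em : Fin 2 → ι := ![y, z] with hem0
  have hem : Function.Injective em := pair_inj hyz
  set Sg := SgP A W em with hSg
  set h := Sg 0 0 with hh
  set s := Sg 1 1 with hs
  set τ := Sg 0 1 with hτ
  have hτ' : Sg 1 0 = τ := by
    have := congrFun (congrFun (SgP_symm (W := W) (em := em) hA) 0) 1
    rw [Matrix.transpose_apply] at this
    exact this
  have hform : ∀ x₁ x₂ : ℝ, 0 ≤ h.im * x₁ ^ 2 + 2 * τ.im * x₁ * x₂ + s.im * x₂ ^ 2 := by
    intro x₁ x₂
    have h1 := SgP_form_nonneg hA hW hem ![(x₁ : ℂ), (x₂ : ℂ)]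
    rw [Fin.sum_univ_two] at h1
    simp only [Matrix.mulVec, dotProduct, Fin.sum_univ_two, Matrix.cons_val_zero,
      Matrix.cons_val_one, Complex.conj_ofReal, ← hSg] at h1
    rw [← hh, ← hs, ← hτ, hτ'] at h1
    simp only [Complex.add_im, Complex.mul_im, Complex.ofReal_re, Complex.ofReal_im, zero_mul,
      add_zero, mul_zero, Complex.add_re, Complex.mul_re, sub_zero] at h1
    nlinarith [h1]
  have hh0 : 0 ≤ h.im := by
    have := hform 1 0
    simpa using this
  have hs0 : 0 ≤ s.im := by
    have := hform 0 1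
    simpa using this
  have hdisc : τ.im ^ 2 ≤ h.im * s.im := by
    by_contra hc
    push Not at hc
    rcases eq_or_lt_of_le hh0 with h0 | h0
    · have h2 := hform (-(s.im + 1)) τ.im
      rw [← h0] at h2 hc
      nlinarith [sq_nonneg τ.im]
    · have h2 := hform τ.im (-h.im)
      nlinarith
  set F := FP A W em a with hF
  refine ⟨h, s, τ, F 0, τ * F 1, hh0, hs0, hdisc, ?_⟩
  intro p q hp hq
  set W' := update (update W y p) z q with hW'
  have hW'n : ∀ x, (W' x).im < 0 := fun x => update_neg (update_neg hW hp) hq x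
  have hoff : ∀ x, x ∉ Set.range em → W' x = W x := by
    intro x hx
    have h1 : x ≠ z := by rintro rfl; exact hx ⟨1, rfl⟩
    have h2 : x ≠ y := by rintro rfl; exact hx ⟨0, rfl⟩
    rw [hW', update_of_ne h1, update_of_ne h2]
  have hy' : W' y = p := by rw [hW', update_of_ne hyz, update_self]
  have hz' : W' z = q := by rw [hW', update_self]
  have hMP : MP A W' em = Matrix.diagonal (fun i => W' (em i)) - Sg := by
    rw [hSg, ← SgP_congr hA hW hW'n hem hoff, SgP, sub_sub_cancel]
  have e00 : MP A W' em 0 0 = p - h := by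
    rw [hMP, Matrix.sub_apply, Matrix.diagonal_apply_eq, hh, hem0]
    simp [hy']
  have e11 : MP A W' em 1 1 = q - s := by
    rw [hMP, Matrix.sub_apply, Matrix.diagonal_apply_eq, hs, hem0]
    simp [hz']
  have e01 : MP A W' em 0 1 = -τ := by
    rw [hMP, Matrix.sub_apply, Matrix.diagonal_apply_ne _ (by decide), hτ]
    ring
  have e10 : MP A W' em 1 0 = -τ := by
    rw [hMP, Matrix.sub_apply, Matrix.diagonal_apply_ne _ (by decide), hτ']
    ring
  have em0 : em 0 = y := rfl
  have em1 : em 1 = z := rfl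
  have hFe := FP_congr hA hW hW'n hem hoff a
  have f0 : (p - h) * Gr A W' y a - τ * Gr A W' z a = F 0 := by
    have h1 := congrFun hFe 0
    rw [FP, Matrix.mulVec, dotProduct, Fin.sum_univ_two, e00, e01, em0, em1] at h1
    rw [hF, ← h1]
    ring
  have f1 : -τ * Gr A W' y a + (q - s) * Gr A W' z a = F 1 := by
    have h1 := congrFun hFe 1
    rw [FP, Matrix.mulVec, dotProduct, Fin.sum_univ_two, e10, e11, em0, em1] at h1
    rw [hF, ← h1]
  have hone := MP_mul_GP hA hW'n hem
  have g00 : (p - h) * Gr A W' y y - τ * Gr A W' z y = 1 := by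
    have h1 := congrFun (congrFun hone 0) 0
    rw [Matrix.mul_apply, Fin.sum_univ_two, e00, e01, Matrix.one_apply_eq] at h1
    rw [← h1]
    simp only [GP, Matrix.submatrix_apply, em0, em1]
    ring
  have g10 : -τ * Gr A W' y y + (q - s) * Gr A W' z y = 0 := by
    have h1 := congrFun (congrFun hone 1) 0
    rw [Matrix.mul_apply, Fin.sum_univ_two, e10, e11, Matrix.one_apply_ne (by decide)] at h1
    rw [← h1]
    simp only [GP, Matrix.submatrix_apply, em0, em1]
  have g01 : (p - h) * Gr A W' y z - τ * Gr A W' z z = 0 := by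
    have h1 := congrFun (congrFun hone 0) 1
    rw [Matrix.mul_apply, Fin.sum_univ_two, e00, e01, Matrix.one_apply_ne (by decide)] at h1
    rw [← h1]
    simp only [GP, Matrix.submatrix_apply, em0, em1]
    ring
  have g11 : -τ * Gr A W' y z + (q - s) * Gr A W' z z = 1 := by
    have h1 := congrFun (congrFun hone 1) 1
    rw [Matrix.mul_apply, Fin.sum_univ_two, e10, e11, Matrix.one_apply_eq] at h1
    rw [← h1]
    simp only [GP, Matrix.submatrix_apply, em0, em1]
  have hqs : q - s ≠ 0 := by
    intro h0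
    have := congrArg Complex.im h0
    rw [Complex.sub_im, Complex.zero_im] at this
    linarith
  have hph : p - h ≠ 0 := by
    intro h0
    have := congrArg Complex.im h0
    rw [Complex.sub_im, Complex.zero_im] at this
    linarith
  have hDy : ((p - h) * (q - s) - τ ^ 2) * Gr A W' y y = q - s := by
    linear_combination (q - s) * g00 + τ * g10
  have hDz : ((p - h) * (q - s) - τ ^ 2) * Gr A W' z z = p - h := by
    linear_combination τ * g01 + (p - h) * g11
  have hD : (p - h) * (q - s) - τ ^ 2 ≠ 0 := by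
    intro h0
    rw [h0, zero_mul] at hDy
    exact hqs hDy.symm
  have hDa : ((p - h) * (q - s) - τ ^ 2) * Gr A W' y a = (q - s) * F 0 + τ * F 1 := by
    linear_combination (q - s) * f0 + τ * f1
  have hGy : Gr A W' y y = (q - s) / ((p - h) * (q - s) - τ ^ 2) := by
    rw [eq_div_iff hD, mul_comm]
    exact hDy
  have hGz : Gr A W' z z = (p - h) / ((p - h) * (q - s) - τ ^ 2) := by
    rw [eq_div_iff hD, mul_comm]
    exact hDz
  refine ⟨hD, ?_, ?_, ?_⟩
  · rw [eq_inv_mul_iff_mul_eq₀ hD]
    exact hDa
  · rw [sg, hy', hGy]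
    field_simp
    ring
  · rw [sg, hz', hGz]
    field_simp
    ring

/-- the two-site form of a world: all the quantities of the line inequality -/
theorem line_world (hA : A.IsSymm) {E : ℝ} {e : ι → ℝ} (he : ∀ x, 0 < e x) {y z : ι}
    (hyz : y ≠ z) (a : ι) (c : ι → ℝ) :
    ∃ h s τ α β : ℂ, 0 ≤ h.im ∧ 0 ≤ s.im ∧ τ.im ^ 2 ≤ h.im * s.im ∧
      sg A (wF E e (insert z {y}) c) y = h + τ ^ 2 / (-I - s) ∧
      ∀ t : ℝ,
        thU A E e {y} {z} (update c z t) =
          (-I - (s + τ ^ 2 / (-I - h))) / (wz E e z t - (s + τ ^ 2 / (-I - h))) ∧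
        fa A E e y a {y} (update c z t) = ENNReal.ofReal
          (‖((-I - h) * (wz E e z t - s) - τ ^ 2)⁻¹ * ((wz E e z t - s) * α + β)‖ ^ 2) ∧
        ∀ u : ℝ, fa A E e y a ∅ (update (update c z t) y u) = ENNReal.ofReal
          (‖((wz E e y u - h) * (wz E e z t - s) - τ ^ 2)⁻¹ *
            ((wz E e z t - s) * α + β)‖ ^ 2) := by
  have hI : (-I : ℂ).im < 0 := by simp
  have hwz : ∀ (x : ι) (t : ℝ), (wz E e x t).im < 0 := fun x t => by
    rw [wz_im]; linarith [he x]
  obtain ⟨h, s, τ, α, β, h0, s0, hτ, hall⟩ :=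
    two_world (W := WV E e c) hA (WV_neg he c) hyz a
  refine ⟨h, s, τ, α, β, h0, s0, hτ, ?_, ?_⟩
  · have e1 : wF E e (insert z {y}) c = update (update (WV E e c) y (-I)) z (-I) := by
      rw [wF_insert]
      congr 1
      have := wF_insert (E := E) (e := e) y ∅ c
      rw [wF_empty] at this
      simpa using this
    rw [e1]
    exact (hall (-I) (-I) hI hI).2.2.1
  · intro t
    have hzy : z ∉ ({y} : Finset ι) := by
      rw [Finset.mem_singleton]
      exact hyz.symm
    have e2 : wF E e {y} (update c z t) =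
        update (update (WV E e c) y (-I)) z (wz E e z t) := by
      rw [wF_update_not_mem hzy]
      congr 1
      have := wF_insert (E := E) (e := e) y ∅ c
      rw [wF_empty] at this
      simpa using this
    have h2 := hall (-I) (wz E e z t) hI (hwz z t)
    refine ⟨?_, ?_, ?_⟩
    · have e3 : thU A E e {y} {z} (update c z t) =
          (-I - sg A (wF E e {y} (update c z t)) z) /
            (wz E e z t - sg A (wF E e {y} (update c z t)) z) := by
        rw [thU_update hA he hzy, sg_wF_update hA he hzy]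
      rw [e3, e2, h2.2.2.2]
    · rw [fa, e2, h2.2.1]
    · intro u
      have h3 := hall (wz E e y u) (wz E e z t) (hwz y u) (hwz z t)
      have e4 : wF E e ∅ (update (update c z t) y u) =
          update (update (WV E e c) y (wz E e y u)) z (wz E e z t) := by
        rw [wF_update_not_mem (Finset.notMem_empty y), wF_update_not_mem (Finset.notMem_empty z),
          wF_empty, update_comm hyz]
      rw [fa, e4, h3.2.1]

end P365T1.ISL755
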